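import Mathlib

open scoped Manifold ContDiff Topology
open Set Filter

set_option maxSynthPendingDepth 3

namespace Vale.Agent.P255

section FlowAux

variable {K : Type} [TopologicalSpace K] [CompactSpace K]
variable {B : Type} [NormedAddCommGroup B] [NormedSpace ℝ B]

/-- Pointwise application of a continuous family of operators. -/
noncomputable def flowAppL (K : Type) [TopologicalSpace K] [CompactSpace K]
    (B E : Type) [NormedAddCommGroup B] [NormedSpace ℝ B] [NormedAddCommGroup E]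
    [NormedSpace ℝ E] : C(K, B →L[ℝ] E) →L[ℝ] C(K, B) →L[ℝ] C(K, E) :=
  LinearMap.mkContinuous₂
    (LinearMap.mk₂ ℝ
      (fun (A : C(K, B →L[ℝ] E)) (h : C(K, B)) =>
        (⟨fun t => A t (h t), A.continuous.clm_apply h.continuous⟩ : C(K, E)))
      (fun A A' h => by ext t; simp)
      (fun c A h => by ext t; simp)
      (fun A h h' => by ext t; simp)
      (fun c A h => by ext t; simp)) 1
    (fun A h => by
      rw [one_mul]
      refine (ContinuousMap.norm_le _ (by positivity)).2 fun t => ?_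
      exact (A t).le_opNorm (h t) |>.trans
        (mul_le_mul (A.norm_coe_le_norm t) (h.norm_coe_le_norm t) (norm_nonneg _)
          (norm_nonneg _)))

theorem flowAppL_apply {E : Type} [NormedAddCommGroup E] [NormedSpace ℝ E]
    (A : C(K, B →L[ℝ] E)) (h : C(K, B)) (t : K) : flowAppL K B E A h t = A t (h t) := rfl

theorem flow_hasFDerivAt_comp {E : Type} [NormedAddCommGroup E] [NormedSpace ℝ E]
    (G : C(B, E)) (G' : C(B, B →L[ℝ] E)) (hG : ∀ x, HasFDerivAt G (G' x) x) (u : C(K, B)) :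
    HasFDerivAt (fun v : C(K, B) => G.comp v) (flowAppL K B E (G'.comp u)) u := by
  rw [hasFDerivAt_iff_isLittleO_nhds_zero, Asymptotics.isLittleO_iff]
  intro c hc
  have hcont : ContinuousAt (fun v : C(K, B) => G'.comp v) u :=
    (ContinuousMap.continuous_postcomp G').continuousAt
  obtain ⟨δ, hδ, hδ'⟩ := Metric.continuousAt_iff.1 hcont c hc
  filter_upwards [Metric.ball_mem_nhds (0 : C(K, B)) hδ] with h hh
  rw [mem_ball_zero_iff] at hh
  refine (ContinuousMap.norm_le _ (by positivity)).2 fun t => ?_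
  have hb : ∀ x ∈ Metric.ball (u t) δ, ‖G' x - G' (u t)‖ ≤ c := by
    intro x hx
    have h1 : dist (u + ContinuousMap.const K (x - u t)) u < δ := by
      rw [dist_eq_norm, add_sub_cancel_left]
      refine lt_of_le_of_lt ((ContinuousMap.norm_le _ (norm_nonneg (x - u t))).2 fun s => ?_) ?_
      · simp
      · rwa [← dist_eq_norm]
    have h2 := (hδ' h1).le
    rw [dist_eq_norm] at h2
    have h3 := (ContinuousMap.norm_coe_le_norm _ t).trans h2
    simpa using h3
  have hmem : u t + h t ∈ Metric.ball (u t) δ := by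
    rw [Metric.mem_ball, dist_eq_norm, add_sub_cancel_left]
    exact (h.norm_coe_le_norm t).trans_lt hh
  have := (convex_ball (u t) δ).norm_image_sub_le_of_norm_hasFDerivWithin_le'
    (f := G) (f' := G') (φ := G' (u t)) (fun x _ => (hG x).hasFDerivWithinAt) hb
    (Metric.mem_ball_self hδ) hmem
  rw [add_sub_cancel_left] at this
  refine le_trans (le_of_eq ?_) (this.trans ?_)
  · simp [flowAppL_apply]
  · exact mul_le_mul_of_nonneg_left (h.norm_coe_le_norm t) hc.le

theorem flow_contDiff_comp (n : ℕ) : ∀ {E : Type} [NormedAddCommGroup E] [NormedSpace ℝ E]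
    (G : C(B, E)), ContDiff ℝ n G → ContDiff ℝ n (fun v : C(K, B) => G.comp v) := by
  induction n with
  | zero =>
    intro E _ _ G _
    exact contDiff_zero.2 (ContinuousMap.continuous_postcomp G)
  | succ n ih =>
    intro E _ _ G hG
    rw [Nat.cast_succ, contDiff_succ_iff_hasFDerivAt] at hG ⊢
    obtain ⟨G', hG', hd⟩ := hG
    let G'' : C(B, B →L[ℝ] E) := ⟨G', hG'.continuous⟩
    refine ⟨fun u => flowAppL K B E (G''.comp u), ?_, fun u => flow_hasFDerivAt_comp G G'' hd u⟩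
    exact (flowAppL K B E).contDiff.comp (ih G'' hG')

/-- A continuous path on `[0,1]`, extended to the line by constants. -/
noncomputable def flowExt (u : C(Icc (0 : ℝ) 1, B)) (s : ℝ) : B := u (projIcc 0 1 zero_le_one s)

omit [NormedSpace ℝ B] in
theorem flowExt_continuous (u : C(Icc (0 : ℝ) 1, B)) : Continuous (flowExt u) :=
  u.continuous.comp continuous_projIcc

theorem flowExt_hasDerivAt [CompleteSpace B] (u : C(Icc (0 : ℝ) 1, B)) (t : ℝ) :
    HasDerivAt (fun x => ∫ s in (0 : ℝ)..x, flowExt u s) (flowExt u t) t :=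
  ((flowExt_continuous u).integral_hasStrictDerivAt 0 t).hasDerivAt

/-- The primitive vanishing at `0`, as a continuous linear operator. -/
noncomputable def flowInt (B : Type) [NormedAddCommGroup B] [NormedSpace ℝ B] [CompleteSpace B] :
    C(Icc (0 : ℝ) 1, B) →L[ℝ] C(Icc (0 : ℝ) 1, B) :=
  LinearMap.mkContinuous
    { toFun := fun u => ⟨fun t => ∫ s in (0 : ℝ)..(t : ℝ), flowExt u s,
        (continuous_iff_continuousAt.2 fun x =>
          (flowExt_hasDerivAt u x).continuousAt).comp continuous_subtype_val⟩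
      map_add' := fun u v => by
        ext t
        have hu := (flowExt_continuous u).intervalIntegrable (μ := MeasureTheory.volume) 0 t
        have hv := (flowExt_continuous v).intervalIntegrable (μ := MeasureTheory.volume) 0 t
        simp only [ContinuousMap.coe_mk, ContinuousMap.add_apply]
        rw [← intervalIntegral.integral_add hu hv]
        rfl
      map_smul' := fun c u => by
        ext t
        simp only [ContinuousMap.coe_mk, ContinuousMap.smul_apply, RingHom.id_apply]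
        rw [← intervalIntegral.integral_smul]
        rfl } 1
    (fun u => by
      rw [one_mul]
      refine (ContinuousMap.norm_le _ (norm_nonneg _)).2 fun t => ?_
      have h1 : ‖∫ s in (0 : ℝ)..(t : ℝ), flowExt u s‖ ≤ ‖u‖ * |(t : ℝ) - 0| :=
        intervalIntegral.norm_integral_le_of_norm_le_const fun x _ => u.norm_coe_le_norm _
      refine h1.trans ?_
      rw [sub_zero, abs_of_nonneg t.2.1]
      exact mul_le_of_le_one_right (norm_nonneg _) t.2.2)

theorem flowInt_apply [CompleteSpace B] (u : C(Icc (0 : ℝ) 1, B)) (t : Icc (0 : ℝ) 1) :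
    flowInt B u t = ∫ s in (0 : ℝ)..(t : ℝ), flowExt u s := rfl

/-- Smooth family of solutions of the rescaled integral equation. -/
theorem flow_exists_implicit [CompleteSpace B] (n : ℕ) (hn : n ≠ 0) (G : C(B, B))
    (hG : ContDiff ℝ n G) (z₀ : B) :
    ∃ ψ : B × ℝ → C(Icc (0 : ℝ) 1, B), ContDiffAt ℝ n ψ (z₀, 0) ∧
      ∀ᶠ x in 𝓝 ((z₀, 0) : B × ℝ), ∀ t : Icc (0 : ℝ) 1,
        ψ x t = x.1 + x.2 • ∫ s in (0 : ℝ)..(t : ℝ), G (flowExt (ψ x) s) := by
  let c : B →L[ℝ] C(Icc (0 : ℝ) 1, B) := ContinuousLinearMap.const ℝ (Icc (0 : ℝ) 1)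
  let f : (B × ℝ) × C(Icc (0 : ℝ) 1, B) → C(Icc (0 : ℝ) 1, B) :=
    fun p => p.2 - c p.1.1 - p.1.2 • flowInt B (G.comp p.2)
  have hN : ContDiff ℝ n (fun v : C(Icc (0 : ℝ) 1, B) => G.comp v) := flow_contDiff_comp n G hG
  have hf : ContDiff ℝ n f := by
    refine (contDiff_snd.sub (c.contDiff.comp (contDiff_fst.comp contDiff_fst))).sub ?_
    exact (contDiff_snd.comp contDiff_fst).smul
      ((flowInt B).contDiff.comp (hN.comp contDiff_snd))
  have hn' : (n : WithTop ℕ∞) ≠ 0 := by exact_mod_cast hn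
  let p₀ : (B × ℝ) × C(Icc (0 : ℝ) 1, B) := ((z₀, 0), c z₀)
  have hinv : (fderiv ℝ f p₀ ∘L ContinuousLinearMap.inr ℝ (B × ℝ)
      C(Icc (0 : ℝ) 1, B)).IsInvertible := by
    have h1 : HasFDerivAt f (fderiv ℝ f p₀) ((z₀, 0), c z₀) :=
      (hf.differentiable hn' p₀).hasFDerivAt
    have h2 : HasFDerivAt (fun v : C(Icc (0 : ℝ) 1, B) => (((z₀, 0) : B × ℝ), v))
        (ContinuousLinearMap.inr ℝ (B × ℝ) C(Icc (0 : ℝ) 1, B)) (c z₀) :=
      hasFDerivAt_prodMk_right _ _
    have h3 := h1.comp (c z₀) h2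
    have h4 : HasFDerivAt (f ∘ fun v : C(Icc (0 : ℝ) 1, B) => (((z₀, 0) : B × ℝ), v))
        (ContinuousLinearMap.id ℝ C(Icc (0 : ℝ) 1, B)) (c z₀) := by
      have : (f ∘ fun v : C(Icc (0 : ℝ) 1, B) => (((z₀, 0) : B × ℝ), v)) =
          fun v => v - c z₀ := by
        funext v
        simp [f]
      rw [this]
      exact (hasFDerivAt_id _).sub_const _
    rw [h3.unique h4]
    exact ⟨ContinuousLinearEquiv.refl ℝ _, rfl⟩
  have hfp : ContDiffAt ℝ n f p₀ := hf.contDiffAt
  refine ⟨hfp.implicitFunction hn' hinv, hfp.contDiffAt_implicitFunction hn' hinv, ?_⟩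
  filter_upwards [hfp.eventually_apply_implicitFunction hn' hinv] with x hx t
  have h0 : f p₀ = 0 := by simp [f, p₀]
  rw [h0] at hx
  have h1 := congrArg (fun w : C(Icc (0 : ℝ) 1, B) => w t) hx
  simp only [f, ContinuousMap.sub_apply, ContinuousMap.smul_apply, ContinuousMap.zero_apply,
    flowInt_apply] at h1
  have h2 : c x.1 t = x.1 := rfl
  rw [h2, sub_sub, sub_eq_zero] at h1
  exact h1

/-- A solution of the rescaled integral equation is a rescaled integral curve. -/
theorem flow_eq_of_integral [CompleteSpace B] (G : C(B, B)) {L : NNReal} (hL : LipschitzWith L G)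
    (u : C(Icc (0 : ℝ) 1, B)) (z : B) (τ ε : ℝ) (hτ : τ ∈ Ioo (-ε) ε)
    (hu : ∀ t : Icc (0 : ℝ) 1, u t = z + τ • ∫ s in (0 : ℝ)..(t : ℝ), G (flowExt u s))
    (α : ℝ → B) (h0 : α 0 = z) (hα : ∀ t ∈ Ioo (-ε) ε, HasDerivAt α (G (α t)) t) :
    u ⟨1, zero_le_one, le_rfl⟩ = α τ := by
  let γ : ℝ → B := fun t => z + τ • ∫ s in (0 : ℝ)..t, G (flowExt u s)
  have hγ : ∀ t, HasDerivAt γ (τ • G (flowExt u t)) t := fun t =>
    ((flowExt_hasDerivAt (G.comp u) t).const_smul τ).const_add z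
  have hγu : ∀ t ∈ Icc (0 : ℝ) 1, flowExt u t = γ t := by
    intro t ht
    simp only [flowExt, projIcc_of_mem _ ht]
    exact hu ⟨t, ht⟩
  have hmem : ∀ t ∈ Icc (0 : ℝ) 1, τ * t ∈ Ioo (-ε) ε := by
    intro t ht
    obtain ⟨h1, h2⟩ := hτ
    obtain ⟨h3, h4⟩ := ht
    constructor
    · rcases le_total 0 τ with h | h <;> nlinarith
    · rcases le_total 0 τ with h | h <;> nlinarith
  have hβ : ∀ t ∈ Icc (0 : ℝ) 1, HasDerivAt (fun s => α (τ * s)) (τ • G (α (τ * t))) t := by
    intro t ht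
    have h1 : HasDerivAt (fun s : ℝ => τ * s) τ t := by
      simpa using (hasDerivAt_id t).const_mul τ
    exact (hα _ (hmem t ht)).scomp t h1
  have hlip : ∀ _t : ℝ, LipschitzWith (‖τ‖₊ * L) (fun y => τ • G y) := fun _ =>
    (lipschitzWith_smul τ).comp hL
  have key : EqOn γ (fun s => α (τ * s)) (Icc 0 1) := by
    refine ODE_solution_unique (v := fun _ y => τ • G y) hlip
      (fun t _ => (hγ t).continuousAt.continuousWithinAt) (fun t ht => ?_)
      (fun t ht => (hβ t ht).continuousAt.continuousWithinAt)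
      (fun t ht => (hβ t (Ico_subset_Icc_self ht)).hasDerivWithinAt) ?_
    · rw [← hγu t (Ico_subset_Icc_self ht)]
      exact (hγ t).hasDerivWithinAt
    · simp [γ, h0]
  have h1 := key (show (1 : ℝ) ∈ Icc (0 : ℝ) 1 from ⟨zero_le_one, le_rfl⟩)
  rw [hu]
  simpa [γ] using h1

end FlowAux

/-- Local flows of smooth vector fields are jointly `C³`. -/
theorem exists_smooth_flow {B : Type} [NormedAddCommGroup B] [NormedSpace ℝ B]
    [FiniteDimensional ℝ B] (F : B → B) (U : Set B) (hU : IsOpen U) (hF : ContDiffOn ℝ ∞ F U)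
    (z₀ : B) (hz : z₀ ∈ U) :
    ∃ ε > 0, ∃ Φ : B × ℝ → B, ContDiffOn ℝ 3 Φ (Metric.ball z₀ ε ×ˢ Ioo (-ε) ε) ∧
      ∀ z ∈ Metric.ball z₀ ε, Φ (z, 0) = z ∧ ∀ r ∈ Ioo (-ε) ε, Φ (z, r) ∈ U ∧
        HasDerivAt (fun x => Φ (z, x)) (F (Φ (z, r))) r := by
  have : CompleteSpace B := FiniteDimensional.complete ℝ B
  obtain ⟨R, hR, hRU⟩ := Metric.nhds_basis_closedBall.mem_iff.1 (hU.mem_nhds hz)
  let b : ContDiffBump z₀ := ⟨R / 2, R, by positivity, by linarith⟩
  have hG3 : ContDiff ℝ (3 : ℕ) (fun x => b x • F x) := by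
    rw [contDiff_iff_contDiffAt]
    intro x
    by_cases hx : x ∈ U
    · exact b.contDiffAt.smul ((hF.contDiffAt (hU.mem_nhds hx)).of_le (by exact_mod_cast le_top))
    · have hx' : x ∉ tsupport b := by
        rw [b.tsupport_eq]
        exact fun h => hx (hRU h)
      refine (contDiffAt_const (c := (0 : B))).congr_of_eventuallyEq ?_
      filter_upwards [notMem_tsupport_iff_eventuallyEq.1 hx'] with y hy
      simp [hy]
  have hGc : HasCompactSupport (fun x => b x • F x) := b.hasCompactSupport.smul_right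
  let G : C(B, B) := ⟨fun x => b x • F x, hG3.continuous⟩
  have hG : ContDiff ℝ (3 : ℕ) G := hG3
  obtain ⟨L, hL⟩ := ContDiff.lipschitzWith_of_hasCompactSupport hGc hG3 (by simp)
  have hL' : LipschitzWith L G := hL
  have hGF : ∀ x ∈ Metric.closedBall z₀ (R / 2), G x = F x := by
    intro x hx
    have : b x = 1 := b.one_of_mem_closedBall hx
    simp [G, this]
  obtain ⟨ψ, hψ, hψe⟩ := flow_exists_implicit 3 (by norm_num) G hG z₀
  have hG1 : ContDiffAt ℝ 1 G z₀ := hG.contDiffAt.of_le (by exact_mod_cast (by norm_num))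
  obtain ⟨ρ, hρ, η, hη, hsol⟩ :=
    hG1.exists_forall_mem_closedBall_exists_eq_forall_mem_Ioo_hasDerivAt 0
  let one : Icc (0 : ℝ) 1 := ⟨1, zero_le_one, le_rfl⟩
  let Φ : B × ℝ → B := fun x => ψ x one
  have hΦ : ContDiffAt ℝ (3 : ℕ) Φ (z₀, 0) :=
    (ContinuousMap.evalCLM ℝ one : C(Icc (0 : ℝ) 1, B) →L[ℝ] B).contDiff.contDiffAt.comp _ hψ
  obtain ⟨W, hW, hΦW⟩ := hΦ.contDiffOn le_rfl (by simp)
  have hΦ0 : Φ (z₀, 0) = z₀ := by
    have := hψe.self_of_nhds one
    simpa using this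
  have hV : ∀ᶠ x in 𝓝 ((z₀, 0) : B × ℝ), Φ x ∈ Metric.closedBall z₀ (R / 2) := by
    apply hΦ.continuousAt.eventually_mem
    rw [hΦ0]
    exact Metric.closedBall_mem_nhds _ (by positivity)
  obtain ⟨δ, hδ, hball⟩ := Metric.mem_nhds_iff.1 (inter_mem hW (hψe.and hV))
  let ε := min δ (min ρ η)
  have hε : 0 < ε := lt_min hδ (lt_min hρ hη)
  have hεδ : ε ≤ δ := min_le_left _ _
  have hερ : ε ≤ ρ := (min_le_right _ _).trans (min_le_left _ _)
  have hεη : ε ≤ η := (min_le_right _ _).trans (min_le_right _ _)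
  have hsub : Metric.ball z₀ ε ×ˢ Ioo (-ε) ε ⊆ Metric.ball ((z₀, 0) : B × ℝ) δ := by
    rintro ⟨z, r⟩ ⟨h1, h2⟩
    rw [← ball_prod_same]
    refine ⟨Metric.ball_subset_ball hεδ h1, ?_⟩
    rw [Real.ball_eq_Ioo]
    exact ⟨by linarith [h2.1], by linarith [h2.2]⟩
  refine ⟨ε, hε, Φ, hΦW.mono fun x hx => (hball (hsub hx)).1, fun z hz' => ?_⟩
  obtain ⟨α, hα0, hα⟩ := hsol z
    (Metric.ball_subset_closedBall (Metric.ball_subset_ball hερ hz'))
  have hα' : ∀ t ∈ Ioo (-ε) ε, HasDerivAt α (G (α t)) t := fun t ht =>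
    hα t ⟨by linarith [ht.1], by linarith [ht.2]⟩
  have heq : ∀ r ∈ Ioo (-ε) ε, Φ (z, r) = α r := fun r hr =>
    flow_eq_of_integral G hL' (ψ (z, r)) z r ε hr (hball (hsub ⟨hz', hr⟩)).2.1 α hα0 hα'
  refine ⟨by rw [heq 0 ⟨by linarith, hε⟩, hα0], fun r hr => ?_⟩
  have hin : Φ (z, r) ∈ Metric.closedBall z₀ (R / 2) := (hball (hsub ⟨hz', hr⟩)).2.2
  refine ⟨hRU (Metric.closedBall_subset_closedBall (by linarith) hin), ?_⟩
  rw [← hGF _ hin, heq r hr]
  refine (hα' r hr).congr_of_eventuallyEq ?_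
  filter_upwards [Ioo_mem_nhds hr.1 hr.2] with x hx using heq x hx

end Vale.Agent.P255
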