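import Vale.Agent.P255.Geo1
import Vale.Agent.P255.Flow

open scoped Manifold ContDiff Topology
open Set Filter

set_option maxSynthPendingDepth 3

namespace Vale.Agent.P255

variable {E : Type} [NormedAddCommGroup E] [NormedSpace ℝ E] [FiniteDimensional ℝ E]
  {M : Type} [TopologicalSpace M] [ChartedSpace E M] [IsManifold 𝓘(ℝ, E) ∞ M]
  {g : M → E →L[ℝ] E →L[ℝ] ℝ}

theorem le3_Geo3 : (3 : WithTop ℕ∞) ≤ ∞ := ENat.LEInfty.out

theorem le4_Geo3 : (3 + 1 : WithTop ℕ∞) ≤ ∞ := by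
  have h : (4 : WithTop ℕ∞) ≤ ∞ := ENat.LEInfty.out
  have h2 : (3 + 1 : WithTop ℕ∞) = 4 := by norm_num
  rw [h2]
  exact h

/-- A solution of the first order system in a chart gives a geodesic. -/
theorem IsRM.flow_geo_Geo3 (h : IsRM g) {e : OpenPartialHomeomorph M E} (he : e ∈ atlas E M)
    {W : ℝ → E × E} {I : Set ℝ} (hI : IsOpen I) (hW : ∀ s ∈ I, ContDiffAt ℝ 2 W s)
    (hT : ∀ s ∈ I, (W s).1 ∈ e.target)
    (hD : ∀ s ∈ I, HasDerivAt W ((W s).2, -chrL (gc g e) (W s).1 (W s).2 (W s).2) s) :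
    IsGeodesicOn g (fun s => e.symm (W s).1) I ∧
      ∀ s ∈ I, deriv (e ∘ fun s => e.symm (W s).1) s = (W s).2 := by
  have h1 : ∀ s ∈ I, (e ∘ fun s => e.symm (W s).1) =ᶠ[𝓝 s] fun s => (W s).1 := by
    intro s hs
    filter_upwards [hI.mem_nhds hs] with r hr
    exact e.right_inv (hT r hr)
  have h2 : ∀ s ∈ I, deriv (e ∘ fun s => e.symm (W s).1) s = (W s).2 := by
    intro s hs
    rw [(h1 s hs).deriv_eq]
    exact ((ContinuousLinearMap.fst ℝ E E).hasFDerivAt.comp_hasDerivAt s (hD s hs)).deriv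
  have h3 : ∀ s ∈ I, ContinuousAt (fun s => e.symm (W s).1) s := fun s hs =>
    ContinuousAt.comp (f := fun s => (W s).1) (e.continuousAt_symm (hT s hs))
      (hW s hs).continuousAt.fst
  refine ⟨⟨fun s hs => (h3 s hs).continuousWithinAt, fun e' he' s hs hs' => ?_⟩, h2⟩
  refine h.geo_of_chart he (e.map_target (hT s hs)) (h3 s hs)
    ((hW s hs).fst.congr_of_eventuallyEq (h1 s hs)) ?_ e' he' hs'
  have h4 : deriv (e ∘ fun s => e.symm (W s).1) =ᶠ[𝓝 s] fun s => (W s).2 := by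
    filter_upwards [hI.mem_nhds hs] with r hr
    exact h2 r hr
  have h5 : deriv (fun s => (W s).2) s = -chrL (gc g e) (W s).1 (W s).2 (W s).2 :=
    ((ContinuousLinearMap.snd ℝ E E).hasFDerivAt.comp_hasDerivAt s (hD s hs)).deriv
  rw [cov, h4.deriv_eq, h5, h2 s hs, (h1 s hs).eq_of_nhds,
    (h.cm he).chrL_apply (hT s hs), neg_add_cancel]

/-- Position and velocity in the chart `e`. -/
noncomputable def phGeo3 (e : OpenPartialHomeomorph M E) (Γ : E × ℝ → M) (a : E × ℝ) : E × E :=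
  (e (Γ a), deriv (e ∘ fun r => Γ (a.1, r)) a.2)

theorem change_Geo3 {Γ : E × ℝ → M} (geo : ∀ v, IsGeodesicOn g (fun r => Γ (v, r)) univ)
    {e e' : OpenPartialHomeomorph M E} (he : e ∈ atlas E M) (he' : e' ∈ atlas E M) {a : E × ℝ}
    (hc : ContinuousAt Γ a) (ha : Γ a ∈ e.source) (ha' : Γ a ∈ e'.source)
    (h3 : ContDiffAt ℝ 3 (phGeo3 e Γ) a) : ContDiffAt ℝ 3 (phGeo3 e' Γ) a := by
  have hO : IsOpen (e.target ∩ e.symm ⁻¹' e'.source) := e.isOpen_inter_preimage_symm e'.open_source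
  have hτ : ∀ m ∈ e.source, m ∈ e'.source → ContDiffAt ℝ ∞ (e' ∘ e.symm) (e m) := by
    intro m hm hm'
    refine (contDiffOn_trans he he').contDiffAt (hO.mem_nhds ⟨e.map_source hm, ?_⟩)
    rw [mem_preimage, e.left_inv hm]
    exact hm'
  have hev : phGeo3 e' Γ =ᶠ[𝓝 a] fun b => ((e' ∘ e.symm) (phGeo3 e Γ b).1,
      fderiv ℝ (e' ∘ e.symm) (phGeo3 e Γ b).1 (phGeo3 e Γ b).2) := by
    filter_upwards [hc.preimage_mem_nhds (e.open_source.mem_nhds ha),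
      hc.preimage_mem_nhds (e'.open_source.mem_nhds ha')] with b hb hb'
    have hb1 : Γ (b.1, b.2) ∈ e.source := hb
    have hγ : ContinuousAt (fun r => Γ (b.1, r)) b.2 :=
      (continuousOn_univ.1 (geo b.1).1).continuousAt
    have h4 : (e' ∘ fun r => Γ (b.1, r)) =ᶠ[𝓝 b.2]
        (e' ∘ e.symm) ∘ (e ∘ fun r => Γ (b.1, r)) := by
      filter_upwards [hγ.preimage_mem_nhds (e.open_source.mem_nhds hb1)] with r hr
      simp only [Function.comp_apply]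
      rw [e.left_inv hr]
    have h5 : DifferentiableAt ℝ (e ∘ fun r => Γ (b.1, r)) b.2 :=
      ((geo b.1).2 e he b.2 (mem_univ _) hb1).1.differentiableAt (by norm_num)
    have h6 : DifferentiableAt ℝ (e' ∘ e.symm) (e (Γ b)) :=
      (hτ _ hb hb').differentiableAt (by simp)
    refine Prod.ext ?_ ?_
    · simp only [phGeo3, Function.comp_apply]
      rw [e.left_inv hb]
    · simp only [phGeo3]
      rw [h4.deriv_eq]
      exact (h6.hasFDerivAt.comp_hasDerivAt b.2 h5.hasDerivAt).deriv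
  refine ContDiffAt.congr_of_eventuallyEq ?_ hev
  have h7 : ContDiffAt ℝ 3 (e' ∘ e.symm) (phGeo3 e Γ a).1 :=
    (hτ _ ha ha').of_le le3_Geo3
  have h8 : ContDiffAt ℝ 3 (fderiv ℝ (e' ∘ e.symm)) (phGeo3 e Γ a).1 :=
    (hτ _ ha ha').fderiv_right le4_Geo3
  exact (h7.comp a h3.fst).prodMk ((h8.comp a h3.fst).clm_apply h3.snd)

theorem IsRM.local_Geo3 [T2Space M] (h : IsRM g) {Γ : E × ℝ → M}
    (geo : ∀ v, IsGeodesicOn g (fun r => Γ (v, r)) univ) {e : OpenPartialHomeomorph M E}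
    (he : e ∈ atlas E M) (v₀ : E) (r₁ : ℝ) (h₁ : Γ (v₀, r₁) ∈ e.source) :
    ∃ δ > 0, ∀ r₂ ∈ Metric.ball r₁ δ, Γ (v₀, r₂) ∈ e.source ∧
      (ContinuousAt (fun v => Γ (v, r₂)) v₀ → ContDiffAt ℝ 3 (fun v => phGeo3 e Γ (v, r₂)) v₀ →
        ∀ r ∈ Metric.ball r₁ δ, ContinuousAt Γ (v₀, r) ∧ ContDiffAt ℝ 3 (phGeo3 e Γ) (v₀, r)) := by
  have hU : IsOpen (e.target ×ˢ (univ : Set E)) := e.open_target.prod isOpen_univ
  have hF : ContDiffOn ℝ ∞ (fun z : E × E => (z.2, -chrL (gc g e) z.1 z.2 z.2))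
      (e.target ×ˢ (univ : Set E)) := by
    have h2 : ContDiffOn ℝ ∞ (fun z : E × E => chrL (gc g e) z.1) (e.target ×ˢ (univ : Set E)) :=
      (h.cm he).contDiffOn_chrL.comp contDiffOn_fst fun z hz => hz.1
    exact contDiffOn_snd.prodMk ((h2.clm_apply contDiffOn_snd).clm_apply contDiffOn_snd).neg
  obtain ⟨ε, hε, Φ, hΦ, hΦ'⟩ := exists_smooth_flow _ _ hU hF (phGeo3 e Γ (v₀, r₁))
    ⟨e.map_source h₁, mem_univ _⟩
  have hO : IsOpen (Metric.ball (phGeo3 e Γ (v₀, r₁)) ε ×ˢ Ioo (-ε) ε) :=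
    Metric.isOpen_ball.prod isOpen_Ioo
  have hγ : ∀ v r, ContinuousAt (fun r => Γ (v, r)) r := fun v r =>
    (continuousOn_univ.1 (geo v).1).continuousAt
  have hc1 : ContinuousAt (fun r => phGeo3 e Γ (v₀, r)) r₁ := by
    have h2 := ((geo v₀).2 e he r₁ (mem_univ _) h₁).1
    have h3 : ContDiffAt ℝ 1 (deriv (e ∘ fun r => Γ (v₀, r))) r₁ := by
      have h4 := h2.fderiv_right (m := 1) (by norm_num)
      exact h4.clm_apply contDiffAt_const
    exact h2.continuousAt.prodMk h3.continuousAt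
  have hev : ∀ᶠ r in 𝓝 r₁, Γ (v₀, r) ∈ e.source ∧
      phGeo3 e Γ (v₀, r) ∈ Metric.ball (phGeo3 e Γ (v₀, r₁)) ε :=
    ((hγ v₀ r₁).eventually (e.open_source.mem_nhds h₁)).and
      (hc1.eventually (Metric.ball_mem_nhds _ hε))
  obtain ⟨δ, hδ, hδ'⟩ := Metric.eventually_nhds_iff_ball.1 hev
  refine ⟨min δ (ε / 2), lt_min hδ (half_pos hε), fun r₂ hr₂ => ?_⟩
  obtain ⟨h2, h3⟩ := hδ' r₂ (Metric.ball_subset_ball (min_le_left _ _) hr₂)
  refine ⟨h2, fun hc hs r hr => ?_⟩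
  have hrI : r - r₂ ∈ Ioo (-ε) ε := by
    have h4 := Metric.ball_subset_ball (min_le_right _ _) hr₂
    have h5 := Metric.ball_subset_ball (min_le_right _ _) hr
    rw [Metric.mem_ball, Real.dist_eq, abs_lt] at h4 h5
    constructor <;> linarith [h4.1, h4.2, h5.1, h5.2]
  have hI : IsOpen {x : ℝ | x - r₂ ∈ Ioo (-ε) ε} :=
    isOpen_Ioo.preimage (continuous_id.sub continuous_const)
  have hI' : IsPreconnected {x : ℝ | x - r₂ ∈ Ioo (-ε) ε} := by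
    have h4 : {x : ℝ | x - r₂ ∈ Ioo (-ε) ε} = Ioo (r₂ - ε) (r₂ + ε) := by
      ext x
      simp only [mem_ofPred_eq, mem_Ioo]
      constructor <;> rintro ⟨h5, h6⟩ <;> constructor <;> linarith
    rw [h4]
    exact isPreconnected_Ioo
  have h0 : r₂ ∈ {x : ℝ | x - r₂ ∈ Ioo (-ε) ε} := by
    simp only [mem_ofPred_eq, sub_self, mem_Ioo]
    exact ⟨by linarith, hε⟩
  have key : ∀ v, Γ (v, r₂) ∈ e.source →
      phGeo3 e Γ (v, r₂) ∈ Metric.ball (phGeo3 e Γ (v₀, r₁)) ε → ∀ x, x - r₂ ∈ Ioo (-ε) ε →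
        Γ (v, x) = e.symm (Φ (phGeo3 e Γ (v, r₂), x - r₂)).1 ∧
          phGeo3 e Γ (v, x) = Φ (phGeo3 e Γ (v, r₂), x - r₂) := by
    intro v hv hz
    obtain ⟨hz0, hz1⟩ := hΦ' _ hz
    obtain ⟨k1, k2⟩ := h.flow_geo_Geo3 he (W := fun x => Φ (phGeo3 e Γ (v, r₂), x - r₂)) hI
      (fun s hs => ContDiffAt.comp (f := fun x => (phGeo3 e Γ (v, r₂), x - r₂)) s
        ((hΦ.contDiffAt (x := (phGeo3 e Γ (v, r₂), s - r₂)) (hO.mem_nhds ⟨hz, hs⟩)).of_le
          (by norm_num))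
        (contDiffAt_const.prodMk (contDiffAt_id.sub contDiffAt_const)))
      (fun s hs => (hz1 _ hs).1.1)
      (fun s hs => (hz1 _ hs).2.comp_sub_const s r₂)
    have k3 : Γ (v, r₂) = e.symm (Φ (phGeo3 e Γ (v, r₂), r₂ - r₂)).1 := by
      rw [sub_self, hz0]
      exact (e.left_inv hv).symm
    have k4 : e.symm (Φ (phGeo3 e Γ (v, r₂), r₂ - r₂)).1 ∈ e.source := k3 ▸ hv
    have k5 : vel E (fun r => Γ (v, r)) r₂ =
        vel E (fun x => e.symm (Φ (phGeo3 e Γ (v, r₂), x - r₂)).1) r₂ := by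
      apply dC_injective he hv
      have k6 := dC_vel (γ := fun r => Γ (v, r)) he hv (hγ v r₂)
        (((geo v).2 e he r₂ (mem_univ _) hv).1.differentiableAt (by norm_num))
      have k7 := dC_vel (γ := fun x => e.symm (Φ (phGeo3 e Γ (v, r₂), x - r₂)).1) he k4
        (k1.1.continuousAt (hI.mem_nhds h0))
        ((k1.2 e he r₂ h0 k4).1.differentiableAt (by norm_num))
      rw [k2 r₂ h0, ← k3, sub_self, hz0] at k7
      rw [k6, k7]
      rfl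
    have k8 := h.geo_unique hI hI' ⟨(geo v).1.mono (subset_univ _),
      fun e' he' s _ hs => (geo v).2 e' he' s (mem_univ _) hs⟩ k1 h0 k3 k5
    intro x hx
    have k9 : Γ (v, x) = e.symm (Φ (phGeo3 e Γ (v, r₂), x - r₂)).1 := k8 hx
    refine ⟨k9, Prod.ext ?_ ?_⟩
    · show e (Γ (v, x)) = _
      rw [k9, e.right_inv (hz1 _ hx).1.1]
    · show deriv (e ∘ fun r => Γ (v, r)) x = _
      rw [← k2 x hx]
      refine Filter.EventuallyEq.deriv_eq ?_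
      filter_upwards [hI.mem_nhds hx] with y hy
      exact congrArg e (k8 hy)
  have hev2 : ∀ᶠ a in 𝓝 (v₀, r), Γ a = e.symm (Φ (phGeo3 e Γ (a.1, r₂), a.2 - r₂)).1 ∧
      phGeo3 e Γ a = Φ (phGeo3 e Γ (a.1, r₂), a.2 - r₂) := by
    have k1 : ∀ᶠ v in 𝓝 v₀, Γ (v, r₂) ∈ e.source ∧
        phGeo3 e Γ (v, r₂) ∈ Metric.ball (phGeo3 e Γ (v₀, r₁)) ε :=
      (hc.eventually (e.open_source.mem_nhds h2)).and
        (hs.continuousAt.eventually (Metric.isOpen_ball.mem_nhds h3))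
    have k2 : ∀ᶠ x in 𝓝 r, x - r₂ ∈ Ioo (-ε) ε := hI.mem_nhds hrI
    filter_upwards [k1.prod_nhds k2] with a ha
    exact key a.1 ha.1.1 ha.1.2 a.2 ha.2
  have hsm : ContDiffAt ℝ 3 (fun a : E × ℝ => Φ (phGeo3 e Γ (a.1, r₂), a.2 - r₂)) (v₀, r) := by
    have k1 : ContDiffAt ℝ 3 (fun a : E × ℝ => phGeo3 e Γ (a.1, r₂)) (v₀, r) :=
      ContDiffAt.comp (g := fun v => phGeo3 e Γ (v, r₂)) (v₀, r) hs contDiffAt_fst
    exact (hΦ.contDiffAt (hO.mem_nhds ⟨h3, hrI⟩)).comp (v₀, r)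
      (k1.prodMk (contDiffAt_snd.sub contDiffAt_const))
  refine ⟨?_, hsm.congr_of_eventuallyEq (hev2.mono fun a ha => ha.2)⟩
  refine ContinuousAt.congr ?_ (hev2.mono fun a ha => ha.1.symm)
  exact ContinuousAt.comp (f := fun a : E × ℝ => (Φ (phGeo3 e Γ (a.1, r₂), a.2 - r₂)).1)
    (e.continuousAt_symm ((hΦ' _ h3).2 _ hrI).1.1) hsm.continuousAt.fst

/-- Smooth dependence of geodesics on the initial velocity. -/
theorem IsRM.geo_smooth [T2Space M] (h : IsRM g) {m : M} {Γ : E × ℝ → M}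
    (geo : ∀ v, IsGeodesicOn g (fun r => Γ (v, r)) univ) (zero : ∀ v, Γ (v, 0) = m)
    (vel0 : ∀ v, vel E (fun r => Γ (v, r)) 0 = v) :
    ContMDiff 𝓘(ℝ, E × ℝ) 𝓘(ℝ, E) 3 Γ := by
  rintro ⟨v₀, r₀⟩
  let S : Set ℝ := {r | ContinuousAt Γ (v₀, r) ∧
    ∀ e ∈ atlas E M, Γ (v₀, r) ∈ e.source → ContDiffAt ℝ 3 (phGeo3 e Γ) (v₀, r)}
  have hloc : ∀ r₁, ∃ δ > 0, ∀ r₂ ∈ Metric.ball r₁ δ,
      (ContinuousAt (fun v => Γ (v, r₂)) v₀ ∧ ∀ e ∈ atlas E M, Γ (v₀, r₂) ∈ e.source →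
        ContDiffAt ℝ 3 (fun v => phGeo3 e Γ (v, r₂)) v₀) → Metric.ball r₁ δ ⊆ S := by
    intro r₁
    have he := chart_mem_atlas E (Γ (v₀, r₁))
    obtain ⟨δ, hδ, hδ'⟩ := h.local_Geo3 geo he v₀ r₁ (mem_chart_source E _)
    refine ⟨δ, hδ, fun r₂ hr₂ hh r hr => ?_⟩
    obtain ⟨h1, h2⟩ := hδ' r₂ hr₂
    obtain ⟨h3, h4⟩ := h2 hh.1 (hh.2 _ he h1) r hr
    exact ⟨h3, fun e' he' h5 => change_Geo3 geo he he' h3 (hδ' r hr).1 h5 h4⟩
  have hfix : ∀ r ∈ S, ContinuousAt (fun v => Γ (v, r)) v₀ ∧ ∀ e ∈ atlas E M,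
      Γ (v₀, r) ∈ e.source → ContDiffAt ℝ 3 (fun v => phGeo3 e Γ (v, r)) v₀ := by
    intro r hr
    refine ⟨ContinuousAt.comp (f := fun v => (v, r)) hr.1
      (continuousAt_id.prodMk continuousAt_const), fun e he h1 => ?_⟩
    exact ContDiffAt.comp (f := fun v => (v, r)) v₀ (hr.2 e he h1)
      (contDiffAt_id.prodMk contDiffAt_const)
  have h0 : (0 : ℝ) ∈ S := by
    obtain ⟨δ, hδ, hδ'⟩ := hloc 0
    refine hδ' 0 (Metric.mem_ball_self hδ) ⟨?_, fun e he h1 => ?_⟩ (Metric.mem_ball_self hδ)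
    · simp only [zero]
      exact continuousAt_const
    · have h2 : (fun v => phGeo3 e Γ (v, 0)) = fun v => (e m, dC e m v) := by
        funext v
        have h3 : Γ (v, 0) ∈ e.source := by rw [zero, ← zero v₀]; exact h1
        have h4 := dC_vel (γ := fun r => Γ (v, r)) he h3
          (continuousOn_univ.1 (geo v).1).continuousAt
          (((geo v).2 e he 0 (mem_univ _) h3).1.differentiableAt (by norm_num))
        rw [vel0, zero] at h4
        simp only [phGeo3, zero, h4]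
      rw [h2]
      exact contDiffAt_const.prodMk (dC e m).contDiff.contDiffAt
  have hS : IsClopen S := by
    constructor
    · rw [← isOpen_compl_iff, Metric.isOpen_iff]
      intro r₁ hr₁
      obtain ⟨δ, hδ, hδ'⟩ := hloc r₁
      exact ⟨δ, hδ, fun r₂ hr₂ h2 => hr₁ (hδ' r₂ hr₂ (hfix r₂ h2) (Metric.mem_ball_self hδ))⟩
    · rw [Metric.isOpen_iff]
      intro r₁ hr₁
      obtain ⟨δ, hδ, hδ'⟩ := hloc r₁
      exact ⟨δ, hδ, hδ' r₁ (Metric.mem_ball_self hδ) (hfix r₁ hr₁)⟩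
  have hr₀ : r₀ ∈ S := by
    rw [hS.eq_univ ⟨0, h0⟩]
    exact mem_univ _
  exact contMDiffAt_of_chart le3_Geo3 (chart_mem_atlas E _)
    (mem_chart_source E _) hr₀.1 (hr₀.2 _ (chart_mem_atlas E _) (mem_chart_source E _)).fst

end Vale.Agent.P255
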