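import Vale.Agent.P255.Geo1
import Vale.Agent.P255.Flow
import Vale.Agent.P255.Geo3

open scoped Manifold ContDiff Topology
open Set Filter

set_option maxSynthPendingDepth 3

namespace Vale.Agent.P255

variable {E : Type} [NormedAddCommGroup E] [NormedSpace ℝ E] [FiniteDimensional ℝ E]
  {M : Type} [TopologicalSpace M] [ChartedSpace E M] [IsManifold 𝓘(ℝ, E) ∞ M]
  {g : M → E →L[ℝ] E →L[ℝ] ℝ}

omit [FiniteDimensional ℝ E] [IsManifold 𝓘(ℝ, E) ∞ M] in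
theorem vel_congr_Geo2 {γ γ' : ℝ → M} {s : ℝ} (h : γ =ᶠ[𝓝 s] γ') : vel E γ s = vel E γ' s := by
  have h1 : dM E γ s = dM E γ' s := h.mfderiv_eq
  rw [vel, vel, h1]

omit [FiniteDimensional ℝ E] [IsManifold 𝓘(ℝ, E) ∞ M] in
theorem geo_mono_Geo2 {γ : ℝ → M} {I J : Set ℝ} (h : IsGeodesicOn g γ I) (hJ : J ⊆ I) :
    IsGeodesicOn g γ J :=
  ⟨h.1.mono hJ, fun e he s hs => h.2 e he s (hJ hs)⟩

omit [FiniteDimensional ℝ E] [IsManifold 𝓘(ℝ, E) ∞ M] in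
theorem geo_local_Geo2 {γ : ℝ → M} {I : Set ℝ}
    (h : ∀ s ∈ I, ∃ γ' J, J ∈ 𝓝 s ∧ IsGeodesicOn g γ' J ∧ EqOn γ γ' J) : IsGeodesicOn g γ I := by
  constructor
  · intro s hs
    obtain ⟨γ', J, hJ, h1, h2⟩ := h s hs
    exact ((h1.1.continuousAt hJ).congr (h2.eventuallyEq_of_mem hJ).symm).continuousWithinAt
  · intro e he s hs hs'
    obtain ⟨γ', J, hJ, h1, h2⟩ := h s hs
    have h3 : (e ∘ γ) =ᶠ[𝓝 s] (e ∘ γ') := (h2.eventuallyEq_of_mem hJ).fun_comp e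
    have h4 : γ s = γ' s := h2 (mem_of_mem_nhds hJ)
    obtain ⟨h5, h6⟩ := h1.2 e he s (mem_of_mem_nhds hJ) (h4 ▸ hs')
    refine ⟨h5.congr_of_eventuallyEq h3, ?_⟩
    rw [cov, h3.deriv.deriv_eq, h3.deriv_eq, h3.eq_of_nhds]
    exact h6

theorem coercive_Geo2 {G : E → E →L[ℝ] E →L[ℝ] ℝ} {U : Set E} (h : CM G U) {y₀ : E}
    (hy : y₀ ∈ U) : ∃ c > 0, ∀ᶠ y in 𝓝 y₀, ∀ w, c * ‖w‖ ^ 2 ≤ G y w w := by
  have hc : Continuous fun w => G y₀ w w := (G y₀).continuous.clm_apply continuous_id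
  obtain ⟨c, hc0, hc1⟩ := (isCompact_sphere (0 : E) 1).exists_forall_le' hc.continuousOn
    (a := 0) fun w hw => h.pos y₀ hy w (by
      rintro rfl
      simp at hw)
  have h1 : ∀ w, c * ‖w‖ ^ 2 ≤ G y₀ w w := by
    intro w
    by_cases hw : w = 0
    · simp [hw]
    · have hn : 0 < ‖w‖ := norm_pos_iff.2 hw
      have h2 := hc1 (‖w‖⁻¹ • w) (by simp [norm_smul, hn.ne'])
      simp only [map_smul, smul_apply, smul_eq_mul] at h2
      have h3 : G y₀ w w = ‖w‖ ^ 2 * (‖w‖⁻¹ * (‖w‖⁻¹ * G y₀ w w)) := by field_simp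
      rw [h3, mul_comm]
      exact mul_le_mul_of_nonneg_left h2 (by positivity)
  have h4 : ContinuousAt G y₀ := h.smooth.continuousOn.continuousAt (h.isOpen.mem_nhds hy)
  refine ⟨c / 2, half_pos hc0, ?_⟩
  filter_upwards [h4.eventually (Metric.ball_mem_nhds _ (half_pos hc0))] with y hy' w
  have h5 : ‖G y - G y₀‖ ≤ c / 2 := by
    rw [← dist_eq_norm]
    exact (Metric.mem_ball.1 hy').le
  have h6 := (G y - G y₀).le_opNorm₂ w w
  have h7 : ‖G y - G y₀‖ * ‖w‖ * ‖w‖ ≤ c / 2 * ‖w‖ * ‖w‖ := by gcongr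
  have h8 := (abs_le.1 (h6.trans h7)).1
  simp only [sub_apply] at h8
  nlinarith [h1 w]

/-- Initial conditions of small energy over `N` have geodesics of uniform length. -/
def UnifGeo2 (g : M → E →L[ℝ] E →L[ℝ] ℝ) (N : Set M) : Prop :=
  ∃ η > 0, ∃ ε > 0, ∀ m ∈ N, ∀ v, g m v v ≤ η →
    ∃ γ, IsGeodesicOn g γ (Ioo (-ε) ε) ∧ γ 0 = m ∧ vel E γ 0 = v

theorem IsRM.local_Geo2 (h : IsRM g) (m₀ : M) : ∃ N ∈ 𝓝 m₀, UnifGeo2 g N := by
  obtain ⟨e, he, hm₀⟩ : ∃ e ∈ atlas E M, m₀ ∈ e.source :=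
    ⟨chartAt E m₀, chart_mem_atlas E m₀, mem_chart_source E m₀⟩
  have hU : IsOpen (e.target ×ˢ (univ : Set E)) := e.open_target.prod isOpen_univ
  have hF : ContDiffOn ℝ ∞ (fun z : E × E => (z.2, -chrL (gc g e) z.1 z.2 z.2))
      (e.target ×ˢ (univ : Set E)) := by
    have h2 : ContDiffOn ℝ ∞ (fun z : E × E => chrL (gc g e) z.1) (e.target ×ˢ (univ : Set E)) :=
      (h.cm he).contDiffOn_chrL.comp contDiffOn_fst fun z hz => hz.1
    exact contDiffOn_snd.prodMk ((h2.clm_apply contDiffOn_snd).clm_apply contDiffOn_snd).neg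
  obtain ⟨ε, hε, Φ, hΦ, hΦ'⟩ := exists_smooth_flow _ _ hU hF (e m₀, 0)
    ⟨e.map_source hm₀, mem_univ _⟩
  have hO : IsOpen (Metric.ball (e m₀, (0 : E)) ε ×ˢ Ioo (-ε) ε) :=
    Metric.isOpen_ball.prod isOpen_Ioo
  obtain ⟨c, hc, hc'⟩ := coercive_Geo2 (h.cm he) (e.map_source hm₀)
  have hev : ∀ᶠ m in 𝓝 m₀, m ∈ e.source ∧ e m ∈ Metric.ball (e m₀) ε ∧
      ∀ w, c * ‖w‖ ^ 2 ≤ gc g e (e m) w w :=
    (e.open_source.eventually_mem hm₀).and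
      ((e.continuousAt hm₀).eventually
        ((Metric.isOpen_ball.eventually_mem (Metric.mem_ball_self hε)).and hc'))
  refine ⟨_, hev, c * (ε / 2) ^ 2, by positivity, ε, hε, fun m hm v hv => ?_⟩
  obtain ⟨h1, h2, h3⟩ := hm
  have h4 : ‖dC e m v‖ < ε := by
    have h5 := h3 (dC e m v)
    rw [gc_dC g he h1] at h5
    have h6 : ‖dC e m v‖ ^ 2 ≤ (ε / 2) ^ 2 := le_of_mul_le_mul_left (h5.trans hv) hc
    have h8 := abs_le_of_sq_le_sq' h6 (half_pos hε).le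
    linarith [h8.2]
  have hz : (e m, dC e m v) ∈ Metric.ball (e m₀, (0 : E)) ε := by
    rw [← ball_prod_same]
    exact ⟨h2, by simpa using h4⟩
  obtain ⟨hz0, hz1⟩ := hΦ' _ hz
  obtain ⟨k1, k2⟩ := h.flow_geo_Geo3 he (W := fun x => Φ ((e m, dC e m v), x)) isOpen_Ioo
    (fun s hs => ContDiffAt.comp (f := fun x => ((e m, dC e m v), x)) s
      ((hΦ.contDiffAt (x := ((e m, dC e m v), s)) (hO.mem_nhds ⟨hz, hs⟩)).of_le (by norm_num))
      (contDiffAt_const.prodMk contDiffAt_id))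
    (fun s hs => (hz1 _ hs).1.1) (fun s hs => (hz1 _ hs).2)
  have h0 : (0 : ℝ) ∈ Ioo (-ε) ε := ⟨by linarith, hε⟩
  have k3 : e.symm (Φ ((e m, dC e m v), 0)).1 = m := by
    rw [hz0]
    exact e.left_inv h1
  have k4 : e.symm (Φ ((e m, dC e m v), 0)).1 ∈ e.source := by rw [k3]; exact h1
  refine ⟨_, k1, k3, dC_injective he h1 ?_⟩
  have k7 := dC_vel (γ := fun x => e.symm (Φ ((e m, dC e m v), x)).1) he k4
    (k1.1.continuousAt (isOpen_Ioo.mem_nhds h0))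
    ((k1.2 e he 0 h0 k4).1.differentiableAt (by norm_num))
  rw [k2 0 h0, k3, hz0] at k7
  exact k7

theorem IsRM.unif_Geo2 [CompactSpace M] (h : IsRM g) : UnifGeo2 g univ := by
  refine isCompact_univ.induction_on (p := UnifGeo2 g) ?_ ?_ ?_ ?_
  · exact ⟨1, one_pos, 1, one_pos, fun m hm => hm.elim⟩
  · rintro s t hst ⟨η, hη, ε, hε, h1⟩
    exact ⟨η, hη, ε, hε, fun m hm => h1 m (hst hm)⟩
  · rintro s t ⟨η, hη, ε, hε, h1⟩ ⟨η', hη', ε', hε', h2⟩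
    refine ⟨min η η', lt_min hη hη', min ε ε', lt_min hε hε', fun m hm v hv => ?_⟩
    rcases hm with hm | hm
    · obtain ⟨γ, k1, k2⟩ := h1 m hm v (hv.trans (min_le_left _ _))
      exact ⟨γ, geo_mono_Geo2 k1
        (Ioo_subset_Ioo (neg_le_neg (min_le_left _ _)) (min_le_left _ _)), k2⟩
    · obtain ⟨γ, k1, k2⟩ := h2 m hm v (hv.trans (min_le_right _ _))
      exact ⟨γ, geo_mono_Geo2 k1
        (Ioo_subset_Ioo (neg_le_neg (min_le_right _ _)) (min_le_right _ _)), k2⟩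
  · intro m _
    obtain ⟨N, hN, h1⟩ := h.local_Geo2 m
    exact ⟨N, mem_nhdsWithin_of_mem_nhds hN, h1⟩

theorem inter_Geo2 {I J : Set ℝ} (hI : IsPreconnected I) (hJ : IsPreconnected J) :
    IsPreconnected (I ∩ J) :=
  (hI.ordConnected.inter hJ.ordConnected).isPreconnected

theorem IsRM.small_Geo2 [T2Space M] (h : IsRM g) {η ε : ℝ} (hε : 0 < ε)
    (hu : ∀ m v, g m v v ≤ η → ∃ γ, IsGeodesicOn g γ (Ioo (-ε) ε) ∧ γ 0 = m ∧ vel E γ 0 = v)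
    (m : M) (v : E) (hv : g m v v ≤ η) :
    ∃ γ : ℝ → M, IsGeodesicOn g γ univ ∧ γ 0 = m ∧ vel E γ 0 = v := by
  classical
  let P : Set ℝ → (ℝ → M) → Prop := fun I γ => IsOpen I ∧ IsPreconnected I ∧ (0 : ℝ) ∈ I ∧
    IsGeodesicOn g γ I ∧ γ 0 = m ∧ vel E γ 0 = v
  have hag : ∀ I γ I' γ', P I γ → P I' γ' → EqOn γ γ' (I ∩ I') := by
    rintro I γ I' γ' ⟨a1, a2, a3, a4, a5, a6⟩ ⟨b1, b2, b3, b4, b5, b6⟩
    exact h.geo_unique (a1.inter b1) (inter_Geo2 a2 b2) (geo_mono_Geo2 a4 inter_subset_left)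
      (geo_mono_Geo2 b4 inter_subset_right) ⟨a3, b3⟩ (a5.trans b5.symm) (a6.trans b6.symm)
  let J : Set ℝ := {s | ∃ p : Set ℝ × (ℝ → M), P p.1 p.2 ∧ s ∈ p.1}
  let γ : ℝ → M := fun s => if hs : s ∈ J then hs.choose.2 s else m
  have hγ : ∀ I β, P I β → EqOn γ β I := by
    intro I β hP s hs
    have h1 : s ∈ J := ⟨(I, β), hP, hs⟩
    simp only [γ, dif_pos h1]
    exact hag _ _ _ _ h1.choose_spec.1 hP ⟨h1.choose_spec.2, hs⟩
  obtain ⟨β₀, k1, k2, k3⟩ := hu m v hv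
  have h0 : (0 : ℝ) ∈ Ioo (-ε) ε := ⟨by linarith, hε⟩
  have hP0 : P (Ioo (-ε) ε) β₀ := ⟨isOpen_Ioo, isPreconnected_Ioo, h0, k1, k2, k3⟩
  have hJo : IsOpen J := by
    rw [isOpen_iff_mem_nhds]
    rintro s ⟨p, hp, hs⟩
    exact mem_of_superset (hp.1.mem_nhds hs) fun t ht => ⟨p, hp, ht⟩
  have hJ0 : (0 : ℝ) ∈ J := ⟨(_, β₀), hP0, h0⟩
  have hJc : IsPreconnected J := by
    refine isPreconnected_of_forall 0 ?_
    rintro s ⟨p, hp, hs⟩
    exact ⟨p.1, fun t ht => ⟨p, hp, ht⟩, hp.2.2.1, hs, hp.2.1⟩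
  have hJg : IsGeodesicOn g γ J := by
    refine geo_local_Geo2 ?_
    rintro s ⟨p, hp, hs⟩
    exact ⟨p.2, p.1, hp.1.mem_nhds hs, hp.2.2.2.1, hγ _ _ hp⟩
  have hγ0 : γ 0 = m := (hγ _ _ hP0 h0).trans k2
  have hγ1 : vel E γ 0 = v :=
    (vel_congr_Geo2 ((hγ _ _ hP0).eventuallyEq_of_mem (isOpen_Ioo.mem_nhds h0))).trans k3
  have hJcl : IsClosed J := by
    refine isClosed_of_closure_subset fun s₀ hs₀ => ?_
    obtain ⟨s₁, hs₁, hd⟩ := Metric.mem_closure_iff.1 hs₀ ε hε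
    have hen := h.geo_energy hJo hJc hJg hs₁ hJ0
    rw [hγ0, hγ1] at hen
    obtain ⟨β, b1, b2, b3⟩ := hu (γ s₁) (vel E γ s₁) (hen.le.trans hv)
    have b4 := h.geo_affine b1 (-s₁) 1
    have hK : (fun s : ℝ => -s₁ + 1 * s) ⁻¹' Ioo (-ε) ε = Ioo (s₁ - ε) (s₁ + ε) := by
      ext x
      simp only [mem_preimage, mem_Ioo]
      constructor <;> rintro ⟨h5, h6⟩ <;> constructor <;> linarith
    rw [hK] at b4
    have hs₁' : s₁ ∈ Ioo (s₁ - ε) (s₁ + ε) := ⟨by linarith, by linarith⟩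
    have e0 : -s₁ + 1 * s₁ = 0 := by ring
    have b5 := b1.vel_affine isOpen_Ioo (-s₁) 1 s₁ (by rw [e0]; exact h0)
    rw [e0, one_smul, b3] at b5
    have b6 : EqOn γ (fun s => β (-s₁ + 1 * s)) (J ∩ Ioo (s₁ - ε) (s₁ + ε)) :=
      h.geo_unique (hJo.inter isOpen_Ioo) (inter_Geo2 hJc isPreconnected_Ioo)
        (geo_mono_Geo2 hJg inter_subset_left) (geo_mono_Geo2 b4 inter_subset_right)
        ⟨hs₁, hs₁'⟩ (by simp only [e0, b2]) b5.symm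
    have c1 : EqOn (fun s => if s ∈ J then γ s else β (-s₁ + 1 * s)) γ J := fun s hs => if_pos hs
    have c2 : EqOn (fun s => if s ∈ J then γ s else β (-s₁ + 1 * s)) (fun s => β (-s₁ + 1 * s))
        (Ioo (s₁ - ε) (s₁ + ε)) := by
      intro s hs
      by_cases hsJ : s ∈ J
      · exact (if_pos hsJ).trans (b6 ⟨hsJ, hs⟩)
      · exact if_neg hsJ
    have hP : P (J ∪ Ioo (s₁ - ε) (s₁ + ε)) fun s => if s ∈ J then γ s else β (-s₁ + 1 * s) := by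
      refine ⟨hJo.union isOpen_Ioo, hJc.union s₁ hs₁ hs₁' isPreconnected_Ioo, Or.inl hJ0,
        geo_local_Geo2 ?_, (c1 hJ0).trans hγ0,
        (vel_congr_Geo2 (c1.eventuallyEq_of_mem (hJo.mem_nhds hJ0))).trans hγ1⟩
      rintro s (hs | hs)
      · exact ⟨γ, J, hJo.mem_nhds hs, hJg, c1⟩
      · exact ⟨_, _, isOpen_Ioo.mem_nhds hs, b4, c2⟩
    refine ⟨(_, _), hP, Or.inr ?_⟩
    rw [Real.dist_eq, abs_lt] at hd
    exact ⟨by linarith [hd.1], by linarith [hd.2]⟩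
  have hJu : J = univ := IsClopen.eq_univ ⟨hJcl, hJo⟩ ⟨0, hJ0⟩
  exact ⟨γ, hJu ▸ hJg, hγ0, hγ1⟩

/-- Completeness of closed manifolds. -/
theorem IsRM.geo_exists [T2Space M] [CompactSpace M] (h : IsRM g) (m : M) (v : E) :
    ∃ γ : ℝ → M, IsGeodesicOn g γ univ ∧ γ 0 = m ∧ vel E γ 0 = v := by
  obtain ⟨η, hη, ε, hε, hu⟩ := h.unif_Geo2
  have h0 : 0 ≤ g m v v := by
    by_cases hv : v = 0
    · simp [hv]
    · exact (h.pos m v hv).le
  obtain ⟨t, ht, ht'⟩ : ∃ t : ℝ, 0 < t ∧ t * (t * g m v v) ≤ η := by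
    refine ⟨min 1 (η / (g m v v + 1)), lt_min one_pos (by positivity), ?_⟩
    have h1 : min 1 (η / (g m v v + 1)) * g m v v ≤ η := by
      refine (mul_le_mul_of_nonneg_right (min_le_right _ _) h0).trans ?_
      rw [div_mul_eq_mul_div, div_le_iff₀ (by positivity)]
      nlinarith
    have h2 : 0 ≤ min 1 (η / (g m v v + 1)) * g m v v :=
      mul_nonneg (le_min one_pos.le (by positivity)) h0
    exact (mul_le_of_le_one_left h2 (min_le_left _ _)).trans h1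
  obtain ⟨γ, k1, k2, k3⟩ := h.small_Geo2 hε (fun m v => hu m (mem_univ m) v) m (t • v) (by
    simpa only [map_smul, smul_apply, smul_eq_mul] using ht')
  refine ⟨fun s => γ (0 + t⁻¹ * s), h.geo_affine k1 0 t⁻¹, by simpa using k2, ?_⟩
  rw [k1.vel_affine isOpen_univ 0 t⁻¹ 0 (mem_univ _), mul_zero, add_zero, k3, smul_smul,
    inv_mul_cancel₀ ht.ne', one_smul]

end Vale.Agent.P255
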