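import Vale.Agent.P255.Chart

open scoped Manifold ContDiff Topology
open Set Filter

set_option maxSynthPendingDepth 3

namespace Vale.Agent.P255

variable {E : Type} [NormedAddCommGroup E] [NormedSpace ℝ E] [FiniteDimensional ℝ E]
  {M : Type} [TopologicalSpace M] [ChartedSpace E M] [IsManifold 𝓘(ℝ, E) ∞ M]
  {g : M → E →L[ℝ] E →L[ℝ] ℝ}

namespace Bridge

omit [FiniteDimensional ℝ E] in
theorem triv_eq (g : M → E →L[ℝ] E →L[ℝ] ℝ) {x₀ x : M} (hx : x ∈ (chartAt E x₀).source) :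
    (trivializationAt (E →L[ℝ] E →L[ℝ] ℝ)
      (fun x : M => TangentSpace 𝓘(ℝ, E) x →L[ℝ] TangentSpace 𝓘(ℝ, E) x →L[ℝ] ℝ) x₀
        ⟨x, g x⟩).2 = gc g (chartAt E x₀) (chartAt E x₀ x) := by
  have hb : x ∈ (trivializationAt E (TangentSpace 𝓘(ℝ, E) : M → Type) x₀).baseSet := by
    simpa using hx
  have h1 : ∀ v : E, (trivializationAt E (TangentSpace 𝓘(ℝ, E) : M → Type) x₀).symm x v =
      (mfderiv 𝓘(ℝ, E) 𝓘(ℝ, E) (chartAt E x₀).symm (chartAt E x₀ x) : E →L[ℝ] E) v := by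
    intro v
    rw [← Bundle.Trivialization.symmL_apply (R := ℝ) _ hb, TangentBundle.symmL_trivializationAt hx]
    simp
    rfl
  rw [hom_trivializationAt_apply]
  ext v w
  rw [inCoordinates_apply_eq₂ hb hb (mem_univ _), h1, h1]
  simp [gc, (chartAt E x₀).left_inv hx]
  rfl

omit [FiniteDimensional ℝ E] in
theorem contDiffAt_bil {G : E → E →L[ℝ] E →L[ℝ] ℝ} {D : E → E →L[ℝ] E} {y : E}
    (hG : ContDiffAt ℝ ∞ G y) (hD : ContDiffAt ℝ ∞ D y) :
    ContDiffAt ℝ ∞ (fun z => (G z).bilinearComp (D z) (D z)) y := by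
  have h1 := (ContinuousLinearMap.flipₗᵢ ℝ E E ℝ).contDiff.contDiffAt.comp y (hG.clm_comp hD)
  exact (ContinuousLinearMap.flipₗᵢ ℝ E E ℝ).contDiff.contDiffAt.comp y (h1.clm_comp hD)

theorem bdd {B : E →L[ℝ] E →L[ℝ] ℝ} (h : ∀ v, v ≠ 0 → 0 < B v v) :
    Bornology.IsVonNBounded ℝ {v : E | B v v < 1} := by
  rw [NormedSpace.isVonNBounded_iff']
  rcases (Metric.sphere (0 : E) 1).eq_empty_or_nonempty with he | hne
  · refine ⟨0, fun v _ => ?_⟩
    by_contra hv
    have hv' : 0 < ‖v‖ := not_le.1 hv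
    have : ‖v‖⁻¹ • v ∈ Metric.sphere (0 : E) 1 := by
      rw [mem_sphere_zero_iff_norm, norm_smul, norm_inv, norm_norm, inv_mul_cancel₀ hv'.ne']
    rw [he] at this
    exact this
  · obtain ⟨u, hu, hmin⟩ := (isCompact_sphere (0 : E) 1).exists_isMinOn hne
      (f := fun v => B v v) (by fun_prop)
    have hu0 : u ≠ 0 := by
      rintro rfl
      simp at hu
    have hc := h u hu0
    refine ⟨1 + (B u u)⁻¹, fun v hv => ?_⟩
    by_contra hlt
    have hi : 0 < (B u u)⁻¹ := inv_pos.2 hc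
    have h1 : 1 + (B u u)⁻¹ < ‖v‖ := not_le.1 hlt
    have hv' : 0 < ‖v‖ := by linarith
    have h2 : B u u ≤ B (‖v‖⁻¹ • v) (‖v‖⁻¹ • v) := hmin (by
      rw [mem_sphere_zero_iff_norm, norm_smul, norm_inv, norm_norm, inv_mul_cancel₀ hv'.ne'])
    have h3 : B v v < 1 := hv
    simp only [map_smul, smul_apply, smul_eq_mul] at h2
    rw [← mul_assoc, ← mul_inv, le_inv_mul_iff₀ (by positivity)] at h2
    have h4 : (B u u)⁻¹ * B u u = 1 := inv_mul_cancel₀ hc.ne'
    have h5 : (B u u)⁻¹ ≤ ‖v‖ * ‖v‖ := by nlinarith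
    nlinarith

end Bridge

theorem isRM_of_metric (g : RMetric E M) : IsRM (E := E) (M := M) g.inner := by
  refine ⟨g.symm, g.pos, fun e he y hy => ContDiffAt.contDiffWithinAt ?_⟩
  set m := e.symm y with hm
  have hs := (Bundle.contMDiffAt_section m).1 (g.contMDiff m)
  have hc : m ∈ (chartAt E m).source := mem_chart_source E m
  have ht : chartAt E m m ∈ (chartAt E m).target := (chartAt E m).map_source hc
  have h1 : ContDiffAt ℝ ∞ (gc (E := E) (M := M) g.inner (chartAt E m)) (chartAt E m m) := by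
    have h2 : ContMDiffAt 𝓘(ℝ, E) 𝓘(ℝ, E) ∞ (chartAt E m).symm (chartAt E m m) :=
      contMDiffOn_chart_symm.contMDiffAt ((chartAt E m).open_target.mem_nhds ht)
    have h3 := ContMDiffAt.comp_of_eq hs h2 ((chartAt E m).left_inv hc)
    rw [contMDiffAt_iff_contDiffAt] at h3
    refine h3.congr_of_eventuallyEq ?_
    filter_upwards [(chartAt E m).open_target.mem_nhds ht] with z hz
    rw [Function.comp_apply, Bridge.triv_eq (E := E) (M := M) g.inner
      ((chartAt E m).map_target hz), (chartAt E m).right_inv hz]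
  have ho : e.target ∩ e.symm ⁻¹' (chartAt E m).source ∈ 𝓝 y :=
    (e.isOpen_inter_preimage_symm (chartAt E m).open_source).mem_nhds ⟨hy, hc⟩
  have h4 : ContDiffAt ℝ ∞ (chartAt E m ∘ e.symm) y :=
    (contDiffOn_trans he (chart_mem_atlas E m)).contDiffAt ho
  have h5 := Bridge.contDiffAt_bil (ContDiffAt.comp y (g := gc (E := E) (M := M) g.inner
    (chartAt E m)) h1 h4) (h4.fderiv_right (m := ∞) le_rfl)
  refine h5.congr_of_eventuallyEq ?_
  filter_upwards [ho] with z hz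
  ext v w
  exact gc_trans (E := E) (M := M) g.inner he (chart_mem_atlas E m) hz v w

theorem IsRM.exists_metric (h : IsRM g) : ∃ g' : RMetric E M, g'.inner = g := by
  refine ⟨⟨g, h.symm, h.pos, fun m => Bridge.bdd (E := E) (h.pos m), fun m => ?_⟩, rfl⟩
  refine (Bundle.contMDiffAt_section m).2 ?_
  have hc : m ∈ (chartAt E m).source := mem_chart_source E m
  have h1 : ContDiffAt ℝ ∞ (gc g (chartAt E m)) (chartAt E m m) :=
    (h.smooth _ (chart_mem_atlas E m)).contDiffAt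
      ((chartAt E m).open_target.mem_nhds ((chartAt E m).map_source hc))
  have h2 : ContMDiffAt 𝓘(ℝ, E) 𝓘(ℝ, E) ∞ (chartAt E m) m :=
    contMDiffOn_chart.contMDiffAt ((chartAt E m).open_source.mem_nhds hc)
  refine (h1.contMDiffAt.comp m h2).congr_of_eventuallyEq ?_
  filter_upwards [(chartAt E m).open_source.mem_nhds hc] with x hx
  exact Bridge.triv_eq g hx

end Vale.Agent.P255
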