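import Mathlib

open scoped Manifold ContDiff Topology
open Set Filter

set_option maxSynthPendingDepth 3

namespace Vale.Agent.P255

/-- Path lifting through a local homeomorphism when local lifts are uniformly Lipschitz. -/
theorem Cover.lift {X M : Type} [MetricSpace X] [CompleteSpace X] [TopologicalSpace M]
    [T2Space M] {p : X → M} (hp : IsLocalHomeomorph p) {σ : ℝ → M}
    (hσ : ContinuousOn σ (Icc 0 1)) {K : ℝ}
    (hK : ∀ (a b : ℝ) (ν : ℝ → X), 0 ≤ a → a ≤ b → b ≤ 1 → ContinuousOn ν (Icc a b) →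
      (∀ s ∈ Icc a b, p (ν s) = σ s) → dist (ν a) (ν b) ≤ K * (b - a))
    {x : X} (hx : p x = σ 0) :
    ∃ ν : ℝ → X, ContinuousOn ν (Icc 0 1) ∧ ν 0 = x ∧ ∀ s ∈ Icc (0 : ℝ) 1, p (ν s) = σ s := by
  classical
  let S : Set ℝ :=
    {t | ∃ ν : ℝ → X, ContinuousOn ν (Icc 0 t) ∧ ν 0 = x ∧ ∀ s ∈ Icc (0 : ℝ) t, p (ν s) = σ s}
  have h0 : (0 : ℝ) ∈ S :=
    ⟨fun _ => x, continuousOn_const, rfl, fun s hs => by rw [le_antisymm hs.2 hs.1, hx]⟩
  have hmono : ∀ t ∈ S, ∀ t' ≤ t, t' ∈ S := fun t ⟨ν, h1, h2, h3⟩ t' ht' =>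
    ⟨ν, h1.mono (Icc_subset_Icc_right ht'), h2, fun s hs => h3 s (Icc_subset_Icc_right ht' hs)⟩
  change (1 : ℝ) ∈ S
  refine IsClosed.mem_of_ge_of_forall_exists_gt ?_ h0 zero_le_one ?_
  · refine isClosed_of_closure_subset fun T hT => ?_
    have hT1 : T ∈ Icc (0 : ℝ) 1 :=
      isClosed_Icc.closure_subset (closure_mono inter_subset_right hT)
    refine ⟨?_, hT1⟩
    rcases hT1.1.eq_or_lt with hT0 | hT0
    · exact hT0 ▸ h0
    have hlt : ∀ t, t < T → t ∈ S := fun t ht => by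
      obtain ⟨t', ht', ht''⟩ := mem_closure_iff.mp hT (Ioi t) isOpen_Ioi ht
      exact hmono t' ht''.1 t (le_of_lt ht')
    have : Nonempty (ℝ → X) := ⟨fun _ => x⟩
    choose! N hN1 hN2 hN3 using hlt
    have huniq : ∀ s t, 0 ≤ s → s ≤ t → t < T → N s s = N t s := fun s t hs hst ht =>
      (T2Space.isSeparatedMap p).eqOn_of_comp_eqOn hp.isLocallyInjective isPreconnected_Icc
        (hN1 s (hst.trans_lt ht)) ((hN1 t ht).mono (Icc_subset_Icc_right hst))
        (fun r hr => (hN3 s (hst.trans_lt ht) r hr).trans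
          (hN3 t ht r (Icc_subset_Icc_right hst hr)).symm)
        (left_mem_Icc.mpr hs) ((hN2 s (hst.trans_lt ht)).trans (hN2 t ht).symm)
        (right_mem_Icc.mpr hs)
    have hd : ∀ a ∈ Ico 0 T, ∀ b ∈ Ico 0 T, a ≤ b → dist (N a a) (N b b) ≤ |K| * dist a b := by
      intro a ha b hb hab
      rw [huniq a b ha.1 hab hb.2]
      refine (hK a b (N b) ha.1 hab (hb.2.le.trans hT1.2)
        ((hN1 b hb.2).mono (Icc_subset_Icc_left ha.1))
        fun s hs => hN3 b hb.2 s (Icc_subset_Icc_left ha.1 hs)).trans ?_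
      rw [Real.dist_eq, abs_sub_comm, abs_of_nonneg (sub_nonneg.mpr hab)]
      exact mul_le_mul_of_nonneg_right (le_abs_self K) (sub_nonneg.mpr hab)
    have hL : LipschitzOnWith ⟨|K|, abs_nonneg K⟩ (fun s => N s s) (Ico 0 T) := by
      refine LipschitzOnWith.of_dist_le_mul fun a ha b hb => ?_
      rcases le_total a b with hab | hab
      · exact hd a ha b hb hab
      · rw [dist_comm, dist_comm a b]
        exact hd b hb a ha hab
    have hne : (𝓝[Ico 0 T] T).NeBot := right_nhdsWithin_Ico_neBot hT0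
    have hc : Cauchy (map (fun s => N s s) (𝓝[Ico 0 T] T)) :=
      (cauchy_nhds.mono nhdsWithin_le_nhds).map_of_le hL.uniformContinuousOn inf_le_right
    obtain ⟨z, hz⟩ := CompleteSpace.complete hc
    have hz' : Tendsto (fun s => N s s) (𝓝[Ico 0 T] T) (𝓝 z) := hz
    refine ⟨Function.update (fun s => N s s) T z, ?_, ?_, fun s hs => ?_⟩
    · rw [continuousOn_update_iff, Icc_sdiff_right]
      exact ⟨hL.continuousOn, fun _ => hz'⟩
    · rw [Function.update_of_ne hT0.ne]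
      exact hN2 0 hT0
    · rcases hs.2.eq_or_lt with rfl | hsT
      · rw [Function.update_self]
        have h1 : Tendsto (fun r => p (N r r)) (𝓝[Ico 0 s] s) (𝓝 (p z)) :=
          (hp.continuous.tendsto z).comp hz'
        have h2 : Tendsto σ (𝓝[Ico 0 s] s) (𝓝 (σ s)) :=
          (hσ s hT1).mono (Ico_subset_Icc_self.trans (Icc_subset_Icc_right hT1.2))
        refine tendsto_nhds_unique h1 (h2.congr' ?_)
        filter_upwards [self_mem_nhdsWithin] with r hr
        exact (hN3 r hr.2 r (right_mem_Icc.mpr hr.1)).symm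
      · rw [Function.update_of_ne hsT.ne]
        exact hN3 s hsT s (right_mem_Icc.mpr hs.1)
  · rintro t ⟨⟨ν, h1, h2, h3⟩, ht⟩
    obtain ⟨φ, hφ, hpφ⟩ := hp (ν t)
    have hνt : p (ν t) = σ t := h3 t (right_mem_Icc.mpr ht.1)
    have htg : σ t ∈ φ.target := by
      rw [← hνt, hpφ]
      exact φ.map_source hφ
    have hev : σ ⁻¹' φ.target ∈ 𝓝[≥] t :=
      ((hσ t (Ico_subset_Icc_self ht)).mono_of_mem_nhdsWithin
        (mem_of_superset (Icc_mem_nhdsGE ht.2) (Icc_subset_Icc_left ht.1))).preimage_mem_nhdsWithin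
        (φ.open_target.mem_nhds htg)
    obtain ⟨u, hu, hu'⟩ :=
      mem_nhdsGE_iff_exists_Icc_subset.mp (inter_mem hev (Icc_mem_nhdsGE ht.2))
    have hu1 : u ≤ 1 := (hu' (right_mem_Icc.mpr hu.le)).2.2
    have hsec : ∀ s ∈ Icc t u, (if s ≤ t then ν s else φ.symm (σ s)) = φ.symm (σ s) := by
      intro s hs
      split_ifs with hst
      · rw [le_antisymm hst hs.1, ← hνt, hpφ, φ.left_inv hφ]
      · rfl
    refine ⟨u, ⟨fun s => if s ≤ t then ν s else φ.symm (σ s), ?_, ?_, fun s hs => ?_⟩, hu, hu1⟩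
    · rw [← Icc_union_Icc_eq_Icc ht.1 hu.le]
      refine ContinuousOn.union_of_isClosed (h1.congr fun s hs => if_pos hs.2) ?_
        isClosed_Icc isClosed_Icc
      refine ContinuousOn.congr ?_ hsec
      exact φ.continuousOn_symm.comp (hσ.mono (Icc_subset_Icc ht.1 hu1)) fun s hs => (hu' hs).1
    · simp only [if_pos ht.1, h2]
    · rcases le_total s t with hst | hst
      · simp only [if_pos hst]
        exact h3 s ⟨hs.1, hst⟩
      · simp only [hsec s ⟨hst, hs.2⟩]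
        rw [hpφ]
        exact φ.right_inv (hu' ⟨hst, hs.2⟩).1

/-- A local homeomorphism from a complete metric space along which lifts of chart segments are
uniformly Lipschitz is a covering map. -/
theorem isCoveringMap_of_lip {X F M : Type} [MetricSpace X] [CompleteSpace X]
    [NormedAddCommGroup F] [NormedSpace ℝ F] [TopologicalSpace M] [T2Space M] (p : X → M)
    (hp : IsLocalHomeomorph p)
    (h : ∀ m : M, ∃ (e : OpenPartialHomeomorph M F) (ρ C : ℝ), m ∈ e.source ∧ 0 < ρ ∧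
      Metric.ball (e m) ρ ⊆ e.target ∧ ∀ (a b : ℝ) (y w : F) (ν : ℝ → X), a ≤ b →
        ContinuousOn ν (Icc a b) →
        (∀ s ∈ Icc a b, y + s • w ∈ Metric.ball (e m) ρ ∧ p (ν s) = e.symm (y + s • w)) →
        dist (ν a) (ν b) ≤ C * ‖w‖ * (b - a)) :
    IsCoveringMap p := by
  classical
  intro m
  obtain ⟨e, ρ, C, hm, hρ, hB, hC⟩ := h m
  have hsep := T2Space.isSeparatedMap p
  have hc : e m ∈ Metric.ball (e m) ρ := Metric.mem_ball_self hρ
  have hseg : ∀ y ∈ Metric.ball (e m) ρ, ∀ y' ∈ Metric.ball (e m) ρ, ∀ s ∈ Icc (0 : ℝ) 1,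
      y + s • (y' - y) ∈ Metric.ball (e m) ρ := fun y hy y' hy' s hs =>
    (convex_ball (e m) ρ).add_smul_sub_mem hy hy' hs
  have hlift : ∀ y ∈ Metric.ball (e m) ρ, ∀ y' ∈ Metric.ball (e m) ρ, ∀ x, p x = e.symm y →
      ∃ ν : ℝ → X, ContinuousOn ν (Icc 0 1) ∧ ν 0 = x ∧
        ∀ s ∈ Icc (0 : ℝ) 1, p (ν s) = e.symm (y + s • (y' - y)) := by
    intro y hy y' hy' x hx
    refine Cover.lift hp (σ := fun s => e.symm (y + s • (y' - y))) (K := C * ‖y' - y‖) ?_
      (fun a b ν ha hab hb h1 h2 => hC a b y _ ν hab h1 fun s hs =>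
        ⟨hseg y hy y' hy' s (Icc_subset_Icc ha hb hs), h2 s hs⟩) (by simpa using hx)
    exact e.continuousOn_symm.comp (by fun_prop) fun s hs => hB (hseg y hy y' hy' s hs)
  have hrad : ∀ x : p ⁻¹' {m}, ∀ y ∈ Metric.ball (e m) ρ,
      ∃ ν : ℝ → X, ContinuousOn ν (Icc 0 1) ∧ ν 0 = x ∧
        ∀ s ∈ Icc (0 : ℝ) 1, p (ν s) = e.symm (e m + s • (y - e m)) := fun x y hy =>
    hlift _ hc y hy x (by rw [e.left_inv hm]; exact x.2)
  have : Nonempty (ℝ → X) ∨ IsEmpty X := by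
    rcases isEmpty_or_nonempty X with hX | hX
    · exact Or.inr hX
    · exact Or.inl inferInstance
  rcases this with hne | hX
  swap
  · have : IsEmpty (p ⁻¹' {m}) := inferInstance
    exact .of_preimage_eq_empty _ univ_mem (eq_empty_of_isEmpty _)
  choose! N hN1 hN2 hN3 using hrad
  let V : Set M := e.source ∩ e ⁻¹' Metric.ball (e m) ρ
  have hV : IsOpen V := e.isOpen_inter_preimage Metric.isOpen_ball
  have hmV : m ∈ V := ⟨hm, hc⟩
  have hp1 : ∀ x, ∀ v ∈ V, p (N x (e v) 1) = v := fun x v hv => by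
    rw [hN3 x _ hv.2 1 (right_mem_Icc.mpr zero_le_one), one_smul, add_sub_cancel, e.left_inv hv.1]
  have hcont : ∀ x, ContinuousOn (fun y => N x y 1) (Metric.ball (e m) ρ) := by
    intro x
    let f : C(unitInterval × Metric.ball (e m) ρ, M) :=
      ⟨fun q => e.symm (e m + (q.1 : ℝ) • ((q.2 : F) - e m)),
        e.continuousOn_symm.comp_continuous (by fun_prop) fun q => hB (hseg _ hc _ q.2.2 _ q.1.2)⟩
    have hg := hp.continuous_lift hsep f (g := fun q => N x q.2 q.1)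
      (funext fun q => hN3 x _ q.2.2 _ q.1.2)
      (continuous_const.congr fun y => (hN2 x _ y.2).symm) fun y => (hN1 x _ y.2).restrict
    rw [continuousOn_iff_continuous_restrict]
    exact hg.comp (Continuous.prodMk_right (1 : unitInterval))
  let U : p ⁻¹' {m} → Set X := fun x => {z | p z ∈ V ∧ N x (e (p z)) 1 = z}
  have hU : ∀ x, IsOpen (U x) := by
    intro x
    refine isOpen_iff_mem_nhds.mpr fun z hz => ?_
    obtain ⟨φ, hφ, hpφ⟩ := hp z
    have h1 : ContinuousAt (fun z' => N x (e (p z')) 1) z :=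
      ((hcont x).continuousAt (Metric.isOpen_ball.mem_nhds hz.1.2)).comp
        (f := fun z' => e (p z')) ((e.continuousAt hz.1.1).comp hp.continuous.continuousAt)
    have h2 : ∀ᶠ z' in 𝓝 z, N x (e (p z')) 1 ∈ φ.source :=
      h1.eventually_mem (φ.open_source.mem_nhds (by rw [hz.2]; exact hφ))
    filter_upwards [h2, φ.open_source.mem_nhds hφ,
      hp.continuous.continuousAt.eventually_mem (hV.mem_nhds hz.1)] with z' h3 h4 h5
    exact ⟨h5, φ.injOn h3 h4 (by rw [← hpφ]; exact hp1 x _ h5)⟩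
  have hex : p ⁻¹' V ⊆ ⋃ x, U x := by
    intro z hz
    obtain ⟨ν, h1, h2, h3⟩ := hlift _ hz.2 _ hc z (e.left_inv hz.1).symm
    have hx : p (ν 1) = m := by
      rw [h3 1 (right_mem_Icc.mpr zero_le_one), one_smul, add_sub_cancel, e.left_inv hm]
    refine mem_iUnion.mpr ⟨⟨ν 1, hx⟩, hz, ?_⟩
    have hs : ∀ s ∈ Icc (0 : ℝ) 1, 1 - s ∈ Icc (0 : ℝ) 1 := fun s hs =>
      ⟨sub_nonneg.mpr hs.2, sub_le_self _ hs.1⟩
    have := hsep.eqOn_of_comp_eqOn hp.isLocallyInjective isPreconnected_Icc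
      (hN1 ⟨ν 1, hx⟩ _ hz.2) (h1.comp (f := fun s : ℝ => 1 - s) (by fun_prop) hs)
      (fun s hs' => by
        change p (N _ _ s) = p (ν (1 - s))
        rw [hN3 _ _ hz.2 s hs', h3 _ (hs s hs')]
        exact congrArg e.symm (by module))
      (left_mem_Icc.mpr zero_le_one) (by simpa using hN2 ⟨ν 1, hx⟩ _ hz.2)
      (right_mem_Icc.mpr zero_le_one)
    simpa [h2] using this
  have : DiscreteTopology (p ⁻¹' {m}) :=
    (IsDiscrete.of_openPartialHomeomorph p subset_rfl fun z _ =>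
      (hp z).imp fun φ hφ => ⟨hφ.1, hφ.2.symm⟩).1
  rcases isEmpty_or_nonempty (p ⁻¹' {m}) with hF | hF
  · exact .of_preimage_eq_empty _ (hV.mem_nhds hmV) (by simpa using hex)
  have : Nonempty X := ⟨Classical.arbitrary (p ⁻¹' {m})⟩
  refine .of_trivialization (t := hV.trivializationDiscrete U V (fun x W hW => ⟨fun hW' => ?_,
    fun hW' => ?_⟩) (fun x z hz z' hz' hzz => ?_) (fun x v hv => ?_) (fun x x' hxx => ?_) hex) hmV
  · exact (hW'.preimage hp.continuous).inter (hU x)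
  · refine (congrArg IsOpen ?_).mp (hp.isOpenMap _ hW')
    refine Subset.antisymm ?_ fun v hv => ⟨N x (e v) 1, ⟨?_, ?_, ?_⟩, hp1 x v (hW hv)⟩
    · rintro _ ⟨z, hz, rfl⟩
      exact hz.1
    · rw [mem_preimage, hp1 x v (hW hv)]
      exact hv
    · rw [hp1 x v (hW hv)]
      exact hW hv
    · rw [hp1 x v (hW hv)]
  · rw [← hz.2, ← hz'.2, hzz]
  · refine ⟨N x (e v) 1, ⟨?_, ?_⟩, hp1 x v hv⟩
    · rw [hp1 x v hv]
      exact hv
    · rw [hp1 x v hv]
  · refine disjoint_left.mpr fun z hz hz' => hxx (Subtype.ext ?_)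
    rw [← hN2 x _ hz.1.2, ← hN2 x' _ hz.1.2]
    exact hsep.eqOn_of_comp_eqOn hp.isLocallyInjective isPreconnected_Icc (hN1 x _ hz.1.2)
      (hN1 x' _ hz.1.2) (fun s hs => (hN3 x _ hz.1.2 s hs).trans (hN3 x' _ hz.1.2 s hs).symm)
      (right_mem_Icc.mpr zero_le_one) (hz.2.trans hz'.2.symm) (left_mem_Icc.mpr zero_le_one)

end Vale.Agent.P255
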