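import Vale.Agent.P255.Jac
import Vale.Agent.P255.Cover

open scoped Manifold ContDiff Topology
open Set Filter

set_option maxSynthPendingDepth 3

namespace Vale.Agent.P255

variable {E : Type} [NormedAddCommGroup E] [NormedSpace ℝ E] [FiniteDimensional ℝ E]
  {M : Type} [TopologicalSpace M] [ChartedSpace E M] [IsManifold 𝓘(ℝ, E) ∞ M]
  {g : M → E →L[ℝ] E →L[ℝ] ℝ}
  {m : M} {Γ : E × ℝ → M}

theorem GeoFam.loc_Key1 (h : IsRM g) (hK : NPC g) (hΓ : GeoFam g m Γ)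
    {e : OpenPartialHomeomorph M E} (he : e ∈ atlas E M) {v : E} (hs : Γ (v, 1) ∈ e.source) :
    HasFDerivAt (fun w => e (Γ (w, 1)))
      ((fderiv ℝ (e ∘ Γ) (v, 1)).comp (ContinuousLinearMap.inl ℝ E ℝ)) v ∧
    (∀ w, g m w w ≤ gc g e (e (Γ (v, 1))) (fderiv ℝ (e ∘ Γ) (v, 1) (w, 0))
      (fderiv ℝ (e ∘ Γ) (v, 1) (w, 0))) ∧
    ∃ φ : OpenPartialHomeomorph E E, v ∈ φ.source ∧ (∀ w, φ w = e (Γ (w, 1))) ∧
      ContDiffAt ℝ 1 φ.symm (e (Γ (v, 1))) := by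
  have hc : ContDiffAt ℝ 3 (e ∘ Γ) (v, 1) :=
    contDiffAt_chart_comp (WithTop.coe_le_coe.2 (le_top : (3 : ℕ∞) ≤ ⊤)) he hs (hΓ.smooth _)
  have hd : DifferentiableAt ℝ (e ∘ Γ) (v, 1) := hc.differentiableAt (by norm_num)
  have h1 : HasFDerivAt (fun w => e (Γ (w, 1)))
      ((fderiv ℝ (e ∘ Γ) (v, 1)).comp (ContinuousLinearMap.inl ℝ E ℝ)) v :=
    HasFDerivAt.comp (f := fun w : E => (w, (1 : ℝ))) v hd.hasFDerivAt
      (hasFDerivAt_prodMk_left (𝕜 := ℝ) v (1 : ℝ))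
  have h2 : ∀ w, g m w w ≤ gc g e (e (Γ (v, 1))) (fderiv ℝ (e ∘ Γ) (v, 1) (w, 0))
      (fderiv ℝ (e ∘ Γ) (v, 1) (w, 0)) := by
    intro w
    rw [← pb_eq he hs hΓ.smooth.continuous.continuousAt hd]
    exact hΓ.expand h hK v w
  refine ⟨h1, h2, ?_⟩
  obtain ⟨D, hD⟩ : ∃ D : E →L[ℝ] E,
      D = (fderiv ℝ (e ∘ Γ) (v, 1)).comp (ContinuousLinearMap.inl ℝ E ℝ) := ⟨_, rfl⟩
  have hinj : Function.Injective D := by
    rw [injective_iff_map_eq_zero]
    intro w hw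
    by_contra h0
    have h3 := h2 w
    have h4 : fderiv ℝ (e ∘ Γ) (v, 1) (w, 0) = 0 := by simpa [hD] using hw
    rw [h4] at h3
    have := h.pos m w h0
    simp at h3
    linarith
  have hbij : Function.Bijective (D : E →ₗ[ℝ] E) :=
    ⟨hinj, LinearMap.injective_iff_surjective.1 hinj⟩
  let D' : E ≃L[ℝ] E := (LinearEquiv.ofBijective (D : E →ₗ[ℝ] E) hbij).toContinuousLinearEquiv
  have hD' : (D' : E →L[ℝ] E) = D := by ext w; rfl
  have hc1 : ContDiffAt ℝ 1 (fun w => e (Γ (w, 1))) v :=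
    (hc.of_le (by norm_num)).comp v (f := fun w : E => (w, (1 : ℝ))) (by fun_prop)
  have h5 : HasFDerivAt (fun w => e (Γ (w, 1))) (D' : E →L[ℝ] E) v := by
    rw [hD', hD]; exact h1
  have : CompleteSpace E := FiniteDimensional.complete ℝ E
  exact ⟨hc1.toOpenPartialHomeomorph _ h5 one_ne_zero,
    hc1.mem_toOpenPartialHomeomorph_source h5 one_ne_zero, fun _ => rfl,
    hc1.to_localInverse h5 one_ne_zero⟩

theorem GeoFam.isLocalHomeomorph (h : IsRM g) (hK : NPC g) (hΓ : GeoFam g m Γ) :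
    IsLocalHomeomorph fun v => Γ (v, 1) := by
  refine IsLocalHomeomorph.mk _ fun v => ?_
  have hs := mem_chart_source E (Γ (v, 1))
  obtain ⟨-, -, φ, h1, h2, -⟩ := hΓ.loc_Key1 h hK (chart_mem_atlas E (Γ (v, 1))) hs
  have hc : Continuous fun w : E => Γ (w, 1) := hΓ.smooth.continuous.comp (by fun_prop)
  have hU : IsOpen ((fun w : E => Γ (w, 1)) ⁻¹' (chartAt E (Γ (v, 1))).source) :=
    (chartAt E (Γ (v, 1))).open_source.preimage hc
  refine ⟨(φ.restrOpen _ hU).trans (chartAt E (Γ (v, 1))).symm, ?_, ?_⟩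
  · refine ⟨⟨h1, hs⟩, ?_⟩
    simp only [OpenPartialHomeomorph.symm_source, mem_preimage]
    change φ v ∈ _
    rw [h2]
    exact (chartAt E (Γ (v, 1))).map_source hs
  · intro w hw
    change Γ (w, 1) = (chartAt E (Γ (v, 1))).symm (φ w)
    rw [h2, (chartAt E (Γ (v, 1))).left_inv hw.1.2]

/-- Continuous lifts of `C¹` curves through the exponential map are `C¹`, and not faster. -/
theorem GeoFam.lift (h : IsRM g) (hK : NPC g) (hΓ : GeoFam g m Γ)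
    {e : OpenPartialHomeomorph M E} (he : e ∈ atlas E M) {ν σ : ℝ → E} {s : ℝ}
    (hν : ContinuousAt ν s) (hs : Γ (ν s, 1) ∈ e.source)
    (hl : ∀ᶠ r in 𝓝 s, e (Γ (ν r, 1)) = σ r) (hσ : ContDiffAt ℝ 1 σ s) :
    ContDiffAt ℝ 1 ν s ∧ fderiv ℝ (e ∘ Γ) (ν s, 1) (deriv ν s, 0) = deriv σ s ∧
      g m (deriv ν s) (deriv ν s) ≤ gc g e (σ s) (deriv σ s) (deriv σ s) := by
  obtain ⟨h0, h1, φ, h2, h3, h4⟩ := hΓ.loc_Key1 h hK he hs
  have hs0 : e (Γ (ν s, 1)) = σ s := hl.self_of_nhds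
  have h5 : ν =ᶠ[𝓝 s] φ.symm ∘ σ := by
    filter_upwards [hl, hν.preimage_mem_nhds (φ.open_source.mem_nhds h2)] with r a b
    rw [Function.comp, ← a, ← h3, φ.left_inv b]
  have h6 : ContDiffAt ℝ 1 ν s := by
    refine ContDiffAt.congr_of_eventuallyEq ?_ h5
    exact (hs0 ▸ h4).comp s hσ
  have h7 : fderiv ℝ (e ∘ Γ) (ν s, 1) (deriv ν s, 0) = deriv σ s := by
    have h8 := h0.comp_hasDerivAt s (h6.differentiableAt one_ne_zero).hasDerivAt
    have h9 : σ =ᶠ[𝓝 s] (fun w => e (Γ (w, 1))) ∘ ν := by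
      filter_upwards [hl] with r a
      exact a.symm
    rw [(h8.congr_of_eventuallyEq h9).deriv]
    simp
  refine ⟨h6, h7, ?_⟩
  rw [← h7, ← hs0]
  exact h1 _

theorem coercive_Key1 (B : E →L[ℝ] E →L[ℝ] ℝ) (hB : ∀ v, v ≠ 0 → 0 < B v v) :
    ∃ c : ℝ, 0 < c ∧ ∀ u, c * ‖u‖ ^ 2 ≤ B u u := by
  by_cases hE : (Metric.sphere (0 : E) 1).Nonempty
  · obtain ⟨u₀, hu₀, h0⟩ := (isCompact_sphere (0 : E) 1).exists_isMinOn hE
      (f := fun u => B u u) (by fun_prop)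
    have hn : ‖u₀‖ = 1 := by simpa using hu₀
    refine ⟨B u₀ u₀, hB u₀ (by rintro rfl; simp at hn), fun u => ?_⟩
    by_cases hu : u = 0
    · simp [hu]
    have hp : 0 < ‖u‖ := norm_pos_iff.2 hu
    have h1 : B u₀ u₀ ≤ B (‖u‖⁻¹ • u) (‖u‖⁻¹ • u) :=
      h0 (by simp [norm_smul, hp.ne'])
    simp only [map_smul, smul_apply, smul_eq_mul] at h1
    calc B u₀ u₀ * ‖u‖ ^ 2 ≤ ‖u‖⁻¹ * (‖u‖⁻¹ * B u u) * ‖u‖ ^ 2 := by gcongr
      _ = B u u := by field_simp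
  · refine ⟨1, one_pos, fun u => ?_⟩
    by_cases hu : u = 0
    · simp [hu]
    have hp : 0 < ‖u‖ := norm_pos_iff.2 hu
    exact absurd ⟨‖u‖⁻¹ • u, by simp [norm_smul, hp.ne']⟩ hE

theorem GeoFam.isCoveringMap [T2Space M] (h : IsRM g) (hK : NPC g) (hΓ : GeoFam g m Γ) :
    IsCoveringMap fun v => Γ (v, 1) := by
  have : CompleteSpace E := FiniteDimensional.complete ℝ E
  refine isCoveringMap_of_lip (F := E) _ (hΓ.isLocalHomeomorph h hK) fun m' => ?_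
  obtain ⟨e, he⟩ : ∃ e, e = chartAt E m' := ⟨_, rfl⟩
  have hea : e ∈ atlas E M := he ▸ chart_mem_atlas E m'
  have hm : m' ∈ e.source := he ▸ mem_chart_source E m'
  obtain ⟨ρ, hρ, hb⟩ := Metric.nhds_basis_closedBall.mem_iff.1
    (e.open_target.mem_nhds (e.map_source hm))
  obtain ⟨C₂, hC₂⟩ := (isCompact_closedBall (e m') ρ).exists_bound_of_continuousOn
    ((h.smooth e hea).continuousOn.mono hb)
  obtain ⟨c, hc, hc'⟩ := coercive_Key1 (g m) (h.pos m)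
  have hC0 : 0 ≤ C₂ := (norm_nonneg _).trans (hC₂ _ (Metric.mem_closedBall_self hρ.le))
  refine ⟨e, ρ, Real.sqrt (C₂ / c), hm, hρ, Metric.ball_subset_closedBall.trans hb, ?_⟩
  intro a b y w ν hab hν hl
  rcases hab.eq_or_lt with rfl | hab
  · simp
  have key : ∀ s ∈ Ioo a b, DifferentiableAt ℝ ν s ∧ ‖deriv ν s‖ ≤ Real.sqrt (C₂ / c) * ‖w‖ := by
    intro s hs
    have hn : Icc a b ∈ 𝓝 s := Icc_mem_nhds hs.1 hs.2
    have hs' := hl s (Ioo_subset_Icc_self hs)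
    have ht : ∀ r ∈ Icc a b, y + r • w ∈ e.target := fun r hr =>
      hb (Metric.ball_subset_closedBall (hl r hr).1)
    obtain ⟨h1, -, h3⟩ := hΓ.lift h hK hea (ν := ν) (σ := fun r => y + r • w) (s := s)
      (hν.continuousAt hn) (by rw [hs'.2]; exact e.map_target (ht s (Ioo_subset_Icc_self hs)))
      (by
        filter_upwards [hn] with r hr
        rw [(hl r hr).2, e.right_inv (ht r hr)]) (by fun_prop)
    refine ⟨h1.differentiableAt one_ne_zero, ?_⟩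
    have hd : deriv (fun r : ℝ => y + r • w) s = w := by
      have := ((hasDerivAt_id s).smul_const w).const_add y
      simpa using this.deriv
    rw [hd] at h3
    have h4 : gc g e (y + s • w) w w ≤ C₂ * ‖w‖ ^ 2 := by
      have h5 := (gc g e (y + s • w)).le_opNorm₂ w w
      have h6 := hC₂ _ (Metric.ball_subset_closedBall hs'.1)
      calc gc g e (y + s • w) w w ≤ ‖gc g e (y + s • w) w w‖ := le_abs_self _
        _ ≤ ‖gc g e (y + s • w)‖ * ‖w‖ * ‖w‖ := h5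
        _ ≤ C₂ * ‖w‖ * ‖w‖ := by gcongr
        _ = C₂ * ‖w‖ ^ 2 := by ring
    have h7 : ‖deriv ν s‖ ^ 2 ≤ (Real.sqrt (C₂ / c) * ‖w‖) ^ 2 := by
      rw [mul_pow, Real.sq_sqrt (by positivity), div_mul_eq_mul_div, le_div_iff₀ hc]
      have := hc' (deriv ν s)
      linarith
    exact (pow_le_pow_iff_left₀ (norm_nonneg _) (by positivity) two_ne_zero).1 h7
  have hL : LipschitzOnWith ⟨Real.sqrt (C₂ / c) * ‖w‖, by positivity⟩ ν (Ioo a b) :=
    (convex_Ioo a b).lipschitzOnWith_of_nnnorm_deriv_le (fun s hs => (key s hs).1)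
      (fun s hs => (key s hs).2)
  have hL' := hL.closure (by rw [closure_Ioo hab.ne]; exact hν)
  rw [closure_Ioo hab.ne] at hL'
  have := hL'.dist_le_mul a (left_mem_Icc.2 hab.le) b (right_mem_Icc.2 hab.le)
  rwa [Real.dist_eq, abs_sub_comm, abs_of_pos (sub_pos.2 hab)] at this

end Vale.Agent.P255
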