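import Vale.Agent.P255.Calc2

open scoped ContDiff Topology
open Set Filter

set_option maxSynthPendingDepth 3

namespace Vale.Agent.P255.JacX

theorem real_cmp {A : ℝ → ℝ} {D : ℝ → ℝ} {W : ℝ} (h1 : Differentiable ℝ A)
    (h2 : ∀ r, HasDerivAt (deriv A) (D r) r)
    (h3 : ∀ r t, 0 ≤ D r / 2 - t * deriv A r + t ^ 2 * A r) (h4 : A 0 = 0) (h5 : deriv A 0 = 0)
    (h6 : W ≤ D 0 / 2) : 2 * A 1 ≤ deriv A 1 ∧ W ≤ A 1 := by
  have hlt : ∀ᶠ r in 𝓝[>] (0 : ℝ), 0 < r ∧ r < 1 := Ioo_mem_nhdsGT one_pos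
  have hψ : ∀ r, 0 < r → HasDerivAt (fun x => deriv A x / 2 - A x / x)
      (D r / 2 - r⁻¹ * deriv A r + r⁻¹ ^ 2 * A r) r := by
    intro r hr
    have := ((h2 r).div_const 2).sub ((h1 r).hasDerivAt.div (hasDerivAt_id r) hr.ne')
    refine this.congr_deriv ?_
    simp only [id]; field_simp; ring
  have hmono : MonotoneOn (fun x => deriv A x / 2 - A x / x) (Ioi 0) :=
    monotoneOn_of_deriv_nonneg (convex_Ioi 0)
      (fun r hr => (hψ r hr).continuousAt.continuousWithinAt)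
      (fun r hr => (hψ r (interior_subset hr)).differentiableAt.differentiableWithinAt)
      fun r hr => by rw [(hψ r (interior_subset hr)).deriv]; exact h3 r _
  have hsl : Tendsto (fun x => A x / x) (𝓝[>] 0) (𝓝 0) := by
    have := (hasDerivAt_iff_tendsto_slope.1 (h1 0).hasDerivAt).mono_left (nhdsGT_le_nhdsNE 0)
    rw [h5] at this
    refine this.congr fun x => ?_
    rw [slope_def_field, h4, sub_zero, sub_zero]
  have hA' : Tendsto (deriv A) (𝓝[>] 0) (𝓝 0) := by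
    have := (h2 0).continuousAt.tendsto.mono_left (nhdsWithin_le_nhds (s := Ioi 0))
    rwa [h5] at this
  have hlim : Tendsto (fun x => deriv A x / 2 - A x / x) (𝓝[>] 0) (𝓝 0) := by
    simpa using (hA'.div_const 2).sub hsl
  have hpos : ∀ r, 0 < r → 0 ≤ deriv A r / 2 - A r / r := by
    intro r hr
    refine le_of_tendsto hlim ?_
    filter_upwards [Ioo_mem_nhdsGT hr] with x hx using hmono hx.1 hr hx.2.le
  refine ⟨by have := hpos 1 one_pos; rw [div_one] at this; linarith, ?_⟩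
  have hχ : ∀ r, 0 < r → HasDerivAt (fun x => A x / x ^ 2)
      (2 * (deriv A r / 2 - A r / r) / r ^ 2) r := by
    intro r hr
    have := (h1 r).hasDerivAt.div (hasDerivAt_pow 2 r) (pow_ne_zero 2 hr.ne')
    refine this.congr_deriv ?_
    field_simp; ring
  have hmono2 : MonotoneOn (fun x => A x / x ^ 2) (Ioi 0) :=
    monotoneOn_of_deriv_nonneg (convex_Ioi 0)
      (fun r hr => (hχ r hr).continuousAt.continuousWithinAt)
      (fun r hr => (hχ r (interior_subset hr)).differentiableAt.differentiableWithinAt)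
      fun r hr => by
        have := hpos r (interior_subset hr)
        rw [(hχ r (interior_subset hr)).deriv]; positivity
  have hlim2 : Tendsto (fun x => A x / x ^ 2) (𝓝[>] 0) (𝓝 (D 0 / 2)) := by
    refine HasDerivAt.lhopital_zero_nhdsGT (f' := deriv A) (g' := fun x => 2 * x)
      (Eventually.of_forall fun x => (h1 x).hasDerivAt)
      (Eventually.of_forall fun x => by simpa using hasDerivAt_pow 2 x)
      (hlt.mono fun x hx => by linarith [hx.1]) ?_ ?_ ?_
    · have := (h1 0).continuousAt.tendsto.mono_left (nhdsWithin_le_nhds (s := Ioi 0))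
      rwa [h4] at this
    · have := ((continuous_pow 2).tendsto (0 : ℝ)).mono_left (nhdsWithin_le_nhds (s := Ioi 0))
      simpa using this
    · have := ((hasDerivAt_iff_tendsto_slope.1 (h2 0)).mono_left
        (nhdsGT_le_nhdsNE 0)).div_const 2
      refine this.congr fun x => ?_
      rw [slope_def_field, h5, sub_zero, sub_zero, div_div, mul_comm]
  refine h6.trans (le_of_tendsto hlim2 ?_)
  filter_upwards [hlt] with x hx
  simpa using hmono2 hx.1 (mem_Ioi.2 one_pos) hx.2.le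

variable {E : Type} [NormedAddCommGroup E] [NormedSpace ℝ E]

theorem slice {F : Type} [NormedAddCommGroup F] [NormedSpace ℝ F] {f : E × ℝ → F} {v : E} {r : ℝ}
    (hf : DifferentiableAt ℝ f (v, r)) :
    HasDerivAt (fun x => f (v, x)) (fderiv ℝ f (v, r) (0, 1)) r :=
  hf.hasFDerivAt.comp_hasDerivAt r ((hasDerivAt_const r v).prodMk (hasDerivAt_id r))

theorem slice' {F : Type} [NormedAddCommGroup F] [NormedSpace ℝ F] {f : E × ℝ → F} {v : E} {r : ℝ}
    (hf : DifferentiableAt ℝ f (v, r)) (w : E) :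
    HasDerivAt (fun τ : ℝ => f (v + τ • w, r)) (fderiv ℝ f (v, r) (w, 0)) 0 := by
  have h1 : HasDerivAt (fun τ : ℝ => ((v + τ • w, r) : E × ℝ)) (w, 0) 0 := by
    simpa using (((hasDerivAt_id (0 : ℝ)).smul_const w).const_add v).prodMk (hasDerivAt_const 0 r)
  exact HasFDerivAt.comp_hasDerivAt_of_eq 0 hf.hasFDerivAt h1 (by simp)

theorem tend (v : E) (r : ℝ) : Tendsto (fun x : ℝ => ((v, x) : E × ℝ)) (𝓝 r) (𝓝 (v, r)) :=
  (continuous_const.prodMk continuous_id).tendsto r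

variable {f : E × ℝ → E} {a : E × ℝ}

theorem d1 (hf : ContDiffAt ℝ 3 f a) : ContDiffAt ℝ 2 (fderiv ℝ f) a :=
  hf.fderiv_right (m := 2) (by norm_num)

theorem d2 (hf : ContDiffAt ℝ 3 f a) : ContDiffAt ℝ 1 (fderiv ℝ (fderiv ℝ f)) a :=
  (d1 hf).fderiv_right (m := 1) (by norm_num)

theorem ev3 (hf : ContDiffAt ℝ 3 f a) : ∀ᶠ b in 𝓝 a, ContDiffAt ℝ 3 f b :=
  hf.eventually (by simp)

theorem symm2 (hf : ContDiffAt ℝ 3 f a) (p q : E × ℝ) :
    fderiv ℝ (fderiv ℝ f) a p q = fderiv ℝ (fderiv ℝ f) a q p :=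
  (hf.isSymmSndFDerivAt (by simp; norm_num)).eq p q

theorem hasD1 (hf : ContDiffAt ℝ 3 f a) (p : E × ℝ) :
    HasFDerivAt (fun b => fderiv ℝ f b p) ((fderiv ℝ (fderiv ℝ f) a).flip p) a := by
  have := ((d1 hf).differentiableAt (by simp)).hasFDerivAt.clm_apply (hasFDerivAt_const p a)
  simpa using this

theorem hasD2 (hf : ContDiffAt ℝ 3 f a) (p q : E × ℝ) :
    HasFDerivAt (fun b => fderiv ℝ (fderiv ℝ f) b p q)
      (((fderiv ℝ (fderiv ℝ (fderiv ℝ f)) a).flip p).flip q) a := by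
  have := (((d2 hf).differentiableAt (by simp)).hasFDerivAt.clm_apply
    (hasFDerivAt_const p a)).clm_apply (hasFDerivAt_const q a)
  simpa using this

theorem symm3 (hf : ContDiffAt ℝ 3 f a) (p q : E × ℝ) :
    fderiv ℝ (fderiv ℝ (fderiv ℝ f)) a p q q = fderiv ℝ (fderiv ℝ (fderiv ℝ f)) a q q p := by
  rw [((d1 hf).isSymmSndFDerivAt (by simp)).eq p q]
  have h1 : (fun b => fderiv ℝ (fderiv ℝ f) b p q) =ᶠ[𝓝 a]
      fun b => fderiv ℝ (fderiv ℝ f) b q p := (ev3 hf).mono fun b hb => symm2 hb p q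
  have h2 := ((hasD2 hf q p).congr_of_eventuallyEq h1).unique (hasD2 hf p q)
  exact (congrArg (fun L => L q) h2).symm

variable {v : E} {r : ℝ}

theorem slice1 (hf : ContDiffAt ℝ 3 f (v, r)) (p : E × ℝ) :
    HasDerivAt (fun x => fderiv ℝ f (v, x) p) (fderiv ℝ (fderiv ℝ f) (v, r) (0, 1) p) r := by
  have := slice (hasD1 hf p).differentiableAt
  rwa [(hasD1 hf p).fderiv] at this

theorem deriv_c (hf : ContDiffAt ℝ 3 f (v, r)) :
    deriv (fun x => f (v, x)) =ᶠ[𝓝 r] fun x => fderiv ℝ f (v, x) (0, 1) :=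
  ((tend v r).eventually (ev3 hf)).mono fun _ hx => (slice (hx.differentiableAt (by simp))).deriv

theorem deriv2_c (hf : ContDiffAt ℝ 3 f (v, r)) :
    deriv (deriv fun x => f (v, x)) r = fderiv ℝ (fderiv ℝ f) (v, r) (0, 1) (0, 1) := by
  rw [(deriv_c hf).deriv_eq, (slice1 hf _).deriv]

theorem deriv2_j (hf : ContDiffAt ℝ 3 f (v, r)) (p : E × ℝ) :
    deriv (deriv fun x => fderiv ℝ f (v, x) p) r =
      fderiv ℝ (fderiv ℝ (fderiv ℝ f)) (v, r) (0, 1) (0, 1) p := by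
  have h1 : deriv (fun x => fderiv ℝ f (v, x) p) =ᶠ[𝓝 r]
      fun x => fderiv ℝ (fderiv ℝ f) (v, x) (0, 1) p :=
    ((tend v r).eventually (ev3 hf)).mono fun _ hx => (slice1 hx p).deriv
  have h2 := slice (hasD2 hf (0, 1) p).differentiableAt
  rw [(hasD2 hf (0, 1) p).fderiv] at h2
  rw [h1.deriv_eq, h2.deriv]
  rfl

variable [FiniteDimensional ℝ E] {G : E → E →L[ℝ] E →L[ℝ] ℝ} {U : Set E}

theorem gj_coord (h : CM G U) (hU : f (v, r) ∈ U) (hf : ContDiffAt ℝ 3 f (v, r))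
    (hg : ∀ᶠ b in 𝓝 (v, r), cov G (fun x => f (b.1, x)) (deriv fun x => f (b.1, x)) b.2 = 0)
    (w : E) : GJ G U (fun x => f (v, x)) (fun x => fderiv ℝ f (v, x) (w, 0)) r := by
  have hl : ContDiffAt ℝ 2 (fun x : ℝ => ((v, x) : E × ℝ)) r := by fun_prop
  have hc : ContDiffAt ℝ 2 (fun x => f (v, x)) r :=
    ContDiffAt.comp (g := f) r (hf.of_le (by norm_num)) hl
  have hj : ContDiffAt ℝ 2 (fun x => fderiv ℝ f (v, x) (w, 0)) r :=
    (ContDiffAt.comp (g := fderiv ℝ f) r (d1 hf) hl).clm_apply contDiffAt_const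
  refine ⟨hU, hc, hj, hg.self_of_nhds, ?_⟩
  rw [h.jacL_eq hU hc hj hg.self_of_nhds]
  have h0 : (fun b => fderiv ℝ (fderiv ℝ f) b (0, 1) (0, 1) +
      chrL G (f b) (fderiv ℝ f b (0, 1)) (fderiv ℝ f b (0, 1))) =ᶠ[𝓝 (v, r)] fun _ => 0 := by
    filter_upwards [hg, ev3 hf, hf.continuousAt.eventually (h.isOpen.mem_nhds hU)] with b h1 h2 h3
    rw [cov, deriv2_c h2, (deriv_c h2).self_of_nhds] at h1
    rw [h.chrL_apply h3]
    exact h1
  have hd := (hasD2 hf (0, 1) (0, 1)).add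
    ((((h.differentiableAt_chrL hU).hasFDerivAt.comp (v, r)
      (hf.differentiableAt (by simp)).hasFDerivAt).clm_apply (hasD1 hf (0, 1))).clm_apply
      (hasD1 hf (0, 1)))
  have h2 := congrArg (fun L => L (w, 0))
    ((hd.congr_of_eventuallyEq h0.symm).unique (hasFDerivAt_const _ _))
  simp only [add_apply, ContinuousLinearMap.flip_apply,
    ContinuousLinearMap.comp_apply, zero_apply, Function.comp_apply,
    h.chrL_apply hU] at h2
  rw [linL, deriv2_j hf, (deriv_c hf).self_of_nhds, (slice1 hf _).deriv, ← symm3 hf,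
    symm2 hf (0, 1) (w, 0), two_smul]
  rw [h.chr_symm hU (fderiv ℝ (fderiv ℝ f) (v, r) (w, 0) (0, 1))] at h2
  refine Eq.trans ?_ h2
  abel

end Vale.Agent.P255.JacX
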