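import Vale.Agent.P255.Base

open scoped Manifold ContDiff Topology
open Set Filter

set_option maxSynthPendingDepth 3

namespace Vale.Agent.P255

variable {E : Type} [NormedAddCommGroup E] [NormedSpace ℝ E] [FiniteDimensional ℝ E]
  {G : E → E →L[ℝ] E →L[ℝ] ℝ} {U : Set E}

/-- Nondegeneracy. -/
theorem CM.ext (h : CM G U) {y : E} (hy : y ∈ U) {a b : E} (hab : ∀ z, G y a z = G y b z) :
    a = b := by
  by_contra hne
  have h1 := h.pos y hy (a - b) (sub_ne_zero.2 hne)
  have h2 : G y (a - b) (a - b) = G y a (a - b) - G y b (a - b) := by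
    rw [map_sub (G y) a b]; rfl
  rw [h2, hab] at h1
  simp at h1

omit [FiniteDimensional ℝ E] in
theorem CM.contDiffAt_G (h : CM G U) {y : E} (hy : y ∈ U) : ContDiffAt ℝ ∞ G y :=
  h.smooth.contDiffAt (h.isOpen.mem_nhds hy)

omit [FiniteDimensional ℝ E] in
theorem CM.differentiableAt_G (h : CM G U) {y : E} (hy : y ∈ U) : DifferentiableAt ℝ G y :=
  (h.contDiffAt_G hy).differentiableAt (by simp)

omit [FiniteDimensional ℝ E] in
theorem fderiv_apply_apply_aux {F : Type} [NormedAddCommGroup F] [NormedSpace ℝ F]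
    {T : E → E →L[ℝ] E →L[ℝ] F} {y : E} (hT : DifferentiableAt ℝ T y) (c a b : E) :
    fderiv ℝ (fun x => T x a b) y c = fderiv ℝ T y c a b := by
  have h1 := (hT.hasFDerivAt.clm_apply (hasFDerivAt_const a y)).clm_apply (hasFDerivAt_const b y)
  rw [h1.fderiv]
  simp

theorem CM.dg_eq (h : CM G U) {y : E} (hy : y ∈ U) (c a b : E) :
    dg G y c a b = fderiv ℝ G y c a b :=
  fderiv_apply_apply_aux (h.differentiableAt_G hy) c a b

theorem CM.fderiv_symm (h : CM G U) {y : E} (hy : y ∈ U) (c a b : E) :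
    fderiv ℝ G y c a b = fderiv ℝ G y c b a := by
  rw [← h.dg_eq hy, ← h.dg_eq hy]
  unfold dg
  have : (fun x => G x a b) =ᶠ[𝓝 y] (fun x => G x b a) := by
    filter_upwards [h.isOpen.mem_nhds hy] with x hx using h.symm x hx a b
  rw [this.fderiv_eq]

theorem CM.exists_equiv (h : CM G U) {y : E} (hy : y ∈ U) :
    ∃ e : E ≃L[ℝ] (E →L[ℝ] ℝ), (e : E →L[ℝ] E →L[ℝ] ℝ) = G y := by
  have hinj : Function.Injective (G y : E →ₗ[ℝ] E →L[ℝ] ℝ) := by
    intro a b hab
    refine h.ext hy fun z => ?_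
    have : G y a = G y b := hab
    rw [this]
  have hdim : Module.finrank ℝ E = Module.finrank ℝ (E →L[ℝ] ℝ) := by
    rw [← (LinearMap.toContinuousLinearMap : (E →ₗ[ℝ] ℝ) ≃ₗ[ℝ] (E →L[ℝ] ℝ)).finrank_eq]
    exact (Subspace.dual_finrank_eq).symm
  refine ⟨(LinearMap.linearEquivOfInjective _ hinj hdim).toContinuousLinearEquiv, ?_⟩
  ext a b
  rfl

theorem CM.apply_chrL (h : CM G U) {y : E} (hy : y ∈ U) (v w : E) :
    G y (chrL G y v w) = kosz (fderiv ℝ G y) v w := by
  obtain ⟨e, he⟩ := h.exists_equiv hy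
  rw [chrL_eq, ← he, ContinuousLinearMap.inverse_equiv]
  simp

theorem CM.chrL_apply (h : CM G U) {y : E} (hy : y ∈ U) (v w : E) :
    chrL G y v w = chr G y v w := by
  have h1 : ∀ z, 2 * G y (chrL G y v w) z = dg G y v w z + dg G y w v z - dg G y z v w := by
    intro z
    rw [h.apply_chrL hy, kosz_apply, h.dg_eq hy, h.dg_eq hy, h.dg_eq hy]
    ring
  have h2 := Classical.epsilon_spec (p := fun a : E =>
    ∀ z, 2 * G y a z = dg G y v w z + dg G y w v z - dg G y z v w) ⟨_, h1⟩
  refine h.ext hy fun z => ?_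
  have h3 := h1 z
  have h4 : 2 * G y (chr G y v w) z = _ := h2 z
  linarith

theorem CM.koszul (h : CM G U) {y : E} (hy : y ∈ U) (v w z : E) :
    2 * G y (chr G y v w) z = fderiv ℝ G y v w z + fderiv ℝ G y w v z - fderiv ℝ G y z v w := by
  rw [← h.chrL_apply hy, h.apply_chrL hy, kosz_apply]
  ring

theorem CM.chr_symm (h : CM G U) {y : E} (hy : y ∈ U) (v w : E) :
    chr G y v w = chr G y w v := by
  refine h.ext hy fun z => ?_
  have h1 := h.koszul hy v w z
  have h2 := h.koszul hy w v z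
  have h3 := h.fderiv_symm hy z v w
  linarith

theorem CM.contDiffOn_chrL (h : CM G U) : ContDiffOn ℝ ∞ (chrL G) U := by
  intro y hy
  apply ContDiffAt.contDiffWithinAt
  obtain ⟨e, he⟩ := h.exists_equiv hy
  have h1 : ContDiffAt ℝ ∞ (fun x => (G x).inverse) y := by
    have := contDiffAt_map_inverse (𝕜 := ℝ) (n := ∞) e
    rw [he] at this
    exact this.comp y (h.contDiffAt_G hy)
  have h2 : ContDiffAt ℝ ∞ (fderiv ℝ G) y :=
    (h.contDiffAt_G hy).fderiv_right (m := ∞) (by simp)
  have h3 : ContDiffAt ℝ ∞ (fun x => kosz (fderiv ℝ G x)) y := by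
    have hf : ContDiffAt ℝ ∞ (fun x => (fderiv ℝ G x).flip) y :=
      ((ContinuousLinearMap.flipₗᵢ ℝ E E (E →L[ℝ] ℝ)).toContinuousLinearEquiv.contDiff.contDiffAt).comp
        y h2
    unfold kosz
    exact ((h2.add hf).sub (contDiffAt_const.clm_comp hf)).const_smul _
  unfold chrL
  exact (((ContinuousLinearMap.compL ℝ E (E →L[ℝ] ℝ) E).contDiff.contDiffAt).comp y h1).clm_comp h3

theorem CM.differentiableAt_chrL (h : CM G U) {y : E} (hy : y ∈ U) :
    DifferentiableAt ℝ (chrL G) y :=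
  (h.contDiffOn_chrL.contDiffAt (h.isOpen.mem_nhds hy)).differentiableAt (by simp)

theorem CM.fderiv_chr (h : CM G U) {y : E} (hy : y ∈ U) (u v w : E) :
    fderiv ℝ (fun x => chr G x v w) y u = fderiv ℝ (chrL G) y u v w := by
  rw [← fderiv_apply_apply_aux (h.differentiableAt_chrL hy)]
  have : (fun x => chr G x v w) =ᶠ[𝓝 y] (fun x => chrL G x v w) := by
    filter_upwards [h.isOpen.mem_nhds hy] with x hx using (h.chrL_apply hx v w).symm
  rw [this.fderiv_eq]

theorem CM.fderiv_chrL_symm (h : CM G U) {y : E} (hy : y ∈ U) (u v w : E) :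
    fderiv ℝ (chrL G) y u v w = fderiv ℝ (chrL G) y u w v := by
  rw [← h.fderiv_chr hy, ← h.fderiv_chr hy]
  have : (fun x => chr G x v w) =ᶠ[𝓝 y] (fun x => chr G x w v) := by
    filter_upwards [h.isOpen.mem_nhds hy] with x hx using h.chr_symm hx v w
  rw [this.fderiv_eq]

theorem CM.riem_eq (h : CM G U) {y : E} (hy : y ∈ U) (u v w : E) :
    riem G y u v w = fderiv ℝ (chrL G) y u v w - fderiv ℝ (chrL G) y v u w +
      chrL G y u (chrL G y v w) - chrL G y v (chrL G y u w) := by
  unfold riem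
  rw [h.fderiv_chr hy, h.fderiv_chr hy]
  simp only [h.chrL_apply hy]

/-- Metric compatibility along a curve. -/
theorem CM.hasDerivAt_inner (h : CM G U) {c a b : ℝ → E} {c' a' b' : E} {s : ℝ} (hs : c s ∈ U)
    (hc : HasDerivAt c c' s) (ha : HasDerivAt a a' s) (hb : HasDerivAt b b' s) :
    HasDerivAt (fun r => G (c r) (a r) (b r))
      (G (c s) (a' + chr G (c s) c' (a s)) (b s) + G (c s) (a s) (b' + chr G (c s) c' (b s))) s := by
  have h1 : HasDerivAt (fun r => G (c r)) (fderiv ℝ G (c s) c') s :=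
    (h.differentiableAt_G hs).hasFDerivAt.comp_hasDerivAt s hc
  have h2 := (h1.clm_apply ha).clm_apply hb
  have k1 := h.koszul hs c' (a s) (b s)
  have k2 := h.koszul hs c' (b s) (a s)
  have k3 := h.fderiv_symm hs c' (a s) (b s)
  have k4 := h.symm _ hs (a s) (chr G (c s) c' (b s))
  refine h2.congr_deriv ?_
  simp only [map_add, ContinuousLinearMap.add_apply]
  linarith

/-- From sectional curvature to the numerator form. -/
theorem CM.nonpos (h : CM G U) {y : E} (hy : y ∈ U)
    (hK : ∀ u v : E, LinearIndependent ℝ ![u, v] → sec G y u v ≤ 0) (u v : E) :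
    G y (riem G y u v v) u ≤ 0 := by
  by_cases hli : LinearIndependent ℝ ![u, v]
  · have h1 := hK u v hli
    have hv : v ≠ 0 := by simpa using hli.ne_zero 1
    have hvv := h.pos y hy v hv
    have hne : u - (G y u v / G y v v) • v ≠ 0 := by
      intro e
      have := (LinearIndependent.pair_iff.1 hli) 1 (-(G y u v / G y v v)) (by
        rw [one_smul, neg_smul, ← sub_eq_add_neg]; exact e)
      exact one_ne_zero this.1
    have h2 := h.pos y hy _ hne
    have hs := h.symm y hy u v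
    have h3 : 0 < G y u u * G y v v - G y u v ^ 2 := by
      simp only [map_sub, map_smul, ContinuousLinearMap.sub_apply, ContinuousLinearMap.smul_apply,
        smul_eq_mul, ← hs] at h2
      have e : G y u u * G y v v - G y u v ^ 2 = (G y u u - G y u v / G y v v * G y u v -
          G y u v / G y v v * (G y u v - G y u v / G y v v * G y v v)) * G y v v := by
        field_simp
        ring
      rw [e]
      exact mul_pos h2 hvv
    unfold sec at h1
    by_contra hc
    exact absurd h1 (not_le.2 (div_pos (not_le.1 hc) h3))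
  · by_cases hv : v = 0
    · rw [h.riem_eq hy, hv]
      simp
    · rw [LinearIndependent.pair_symm_iff, LinearIndependent.pair_iff' hv] at hli
      push Not at hli
      obtain ⟨t, rfl⟩ := hli
      rw [h.riem_eq hy]
      simp

omit [FiniteDimensional ℝ E] in
theorem dg_congr {G' : E → E →L[ℝ] E →L[ℝ] ℝ} {y : E} (h : G =ᶠ[𝓝 y] G') (c a b : E) :
    dg G y c a b = dg G' y c a b := by
  unfold dg
  have : (fun x => G x a b) =ᶠ[𝓝 y] (fun x => G' x a b) := by
    filter_upwards [h] with x hx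
    rw [hx]
  rw [this.fderiv_eq]

/-- The Christoffel map only depends on the germ of the metric. -/
theorem chr_congr {G' : E → E →L[ℝ] E →L[ℝ] ℝ} {y : E} (h : G =ᶠ[𝓝 y] G') (v w : E) :
    chr G y v w = chr G' y v w := by
  unfold chr
  simp only [dg_congr h, h.eq_of_nhds]

theorem riem_congr {G' : E → E →L[ℝ] E →L[ℝ] ℝ} {y : E} (h : G =ᶠ[𝓝 y] G') (u v w : E) :
    riem G y u v w = riem G' y u v w := by
  have key : ∀ a b, (fun x => chr G x a b) =ᶠ[𝓝 y] (fun x => chr G' x a b) := by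
    intro a b
    filter_upwards [h.eventuallyEq_nhds] with x hx using chr_congr hx a b
  unfold riem
  rw [(key v w).fderiv_eq, (key u w).fderiv_eq]
  simp only [chr_congr h]

theorem GJ.congr {G' : E → E →L[ℝ] E →L[ℝ] ℝ} {U' : Set E} {c j : ℝ → E} {s : ℝ}
    (hU : IsOpen U) (hUU : U ⊆ U') (h : ∀ y ∈ U, G y = G' y) (hj : GJ G U c j s) :
    GJ G' U' c j s := by
  obtain ⟨h1, h2, h3, h4, h5⟩ := hj
  have hg : ∀ y ∈ U, G =ᶠ[𝓝 y] G' := fun y hy => by
    filter_upwards [hU.mem_nhds hy] with x hx using h x hx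
  have hcov : ∀ (k : ℝ → E) (r : ℝ), c r ∈ U → cov G c k r = cov G' c k r := by
    intro k r hr
    unfold cov
    rw [chr_congr (hg _ hr)]
  have hev : cov G c j =ᶠ[𝓝 s] cov G' c j := by
    filter_upwards [h2.continuousAt.preimage_mem_nhds (hU.mem_nhds h1)] with r hr
      using hcov j r hr
  refine ⟨hUU h1, h2, h3, by rw [← hcov _ _ h1]; exact h4, ?_⟩
  unfold jacL at h5 ⊢
  rw [← riem_congr (hg _ h1), ← hcov _ _ h1, ← h5]
  congr 1
  conv_lhs => unfold cov
  conv_rhs => unfold cov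
  have e1 := hev.deriv_eq
  have e2 := hev.eq_of_nhds
  unfold cov at e1 e2
  rw [e1, e2]

end Vale.Agent.P255
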