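import Vale.Agent.P255.Base

open scoped Manifold ContDiff Topology
open Set Filter

set_option maxSynthPendingDepth 3
set_option linter.unusedSectionVars false

namespace Vale.Agent.P255

variable {E : Type} [NormedAddCommGroup E] [NormedSpace ℝ E] [FiniteDimensional ℝ E]
  {M : Type} [TopologicalSpace M] [ChartedSpace E M] [IsManifold 𝓘(ℝ, E) ∞ M]
  {g : M → E →L[ℝ] E →L[ℝ] ℝ}
  {e e' : OpenPartialHomeomorph M E}
  {A : Type} [NormedAddCommGroup A] [NormedSpace ℝ A]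

theorem fieldc_eq (e : OpenPartialHomeomorph M E) (γ : ℝ → M)
    (J : (s : ℝ) → TangentSpace 𝓘(ℝ, E) (γ s)) (s : ℝ) : fieldc e γ J s = dC e (γ s) (J s) := rfl

/-- The differential of the inverse chart. -/
noncomputable def dS (e : OpenPartialHomeomorph M E) (y : E) : E →L[ℝ] E :=
  mfderiv 𝓘(ℝ, E) 𝓘(ℝ, E) e.symm y

theorem gc_apply (g : M → E →L[ℝ] E →L[ℝ] ℝ) (e : OpenPartialHomeomorph M E) (y v w : E) :
    gc g e y v w = g (e.symm y) (dS e y v) (dS e y w) := rfl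

theorem chart_mdiff (he : e ∈ atlas E M) : e.MDifferentiable 𝓘(ℝ, E) 𝓘(ℝ, E) :=
  mdifferentiable_of_mem_atlas he

theorem dS_dC (he : e ∈ atlas E M) {m : M} (hm : m ∈ e.source) (v : E) :
    dS e (e m) (dC e m v) = v :=
  congrArg (fun T : E →L[ℝ] E => T v) ((chart_mdiff he).symm_comp_deriv hm)

theorem dC_dS (he : e ∈ atlas E M) {y : E} (hy : y ∈ e.target) (v : E) :
    dC e (e.symm y) (dS e y v) = v :=
  congrArg (fun T : E →L[ℝ] E => T v) ((chart_mdiff he).comp_symm_deriv hy)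

theorem IsRM.cm (h : IsRM g) (he : e ∈ atlas E M) : CM (gc g e) e.target := by
  refine ⟨e.open_target, h.smooth e he, fun y _ v w => ?_, fun y hy v hv => ?_⟩
  · rw [gc_apply, gc_apply, h.symm]
  · rw [gc_apply]
    apply h.pos
    intro h0
    apply hv
    rw [← dC_dS he hy v, h0, map_zero]

theorem gc_dC (g : M → E →L[ℝ] E →L[ℝ] ℝ) (he : e ∈ atlas E M) {m : M} (hm : m ∈ e.source)
    (v w : E) : gc g e (e m) (dC e m v) (dC e m w) = g m v w := by
  rw [gc_apply, dS_dC he hm, dS_dC he hm, e.left_inv hm]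

theorem dC_injective (he : e ∈ atlas E M) {m : M} (hm : m ∈ e.source) :
    Function.Injective (dC e m) := (chart_mdiff he).mfderiv_injective hm

theorem dC_chartAt (m : M) (v : E) : dC (chartAt E m) m v = v := by
  have h := mfderiv_extChartAt_self (I := 𝓘(ℝ, E)) (x := m)
  have e1 : (extChartAt 𝓘(ℝ, E) m : M → E) = chartAt E m := by
    funext x; simp
  rw [e1] at h
  exact congrArg (fun T : E →L[ℝ] E => T v) h

theorem chart_contMDiffAt (he : e ∈ atlas E M) {m : M} (hm : m ∈ e.source) :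
    ContMDiffAt 𝓘(ℝ, E) 𝓘(ℝ, E) ∞ e m :=
  contMDiffAt_of_mem_maximalAtlas (IsManifold.subset_maximalAtlas he) hm

theorem chart_symm_contMDiffAt (he : e ∈ atlas E M) {y : E} (hy : y ∈ e.target) :
    ContMDiffAt 𝓘(ℝ, E) 𝓘(ℝ, E) ∞ e.symm y :=
  contMDiffAt_symm_of_mem_maximalAtlas (IsManifold.subset_maximalAtlas he) hy

theorem contDiffOn_trans (he : e ∈ atlas E M) (he' : e' ∈ atlas E M) :
    ContDiffOn ℝ ∞ (e' ∘ e.symm) (e.target ∩ e.symm ⁻¹' e'.source) := by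
  intro y hy
  apply ContDiffAt.contDiffWithinAt
  rw [← contMDiffAt_iff_contDiffAt]
  exact (chart_contMDiffAt he' hy.2).comp y (chart_symm_contMDiffAt he hy.1)

theorem fderiv_trans (he : e ∈ atlas E M) (he' : e' ∈ atlas E M) {y : E}
    (hy : y ∈ e.target ∩ e.symm ⁻¹' e'.source) (v : E) :
    fderiv ℝ (e' ∘ e.symm) y v = dC e' (e.symm y) (dS e y v) := by
  rw [← mfderiv_eq_fderiv]
  exact congrArg (fun T : E →L[ℝ] E => T v)
    (mfderiv_comp y ((chart_mdiff he').mdifferentiableAt hy.2)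
      ((chart_mdiff he).mdifferentiableAt_symm hy.1))

theorem gc_trans (g : M → E →L[ℝ] E →L[ℝ] ℝ) (he : e ∈ atlas E M) (he' : e' ∈ atlas E M) {y : E}
    (hy : y ∈ e.target ∩ e.symm ⁻¹' e'.source) (v w : E) :
    gc g e y v w = gc g e' (e' (e.symm y)) (fderiv ℝ (e' ∘ e.symm) y v)
      (fderiv ℝ (e' ∘ e.symm) y w) := by
  rw [fderiv_trans he he' hy, fderiv_trans he he' hy, gc_dC g he' hy.2, gc_apply]

/-- Charts which differ by a translation near `m` have the same differential. -/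
theorem dC_congr {m : M} {k : E} (he : e ∈ atlas E M) (hm : m ∈ e.source)
    (h : ∀ᶠ x in 𝓝 m, e' x = e x + k) : dC e' m = dC e m := by
  have h1 := ((chart_mdiff he).mdifferentiableAt hm).hasMFDerivAt
  have h2 : HasMFDerivAt 𝓘(ℝ, E) 𝓘(ℝ, E) (fun y : E => y + k) (e m) (ContinuousLinearMap.id ℝ E) :=
    ((hasFDerivAt_id (e m)).add_const k).hasMFDerivAt
  have h3 := (h2.comp m h1).congr_of_eventuallyEq (f₁ := e') h
  have h4 := h3.mfderiv
  unfold dC
  rw [h4]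
  rfl

theorem contDiffAt_chart_comp {n : WithTop ℕ∞} (hn : n ≤ ∞) {f : A → M} {a : A} (he : e ∈ atlas E M)
    (ha : f a ∈ e.source) (hf : ContMDiffAt 𝓘(ℝ, A) 𝓘(ℝ, E) n f a) :
    ContDiffAt ℝ n (e ∘ f) a := by
  rw [← contMDiffAt_iff_contDiffAt]
  exact ((chart_contMDiffAt he ha).of_le hn).comp a hf

theorem eventuallyEq_symm_comp {f : A → M} {a : A} (ha : f a ∈ e.source) (hc : ContinuousAt f a) :
    f =ᶠ[𝓝 a] e.symm ∘ (e ∘ f) := by
  filter_upwards [hc.preimage_mem_nhds (e.open_source.mem_nhds ha)] with x hx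
  exact (e.left_inv hx).symm

theorem contMDiffAt_of_chart {n : WithTop ℕ∞} (hn : n ≤ ∞) {f : A → M} {a : A} (he : e ∈ atlas E M)
    (ha : f a ∈ e.source) (hc : ContinuousAt f a) (hf : ContDiffAt ℝ n (e ∘ f) a) :
    ContMDiffAt 𝓘(ℝ, A) 𝓘(ℝ, E) n f a := by
  refine ContMDiffAt.congr_of_eventuallyEq ?_ (eventuallyEq_symm_comp ha hc)
  exact ((chart_symm_contMDiffAt he (e.map_source ha)).of_le hn).comp a hf.contMDiffAt

theorem dC_dM {f : A → M} {a : A} (he : e ∈ atlas E M) (ha : f a ∈ e.source)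
    (hc : ContinuousAt f a) (hf : DifferentiableAt ℝ (e ∘ f) a) (u : A) :
    dC e (f a) (dM E f a u) = fderiv ℝ (e ∘ f) a u := by
  have h1 : MDifferentiableAt 𝓘(ℝ, A) 𝓘(ℝ, E) f a := by
    refine MDifferentiableAt.congr_of_eventuallyEq ?_ (eventuallyEq_symm_comp ha hc)
    exact ((chart_mdiff he).mdifferentiableAt_symm (e.map_source ha)).comp a hf.mdifferentiableAt
  rw [← mfderiv_eq_fderiv]
  exact (congrArg (fun T : A →L[ℝ] E => T u)
    (mfderiv_comp a ((chart_mdiff he).mdifferentiableAt ha) h1)).symm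

theorem dC_vel {γ : ℝ → M} {s : ℝ} (he : e ∈ atlas E M) (hs : γ s ∈ e.source)
    (hc : ContinuousAt γ s) (hf : DifferentiableAt ℝ (e ∘ γ) s) :
    dC e (γ s) (vel E γ s) = deriv (e ∘ γ) s := by
  unfold vel
  rw [dC_dM he hs hc hf]
  rfl

/-- The pull-back metric in a chart. -/
theorem pb_eq {Γ : E × ℝ → M} {a : E × ℝ} (he : e ∈ atlas E M) (ha : Γ a ∈ e.source)
    (hc : ContinuousAt Γ a) (hf : DifferentiableAt ℝ (e ∘ Γ) a) (u w : E × ℝ) :
    pb g Γ a u w = gc g e (e (Γ a)) (fderiv ℝ (e ∘ Γ) a u) (fderiv ℝ (e ∘ Γ) a w) := by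
  rw [← dC_dM he ha hc hf, ← dC_dM he ha hc hf, gc_dC g he ha]
  rfl

end Vale.Agent.P255
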