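import Vale.Agent.P255.Trans
import Vale.Agent.P255.Chart

open scoped Manifold ContDiff Topology
open Set Filter

set_option maxSynthPendingDepth 3

namespace Vale.Agent.P255

variable {E : Type} [NormedAddCommGroup E] [NormedSpace ℝ E] [FiniteDimensional ℝ E]
  {M : Type} [TopologicalSpace M] [ChartedSpace E M] [IsManifold 𝓘(ℝ, E) ∞ M]
  {g : M → E →L[ℝ] E →L[ℝ] ℝ}

omit [FiniteDimensional ℝ E] in
theorem cov_deriv_congr {G : E → E →L[ℝ] E →L[ℝ] ℝ} {c c' : ℝ → E} {s : ℝ} (h : c =ᶠ[𝓝 s] c') :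
    cov G c (deriv c) s = cov G c' (deriv c') s := by
  unfold cov
  rw [h.eq_of_nhds, h.deriv_eq, h.deriv.deriv_eq]

/-- The geodesic equation in one chart implies it in every chart. -/
theorem IsRM.geo_of_chart (h : IsRM g) {γ : ℝ → M} {s : ℝ} {e : OpenPartialHomeomorph M E}
    (he : e ∈ atlas E M) (hs : γ s ∈ e.source) (hc : ContinuousAt γ s)
    (h2 : ContDiffAt ℝ 2 (e ∘ γ) s) (hg : cov (gc g e) (e ∘ γ) (deriv (e ∘ γ)) s = 0) :
    ∀ e' ∈ atlas E M, γ s ∈ e'.source →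
      ContDiffAt ℝ 2 (e' ∘ γ) s ∧ cov (gc g e') (e' ∘ γ) (deriv (e' ∘ γ)) s = 0 := by
  intro e' he' hs'
  have hopen : IsOpen (e.target ∩ e.symm ⁻¹' e'.source) :=
    e.continuousOn_symm.isOpen_inter_preimage e.open_target e'.open_source
  have hmem : (e ∘ γ) s ∈ e.target ∩ e.symm ⁻¹' e'.source := by
    refine ⟨e.map_source hs, ?_⟩
    simp only [Function.comp_apply, mem_preimage, e.left_inv hs]
    exact hs'
  have h3 := geo_trans ((h.cm he).mono hopen inter_subset_left) (h.cm he')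
    (contDiffOn_trans he he') (fun y hy => e'.map_source hy.2)
    (fun y hy v w => gc_trans g he he' hy v w) hmem h2 hg
  have hev : (e' ∘ γ) =ᶠ[𝓝 s] (e' ∘ e.symm) ∘ (e ∘ γ) := by
    filter_upwards [eventuallyEq_symm_comp hs hc] with r hr
    simp only [Function.comp_apply] at hr ⊢
    rw [← hr]
  exact ⟨h3.1.congr_of_eventuallyEq hev, by rw [cov_deriv_congr hev]; exact h3.2⟩

omit [FiniteDimensional ℝ E] in
theorem deriv_affine (c : ℝ → E) (a b : ℝ) :
    deriv (fun s => c (a + b * s)) = fun s => b • deriv c (a + b * s) := by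
  funext s
  have h1 := deriv_comp_mul_left (𝕜 := ℝ) b (fun x => c (a + x)) s
  rw [deriv_comp_const_add] at h1
  exact h1

/-- Affine reparametrisation. -/
theorem IsRM.geo_affine (h : IsRM g) {γ : ℝ → M} {I : Set ℝ} (hγ : IsGeodesicOn g γ I)
    (a b : ℝ) : IsGeodesicOn g (fun s => γ (a + b * s)) ((fun s => a + b * s) ⁻¹' I) := by
  refine ⟨hγ.1.comp (by fun_prop) (fun s hs => hs), fun e he s hs hm => ?_⟩
  obtain ⟨h1, h2⟩ := hγ.2 e he _ hs hm
  refine ⟨ContDiffAt.comp (g := e ∘ γ) (f := fun s => a + b * s) s h1 (by fun_prop), ?_⟩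
  have e1 : (e ∘ fun s => γ (a + b * s)) = fun s => (e ∘ γ) (a + b * s) := rfl
  have hy : (e ∘ γ) (a + b * s) ∈ e.target := e.map_source hm
  unfold cov at h2 ⊢
  rw [e1, deriv_affine, deriv_fun_const_smul_field, deriv_affine (deriv (e ∘ γ))]
  rw [← (h.cm he).chrL_apply hy] at h2 ⊢
  simp only [map_smul, smul_apply]
  rw [← smul_add, ← smul_add, h2]
  simp

theorem IsGeodesicOn.continuousAt {γ : ℝ → M} {I : Set ℝ} (hI : IsOpen I)
    (hγ : IsGeodesicOn g γ I) {s : ℝ} (hs : s ∈ I) : ContinuousAt γ s :=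
  hγ.1.continuousAt (hI.mem_nhds hs)

theorem IsGeodesicOn.dC_vel {γ : ℝ → M} {I : Set ℝ} (hI : IsOpen I)
    (hγ : IsGeodesicOn g γ I) {s : ℝ} (hs : s ∈ I) {e : OpenPartialHomeomorph M E}
    (he : e ∈ atlas E M) (hm : γ s ∈ e.source) :
    dC e (γ s) (vel E γ s) = deriv (e ∘ γ) s :=
  Vale.Agent.P255.dC_vel he hm (hγ.continuousAt hI hs)
    ((hγ.2 e he s hs hm).1.differentiableAt (by simp))

theorem IsGeodesicOn.vel_affine {γ : ℝ → M} {I : Set ℝ} (hI : IsOpen I)
    (hγ : IsGeodesicOn g γ I) (a b s : ℝ) (hs : a + b * s ∈ I) :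
    vel E (fun s => γ (a + b * s)) s = b • vel E γ (a + b * s) := by
  have he := chart_mem_atlas E (γ (a + b * s))
  have hm := mem_chart_source E (γ (a + b * s))
  apply dC_injective he hm
  have hd : DifferentiableAt ℝ (chartAt E (γ (a + b * s)) ∘ γ) (a + b * s) :=
    (hγ.2 _ he _ hs hm).1.differentiableAt (by simp)
  have h1 := Vale.Agent.P255.dC_vel (γ := fun s => γ (a + b * s)) (s := s) he hm
    (ContinuousAt.comp (g := γ) (f := fun s => a + b * s) (hγ.continuousAt hI hs) (by fun_prop))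
    (DifferentiableAt.comp (g := chartAt E (γ (a + b * s)) ∘ γ) (f := fun s => a + b * s) s hd
      (by fun_prop))
  rw [h1, map_smul, hγ.dC_vel hI hs he hm]
  exact congrFun (deriv_affine (chartAt E (γ (a + b * s)) ∘ γ) a b) s

theorem CM.geo_local_unique {G : E → E →L[ℝ] E →L[ℝ] ℝ} {U : Set E} (h : CM G U) {c c' : ℝ → E}
    {s : ℝ} (hc : ∀ᶠ r in 𝓝 s, c r ∈ U ∧ ContDiffAt ℝ 2 c r ∧ cov G c (deriv c) r = 0)
    (hc' : ∀ᶠ r in 𝓝 s, c' r ∈ U ∧ ContDiffAt ℝ 2 c' r ∧ cov G c' (deriv c') r = 0)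
    (h0 : c s = c' s) (h1 : deriv c s = deriv c' s) : c =ᶠ[𝓝 s] c' := by
  let F : E × E → E × E := fun p => (p.2, -chrL G p.1 p.2 p.2)
  have hs := hc.self_of_nhds
  have hF : ContDiffAt ℝ 1 F (c s, deriv c s) := by
    have h2 : ContDiffAt ℝ 1 (chrL G) (c s) :=
      (h.contDiffOn_chrL.contDiffAt (h.isOpen.mem_nhds hs.1)).of_le (by simp)
    have h3 : ContDiffAt ℝ 1 (fun p : E × E => chrL G p.1) (c s, deriv c s) :=
      ContDiffAt.comp (g := chrL G) (f := Prod.fst) _ h2 contDiffAt_fst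
    exact contDiffAt_snd.prodMk ((h3.clm_apply contDiffAt_snd).clm_apply contDiffAt_snd).neg
  obtain ⟨K, t, ht, hK⟩ := hF.exists_lipschitzOnWith
  have key : ∀ k : ℝ → E,
      (∀ᶠ r in 𝓝 s, k r ∈ U ∧ ContDiffAt ℝ 2 k r ∧ cov G k (deriv k) r = 0) →
      (k s, deriv k s) = (c s, deriv c s) →
      ∀ᶠ r in 𝓝 s, HasDerivAt (fun r => (k r, deriv k r)) (F (k r, deriv k r)) r ∧
        (k r, deriv k r) ∈ t := by
    intro k hk e
    have hder : ∀ r, k r ∈ U ∧ ContDiffAt ℝ 2 k r ∧ cov G k (deriv k) r = 0 →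
        HasDerivAt (fun r => (k r, deriv k r)) (F (k r, deriv k r)) r := by
      rintro r ⟨a1, a2, a3⟩
      have d1 : DifferentiableAt ℝ k r := a2.differentiableAt (by simp)
      have d2 : DifferentiableAt ℝ (deriv k) r :=
        (a2.derivWithin (m := 1) (by norm_num)).differentiableAt (by simp)
      have e2 : deriv (deriv k) r = -chrL G (k r) (deriv k r) (deriv k r) := by
        rw [h.chrL_apply a1]
        exact eq_neg_of_add_eq_zero_left a3
      have := d1.hasDerivAt.prodMk d2.hasDerivAt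
      rw [e2] at this
      exact this
    have hcont := (hder s hk.self_of_nhds).continuousAt
    rw [← e] at ht
    filter_upwards [hk, hcont.preimage_mem_nhds ht] with r a1 a2
    exact ⟨hder r a1, a2⟩
  have := ODE_solution_unique_of_eventually (v := fun _ => F) (s := fun _ => t)
    (Eventually.of_forall fun _ => hK) (key c hc rfl) (key c' hc' (by rw [h0, h1]))
    (by simp only [h0, h1])
  filter_upwards [this] with r hr
  exact congrArg Prod.fst hr

theorem IsGeodesicOn.eventually_chart {γ : ℝ → M} {I : Set ℝ} (hI : IsOpen I)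
    (hγ : IsGeodesicOn g γ I) {s : ℝ} (hs : s ∈ I) {e : OpenPartialHomeomorph M E}
    (he : e ∈ atlas E M) (hm : γ s ∈ e.source) :
    ∀ᶠ r in 𝓝 s, r ∈ I ∧ γ r ∈ e.source ∧ (e ∘ γ) r ∈ e.target ∧ ContDiffAt ℝ 2 (e ∘ γ) r ∧
      cov (gc g e) (e ∘ γ) (deriv (e ∘ γ)) r = 0 := by
  filter_upwards [hI.mem_nhds hs,
    (hγ.continuousAt hI hs).preimage_mem_nhds (e.open_source.mem_nhds hm)] with r h1 h2
  exact ⟨h1, h2, e.map_source h2, hγ.2 e he r h1 h2⟩

theorem IsRM.geo_local_unique (h : IsRM g) {γ γ' : ℝ → M} {I : Set ℝ} (hI : IsOpen I)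
    (hγ : IsGeodesicOn g γ I) (hγ' : IsGeodesicOn g γ' I) {s : ℝ}
    (hs : s ∈ I) {e : OpenPartialHomeomorph M E} (he : e ∈ atlas E M) (hm : γ s ∈ e.source)
    (h0 : γ s = γ' s) (h1 : deriv (e ∘ γ) s = deriv (e ∘ γ') s) : γ =ᶠ[𝓝 s] γ' := by
  have a1 := hγ.eventually_chart hI hs he hm
  have a2 := hγ'.eventually_chart hI hs he (h0 ▸ hm)
  have := (h.cm he).geo_local_unique (a1.mono fun r hr => hr.2.2) (a2.mono fun r hr => hr.2.2)
    (by simp only [Function.comp_apply, h0]) h1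
  filter_upwards [this, a1, a2] with r b1 b2 b3
  exact e.injOn b2.2.1 b3.2.1 b1

/-- Uniqueness of geodesics on an open interval. -/
theorem IsRM.geo_unique [T2Space M] (h : IsRM g) {γ γ' : ℝ → M} {I : Set ℝ} (hI : IsOpen I)
    (hI' : IsPreconnected I) (hγ : IsGeodesicOn g γ I) (hγ' : IsGeodesicOn g γ' I) {s : ℝ}
    (hs : s ∈ I) (h0 : γ s = γ' s) (h1 : vel E γ s = vel E γ' s) : EqOn γ γ' I := by
  have hsub : I ⊆ {r | γ =ᶠ[𝓝 r] γ'} := by
    refine hI'.subset_of_closure_inter_subset isOpen_setOf_eventually_nhds ⟨s, hs, ?_⟩ ?_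
    · have he := chart_mem_atlas E (γ s)
      have hm := mem_chart_source E (γ s)
      refine h.geo_local_unique hI hγ hγ' hs he hm h0 ?_
      rw [← hγ.dC_vel hI hs he hm, ← hγ'.dC_vel hI hs he (h0 ▸ hm), h1, ← h0]
    · rintro r ⟨hr, hrI⟩
      have hfr : ∃ᶠ x in 𝓝 r, γ =ᶠ[𝓝 x] γ' := mem_closure_iff_frequently.1 hr
      have e0 : γ r = γ' r :=
        tendsto_nhds_unique_of_frequently_eq (hγ.continuousAt hI hrI) (hγ'.continuousAt hI hrI)
          (hfr.mono fun x hx => hx.eq_of_nhds)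
      have he := chart_mem_atlas E (γ r)
      have hm := mem_chart_source E (γ r)
      refine h.geo_local_unique hI hγ hγ' hrI he hm e0 ?_
      have c1 : ContinuousAt (deriv (chartAt E (γ r) ∘ γ)) r :=
        ((hγ.2 _ he r hrI hm).1.derivWithin (m := 1) (by norm_num)).continuousAt
      have c2 : ContinuousAt (deriv (chartAt E (γ r) ∘ γ')) r :=
        ((hγ'.2 _ he r hrI (e0 ▸ hm)).1.derivWithin (m := 1) (by norm_num)).continuousAt
      exact tendsto_nhds_unique_of_frequently_eq c1 c2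
        (hfr.mono fun x hx => (hx.fun_comp (chartAt E (γ r))).deriv_eq)
  exact fun r hr => (hsub hr).eq_of_nhds

/-- Conservation of energy. -/
theorem IsRM.geo_energy (h : IsRM g) {γ : ℝ → M} {I : Set ℝ} (hI : IsOpen I)
    (hI' : IsPreconnected I) (hγ : IsGeodesicOn g γ I) {s s' : ℝ} (hs : s ∈ I) (hs' : s' ∈ I) :
    g (γ s) (vel E γ s) (vel E γ s) = g (γ s') (vel E γ s') (vel E γ s') := by
  have key : ∀ r ∈ I, HasDerivAt (fun x => g (γ x) (vel E γ x) (vel E γ x)) 0 r := by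
    intro r hr
    have he := chart_mem_atlas E (γ r)
    have hm := mem_chart_source E (γ r)
    obtain ⟨a1, a2⟩ := hγ.2 _ he r hr hm
    have d1 : DifferentiableAt ℝ (chartAt E (γ r) ∘ γ) r := a1.differentiableAt (by simp)
    have d2 : DifferentiableAt ℝ (deriv (chartAt E (γ r) ∘ γ)) r :=
      (a1.derivWithin (m := 1) (by norm_num)).differentiableAt (by simp)
    have h1 := (h.cm he).hasDerivAt_inner ((chartAt E (γ r)).map_source hm) d1.hasDerivAt
      d2.hasDerivAt d2.hasDerivAt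
    unfold cov at a2
    rw [a2] at h1
    simp only [map_zero, zero_apply, add_zero] at h1
    refine h1.congr_of_eventuallyEq ?_
    filter_upwards [hγ.eventually_chart hI hr he hm] with x hx
    rw [← hγ.dC_vel hI hx.1 he hx.2.1]
    exact (gc_dC g he hx.2.1 _ _).symm
  exact hI.is_const_of_deriv_eq_zero hI'
    (fun r hr => (key r hr).differentiableAt.differentiableWithinAt)
    (fun r hr => (key r hr).deriv) hs hs'

end Vale.Agent.P255
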