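import Vale.Agent.P255.Calc2
import Vale.Agent.P255.Geo1
import Vale.Agent.P255.Jac_x

open scoped Manifold ContDiff Topology
open Set Filter

set_option maxSynthPendingDepth 3

namespace Vale.Agent.P255

open JacX

variable {E : Type} [NormedAddCommGroup E] [NormedSpace ℝ E] [FiniteDimensional ℝ E]
  {M : Type} [TopologicalSpace M] [ChartedSpace E M] [IsManifold 𝓘(ℝ, E) ∞ M]
  {g : M → E →L[ℝ] E →L[ℝ] ℝ}
  {m : M} {Γ : E × ℝ → M}

theorem GeoFam.cd3 (hΓ : GeoFam g m Γ) {e : OpenPartialHomeomorph M E} (he : e ∈ atlas E M)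
    {a : E × ℝ} (ha : Γ a ∈ e.source) : ContDiffAt ℝ 3 (e ∘ Γ) a :=
  contDiffAt_chart_comp (WithTop.coe_le_coe.2 (le_top : (3 : ℕ∞) ≤ ⊤)) he ha (hΓ.smooth a)

omit [FiniteDimensional ℝ E] [IsManifold 𝓘(ℝ, E) ∞ M] in
theorem GeoFam.ev_src (hΓ : GeoFam g m Γ) {e : OpenPartialHomeomorph M E}
    {a : E × ℝ} (ha : Γ a ∈ e.source) : ∀ᶠ b in 𝓝 a, Γ b ∈ e.source :=
  (hΓ.smooth.continuous.continuousAt (x := a)).eventually (e.open_source.mem_nhds ha)

theorem GeoFam.pb_chart (hΓ : GeoFam g m Γ) {e : OpenPartialHomeomorph M E} (he : e ∈ atlas E M)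
    {a : E × ℝ} (ha : Γ a ∈ e.source) (u w : E × ℝ) :
    pb g Γ a u w = gc g e (e (Γ a)) (fderiv ℝ (e ∘ Γ) a u) (fderiv ℝ (e ∘ Γ) a w) :=
  pb_eq he ha hΓ.smooth.continuous.continuousAt ((hΓ.cd3 he ha).differentiableAt (by simp)) u w

/-- In a chart, variation fields of the family are Jacobi fields. -/
theorem GeoFam.gj (h : IsRM g) (hΓ : GeoFam g m Γ) {e : OpenPartialHomeomorph M E}
    (he : e ∈ atlas E M) (v w : E) (r : ℝ) (hr : Γ (v, r) ∈ e.source) :
    GJ (gc g e) e.target (fun x => e (Γ (v, x))) (fun x => fderiv ℝ (e ∘ Γ) (v, x) (w, 0)) r :=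
  gj_coord (f := e ∘ Γ) (h.cm he) (e.map_source hr) (hΓ.cd3 he hr)
    ((hΓ.ev_src hr).mono fun b hb => ((hΓ.geo b.1).2 e he b.2 (mem_univ _) hb).2) w

theorem GeoFam.dC_vel' (hΓ : GeoFam g m Γ) {e : OpenPartialHomeomorph M E} (he : e ∈ atlas E M)
    {v : E} {r : ℝ} (hr : Γ (v, r) ∈ e.source) :
    dC e (Γ (v, r)) (vel E (fun x => Γ (v, x)) r) = fderiv ℝ (e ∘ Γ) (v, r) (0, 1) := by
  have h1 := slice ((hΓ.cd3 he hr).differentiableAt (by simp))
  rw [← h1.deriv]
  exact dC_vel (γ := fun x => Γ (v, x)) he hr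
    (hΓ.smooth.continuous.comp (continuous_const.prodMk continuous_id)).continuousAt
    h1.differentiableAt

theorem GeoFam.energy (h : IsRM g) (hΓ : GeoFam g m Γ) (v : E) (r : ℝ) :
    pb g Γ (v, r) (0, 1) (0, 1) = g m v v := by
  have he := chart_mem_atlas E (Γ (v, r))
  have hr := mem_chart_source E (Γ (v, r))
  have h1 := h.geo_energy isOpen_univ isPreconnected_univ (hΓ.geo v) (mem_univ r) (mem_univ 0)
  rw [hΓ.vel0, hΓ.zero] at h1
  rw [hΓ.pb_chart he hr, ← hΓ.dC_vel' he hr, gc_dC g he hr, h1]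

theorem GeoFam.j_zero (hΓ : GeoFam g m Γ) {e : OpenPartialHomeomorph M E} (he : e ∈ atlas E M)
    (hm : m ∈ e.source) (v w : E) : fderiv ℝ (e ∘ Γ) (v, 0) (w, 0) = 0 := by
  have h1 := slice' ((hΓ.cd3 he (a := (v, 0)) (by rwa [hΓ.zero])).differentiableAt (by simp)) w
  simp only [Function.comp_apply, hΓ.zero] at h1
  exact h1.unique (hasDerivAt_const _ _)

theorem GeoFam.dj_zero (hΓ : GeoFam g m Γ) {e : OpenPartialHomeomorph M E} (he : e ∈ atlas E M)
    (hm : m ∈ e.source) (v w : E) :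
    fderiv ℝ (fderiv ℝ (e ∘ Γ)) (v, 0) (0, 1) (w, 0) = dC e m w := by
  have h3 := hΓ.cd3 he (a := (v, 0)) (by rwa [hΓ.zero])
  have h1 := slice' (hasD1 h3 (0, 1)).differentiableAt w
  rw [(hasD1 h3 (0, 1)).fderiv] at h1
  have h2 : ∀ v' : E, fderiv ℝ (e ∘ Γ) (v', 0) (0, 1) = dC e m v' := fun v' => by
    rw [← hΓ.dC_vel' he (by rwa [hΓ.zero]), hΓ.vel0, hΓ.zero]
  simp only [h2] at h1
  have h4 : HasDerivAt (fun τ : ℝ => dC e m (v + τ • w)) (dC e m w) 0 := by
    have := (dC e m).hasFDerivAt.comp_hasDerivAt (0 : ℝ)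
      (((hasDerivAt_id (0 : ℝ)).smul_const w).const_add v)
    rw [one_smul] at this
    exact this
  rw [symm2 h3]
  exact h1.unique h4

/-- Gauss lemma. -/
theorem GeoFam.gauss (h : IsRM g) (hΓ : GeoFam g m Γ) (v w : E) (r : ℝ) :
    pb g Γ (v, r) (0, 1) (w, 0) = r * g m v w := by
  have hd : ∀ r, HasDerivAt (fun x => pb g Γ (v, x) (0, 1) (w, 0) - x * g m v w) 0 r := by
    intro r
    have he := chart_mem_atlas E (Γ (v, r))
    have hr := mem_chart_source E (Γ (v, r))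
    set e := chartAt E (Γ (v, r))
    have h3 := hΓ.cd3 he hr
    have hU : (e ∘ Γ) (v, r) ∈ e.target := e.map_source hr
    have hc := h.cm he
    have hg := (hΓ.gj h he v w r hr).2.2.2.1
    have hg' : fderiv ℝ (fderiv ℝ (e ∘ Γ)) (v, r) (0, 1) (0, 1) + chr (gc g e) ((e ∘ Γ) (v, r))
        (fderiv ℝ (e ∘ Γ) (v, r) (0, 1)) (fderiv ℝ (e ∘ Γ) (v, r) (0, 1)) = 0 := by
      have e0 : fderiv ℝ (e ∘ Γ) (v, r) (0, 1) = _ := (deriv_c h3).self_of_nhds.symm
      rw [← deriv2_c h3, e0]; exact hg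
    have a1 := hc.hasDerivAt_inner (c := fun x => (e ∘ Γ) (v, x)) hU
      (slice (h3.differentiableAt (by simp))) (slice1 h3 (0, 1)) (slice1 h3 (w, 0))
    rw [hg', map_zero, zero_apply, zero_add] at a1
    have b0 := slice' (hasD1 h3 (0, 1)).differentiableAt w
    rw [(hasD1 h3 (0, 1)).fderiv] at b0
    have b1 := hc.hasDerivAt_inner (c := fun τ : ℝ => (e ∘ Γ) (v + τ • w, r)) (s := 0)
      (by simpa using hU) (slice' (h3.differentiableAt (by simp)) w) b0 b0
    have ht : Tendsto (fun τ : ℝ => ((v + τ • w, r) : E × ℝ)) (𝓝 0) (𝓝 (v, r)) := by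
      have : Continuous fun τ : ℝ => ((v + τ • w, r) : E × ℝ) := by fun_prop
      simpa using this.tendsto 0
    have b2 : HasDerivAt (fun τ : ℝ => g m (v + τ • w) (v + τ • w)) (g m w v + g m v w) 0 := by
      have l1 : HasDerivAt (fun τ : ℝ => v + τ • w) w 0 := by
        simpa using ((hasDerivAt_id (0 : ℝ)).smul_const w).const_add v
      simpa using ((g m).hasFDerivAt.comp_hasDerivAt (0 : ℝ) l1).clm_apply l1
    have b3 := (b1.congr_of_eventuallyEq ((ht.eventually (hΓ.ev_src hr)).mono fun τ hτ =>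
      (hΓ.energy h (v + τ • w) r).symm.trans (hΓ.pb_chart he hτ _ _))).unique b2
    simp only [zero_smul, add_zero, ContinuousLinearMap.flip_apply] at b3
    rw [hc.symm _ hU, h.symm m w v, hc.chr_symm hU, symm2 h3] at b3
    have a2 := (a1.congr_of_eventuallyEq (((tend v r).eventually (hΓ.ev_src hr)).mono fun x hx =>
      hΓ.pb_chart he hx (0, 1) (w, 0))).sub ((hasDerivAt_id r).mul_const (g m v w))
    refine a2.congr_deriv ?_
    linarith
  have h0 := is_const_of_deriv_eq_zero (fun r => (hd r).differentiableAt) (fun r => (hd r).deriv) r 0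
  have he := chart_mem_atlas E m
  have hm := mem_chart_source E m
  rw [hΓ.pb_chart he (a := (v, 0)) (by rwa [hΓ.zero]), hΓ.j_zero he hm, map_zero] at h0
  linarith

theorem GeoFam.cmp (h : IsRM g) (hK : NPC g) (hΓ : GeoFam g m Γ) (v w : E) :
    2 * pb g Γ (v, 1) (w, 0) (w, 0) ≤ deriv (fun r => pb g Γ (v, r) (w, 0) (w, 0)) 1 ∧
      g m w w ≤ pb g Γ (v, 1) (w, 0) (w, 0) := by
  have d1 : ∀ (e : OpenPartialHomeomorph M E), e ∈ atlas E M → ∀ r, Γ (v, r) ∈ e.source →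
      HasDerivAt (fun r => pb g Γ (v, r) (w, 0) (w, 0))
        (2 * gc g e (e (Γ (v, r))) (cov (gc g e) (fun x => e (Γ (v, x)))
          (fun x => fderiv ℝ (e ∘ Γ) (v, x) (w, 0)) r) (fderiv ℝ (e ∘ Γ) (v, r) (w, 0))) r := by
    intro e he r hr
    obtain ⟨hU, hc, hj, -, -⟩ := hΓ.gj h he v w r hr
    have a1 := (h.cm he).hasDerivAt_inner hU (hc.differentiableAt (by simp)).hasDerivAt
      (hj.differentiableAt (by simp)).hasDerivAt (hj.differentiableAt (by simp)).hasDerivAt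
    refine (a1.congr_of_eventuallyEq (((tend v r).eventually (hΓ.ev_src hr)).mono fun x hx =>
      hΓ.pb_chart he hx _ _)).congr_deriv ?_
    rw [(h.cm he).symm _ hU (fderiv ℝ (e ∘ Γ) (v, r) (w, 0)), two_mul]
    rfl
  have d2 : ∀ r, ∃ D, HasDerivAt (deriv fun r => pb g Γ (v, r) (w, 0) (w, 0)) D r ∧
      (∀ t, 0 ≤ D / 2 - t * deriv (fun r => pb g Γ (v, r) (w, 0) (w, 0)) r +
        t ^ 2 * pb g Γ (v, r) (w, 0) (w, 0)) ∧ (r = 0 → g m w w ≤ D / 2) := by
    intro r
    have he := chart_mem_atlas E (Γ (v, r))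
    have hr := mem_chart_source E (Γ (v, r))
    set e := chartAt E (Γ (v, r))
    obtain ⟨hU, hc, hj, -, hJ⟩ := hΓ.gj h he v w r hr
    have hcm := h.cm he
    have a1 := (hcm.hasDerivAt_inner hU (hc.differentiableAt (by simp)).hasDerivAt
      (hcm.differentiableAt_cov hU hc hj).hasDerivAt
      (hj.differentiableAt (by simp)).hasDerivAt).const_mul 2
    have a2 := a1.congr_of_eventuallyEq (((tend v r).eventually (hΓ.ev_src hr)).mono fun x hx =>
      (d1 e he x hx).deriv)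
    set G := gc g e
    set c := fun x => e (Γ (v, x)) with hcdef
    set j := fun x => fderiv ℝ (e ∘ Γ) (v, x) (w, 0) with hjdef
    have e1 : deriv (cov G c j) r + chr G (c r) (deriv c r) (cov G c j r) =
        -riem G (c r) (j r) (deriv c r) (deriv c r) := eq_neg_of_add_eq_zero_left hJ
    have e2 : deriv j r + chr G (c r) (deriv c r) (j r) = cov G c j r := rfl
    rw [e1, e2, map_neg, neg_apply] at a2
    have k1 := hK e he (c r) hU (j r) (deriv c r)
    refine ⟨_, a2, fun t => ?_, fun h0 => ?_⟩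
    · have k2 : 0 ≤ G (c r) (cov G c j r - t • j r) (cov G c j r - t • j r) := by
        by_cases hz : cov G c j r - t • j r = 0
        · rw [hz]; simp
        · exact (hcm.pos _ hU _ hz).le
      simp only [map_sub, map_smul, sub_apply, smul_apply, smul_eq_mul] at k2
      rw [hcm.symm _ hU (j r) (cov G c j r)] at k2
      rw [(d1 e he r hr).deriv, hΓ.pb_chart he hr]
      change 0 ≤ _ - t * (2 * G (c r) (cov G c j r) (j r)) + t ^ 2 * G (c r) (j r) (j r)
      nlinarith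
    · subst h0
      have hm : m ∈ e.source := by rwa [hΓ.zero] at hr
      have z1 : j 0 = 0 := hΓ.j_zero he hm v w
      have z2 : cov G c j 0 = dC e m w := by
        rw [← e2, z1, ← hcm.chrL_apply hU, map_zero, add_zero, ← hΓ.dj_zero he hm v w]
        exact (slice1 (hΓ.cd3 he hr) _).deriv
      have z3 : c 0 = e m := by simp only [hcdef, hΓ.zero]
      have z4 : G (c 0) (cov G c j 0) (cov G c j 0) = g m w w := by
        rw [z2, z3]; exact gc_dC g he hm w w
      linarith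
  choose D hD1 hD2 hD3 using d2
  have he := chart_mem_atlas E m
  have hm := mem_chart_source E m
  have hr : Γ (v, 0) ∈ (chartAt E m).source := by rwa [hΓ.zero]
  refine real_cmp (fun r => (d1 _ (chart_mem_atlas E _) r (mem_chart_source E _)).differentiableAt)
    hD1 hD2 ?_ ?_ (hD3 0 rfl)
  · rw [hΓ.pb_chart he hr, hΓ.j_zero he hm, map_zero]
  · rw [(d1 _ he 0 hr).deriv, hΓ.j_zero he hm, map_zero, mul_zero]

/-- The exponential map is expanding. -/
theorem GeoFam.expand (h : IsRM g) (hK : NPC g) (hΓ : GeoFam g m Γ) (v w : E) :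
    g m w w ≤ pb g Γ (v, 1) (w, 0) (w, 0) := (hΓ.cmp h hK v w).2

/-- `⟨J, J'⟩(1) ≥ |J(1)|²` for Jacobi fields vanishing at `0`. -/
theorem GeoFam.hess (h : IsRM g) (hK : NPC g) (hΓ : GeoFam g m Γ) (v w : E) :
    2 * pb g Γ (v, 1) (w, 0) (w, 0) ≤ deriv (fun r => pb g Γ (v, r) (w, 0) (w, 0)) 1 :=
  (hΓ.cmp h hK v w).1

end Vale.Agent.P255
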