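import Vale.Agent.P255.Calc1

open scoped Manifold ContDiff Topology
open Set Filter

set_option maxSynthPendingDepth 3

namespace Vale.Agent.P255

variable {E : Type} [NormedAddCommGroup E] [NormedSpace ℝ E] [FiniteDimensional ℝ E]
  {G G' : E → E →L[ℝ] E →L[ℝ] ℝ} {U U' : Set E} {τ : E → E}

namespace TransAux

omit [FiniteDimensional ℝ E] in
theorem two (hU : IsOpen U) (hτ : ContDiffOn ℝ ∞ τ U) {y : E} (hy : y ∈ U) :
    ContDiffAt ℝ 2 τ y :=
  (hτ.contDiffAt (hU.mem_nhds hy)).of_le (WithTop.coe_le_coe.2 (le_top : (2 : ℕ∞) ≤ ⊤))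

omit [FiniteDimensional ℝ E] in
theorem dtwo (hU : IsOpen U) (hτ : ContDiffOn ℝ ∞ τ U) {y : E} (hy : y ∈ U) :
    HasFDerivAt (fderiv ℝ τ) (fderiv ℝ (fderiv ℝ τ) y) y :=
  (((two hU hτ hy).fderiv_right (m := 1) (by norm_num)).differentiableAt one_ne_zero).hasFDerivAt

omit [FiniteDimensional ℝ E] in
theorem done (hU : IsOpen U) (hτ : ContDiffOn ℝ ∞ τ U) {y : E} (hy : y ∈ U) :
    HasFDerivAt τ (fderiv ℝ τ y) y :=
  ((two hU hτ hy).differentiableAt two_ne_zero).hasFDerivAt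

omit [FiniteDimensional ℝ E] in
theorem dG (h : CM G U) {y : E} (hy : y ∈ U) : HasFDerivAt G (fderiv ℝ G y) y :=
  ((h.smooth.contDiffAt (h.isOpen.mem_nhds hy)).differentiableAt (by simp)).hasFDerivAt

omit [FiniteDimensional ℝ E] in
theorem diff_iso (h : CM G U) (h' : CM G' U') (hτ : ContDiffOn ℝ ∞ τ U) (hm : MapsTo τ U U')
    (hiso : ∀ y ∈ U, ∀ v w, G y v w = G' (τ y) (fderiv ℝ τ y v) (fderiv ℝ τ y w))
    {y : E} (hy : y ∈ U) (c a b : E) :
    fderiv ℝ G y c a b =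
      fderiv ℝ G' (τ y) (fderiv ℝ τ y c) (fderiv ℝ τ y a) (fderiv ℝ τ y b) +
        G' (τ y) (fderiv ℝ (fderiv ℝ τ) y c a) (fderiv ℝ τ y b) +
        G' (τ y) (fderiv ℝ τ y a) (fderiv ℝ (fderiv ℝ τ) y c b) := by
  have h1 := ((dG h hy).clm_apply (hasFDerivAt_const a y)).clm_apply (hasFDerivAt_const b y)
  have h2 := (dG h' (hm hy)).comp y (done h.isOpen hτ hy)
  have h3 := fun u : E => (dtwo h.isOpen hτ hy).clm_apply (hasFDerivAt_const u y)
  have h4 := (h2.clm_apply (h3 a)).clm_apply (h3 b)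
  have h5 : (fun x => G x a b) =ᶠ[𝓝 y]
      fun x => (G' ∘ τ) x (fderiv ℝ τ x a) (fderiv ℝ τ x b) :=
    Filter.mem_of_superset (h.isOpen.mem_nhds hy) fun x hx => hiso x hx a b
  have h6 := DFunLike.congr_fun (h1.unique (h4.congr_of_eventuallyEq h5)) c
  simp only [add_apply, ContinuousLinearMap.comp_apply,
    ContinuousLinearMap.flip_apply, zero_apply, map_zero, zero_add,
    Function.comp_apply] at h6
  linarith

end TransAux

open TransAux in
/-- Transformation law of the Christoffel map under a local isometry. -/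
theorem chr_trans (h : CM G U) (h' : CM G' U') (hτ : ContDiffOn ℝ ∞ τ U) (hm : MapsTo τ U U')
    (hiso : ∀ y ∈ U, ∀ v w, G y v w = G' (τ y) (fderiv ℝ τ y v) (fderiv ℝ τ y w))
    {y : E} (hy : y ∈ U) (v w : E) :
    fderiv ℝ (fderiv ℝ τ) y v w + chr G' (τ y) (fderiv ℝ τ y v) (fderiv ℝ τ y w) =
      fderiv ℝ τ y (chr G y v w) := by
  have hinj : Function.Injective (fderiv ℝ τ y).toLinearMap := by
    rw [injective_iff_map_eq_zero]
    intro a ha
    by_contra h0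
    have h1 := h.pos y hy a h0
    have h2 : fderiv ℝ τ y a = 0 := ha
    rw [hiso y hy, h2, map_zero] at h1
    exact lt_irrefl _ h1
  have hsurj := LinearMap.injective_iff_surjective.1 hinj
  have hsym : ∀ a b, fderiv ℝ (fderiv ℝ τ) y a b = fderiv ℝ (fderiv ℝ τ) y b a :=
    ((two h.isOpen hτ hy).isSymmSndFDerivAt (by simp)).eq
  refine h'.ext (hm hy) fun z' => ?_
  obtain ⟨z, rfl⟩ := hsurj z'
  change G' (τ y) _ (fderiv ℝ τ y z) = G' (τ y) _ (fderiv ℝ τ y z)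
  have k1 := h.koszul hy v w z
  have k2 := h'.koszul (hm hy) (fderiv ℝ τ y v) (fderiv ℝ τ y w) (fderiv ℝ τ y z)
  rw [diff_iso h h' hτ hm hiso hy, diff_iso h h' hτ hm hiso hy, diff_iso h h' hτ hm hiso hy,
    hiso y hy, hsym w v, hsym z v, hsym z w,
    h'.symm _ (hm hy) (fderiv ℝ (fderiv ℝ τ) y v z)] at k1
  rw [map_add, add_apply]
  linarith

open TransAux in
/-- Local isometries map geodesics to geodesics. -/
theorem geo_trans (h : CM G U) (h' : CM G' U') (hτ : ContDiffOn ℝ ∞ τ U) (hm : MapsTo τ U U')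
    (hiso : ∀ y ∈ U, ∀ v w, G y v w = G' (τ y) (fderiv ℝ τ y v) (fderiv ℝ τ y w))
    {c : ℝ → E} {s : ℝ} (hs : c s ∈ U) (hc : ContDiffAt ℝ 2 c s)
    (hg : cov G c (deriv c) s = 0) :
    ContDiffAt ℝ 2 (τ ∘ c) s ∧ cov G' (τ ∘ c) (deriv (τ ∘ c)) s = 0 := by
  refine ⟨(two h.isOpen hτ hs).comp s hc, ?_⟩
  have h1 : ∀ᶠ r in 𝓝 s, c r ∈ U := hc.continuousAt (h.isOpen.mem_nhds hs)
  have h2 : ∀ᶠ r in 𝓝 s, ContDiffAt ℝ 2 c r := hc.eventually (by simp)
  have h3 : deriv (τ ∘ c) =ᶠ[𝓝 s] fun r => fderiv ℝ τ (c r) (deriv c r) := by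
    filter_upwards [h1, h2] with r a b
    exact ((done h.isOpen hτ a).comp_hasDerivAt r
      (b.differentiableAt two_ne_zero).hasDerivAt).deriv
  have h4 : HasDerivAt c (deriv c s) s := (hc.differentiableAt two_ne_zero).hasDerivAt
  have h5 : HasDerivAt (deriv c) (deriv (deriv c) s) s :=
    ((hc.derivWithin (m := 1) (by norm_num)).differentiableAt one_ne_zero).hasDerivAt
  have h6 := (((dtwo h.isOpen hτ hs).comp_hasDerivAt s h4).clm_apply h5).congr_of_eventuallyEq h3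
  have h7 := chr_trans h h' hτ hm hiso hs (deriv c s) (deriv c s)
  have h8 := congrArg (fderiv ℝ τ (c s)) hg
  rw [cov, map_add, map_zero, ← h7] at h8
  rw [cov, h6.deriv, h3.eq_of_nhds, ← h8]
  simp only [Function.comp_apply]
  abel


theorem CM.mono (h : CM G U) {W : Set E} (hW : IsOpen W) (hWU : W ⊆ U) : CM G W :=
  ⟨hW, h.smooth.mono hWU, fun y hy => h.symm y (hWU hy), fun y hy => h.pos y (hWU hy)⟩

end Vale.Agent.P255
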