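import Vale.Agent.P255.Defs

/-! Internal definitions shared by all parts of the P255 development. -/

open scoped Manifold ContDiff Topology
open Set

set_option maxSynthPendingDepth 3

namespace Vale.Agent.P255

section Coord

variable {E : Type} [NormedAddCommGroup E] [NormedSpace ℝ E]

/-- `G` is a smooth Riemannian metric on the open set `U`. -/
structure CM (G : E → E →L[ℝ] E →L[ℝ] ℝ) (U : Set E) : Prop where
  isOpen : IsOpen U
  smooth : ContDiffOn ℝ ∞ G U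
  symm : ∀ y ∈ U, ∀ v w, G y v w = G y w v
  pos : ∀ y ∈ U, ∀ v, v ≠ 0 → 0 < G y v v

/-- The Koszul form ` (v, w) ↦ (z ↦ (T v w z + T w v z - T z v w) / 2)`. -/
noncomputable def kosz (T : E →L[ℝ] E →L[ℝ] E →L[ℝ] ℝ) : E →L[ℝ] E →L[ℝ] E →L[ℝ] ℝ :=
  (1 / 2 : ℝ) • (T + T.flip -
    ((ContinuousLinearMap.flipₗᵢ ℝ E E ℝ).toContinuousLinearEquiv :
      (E →L[ℝ] E →L[ℝ] ℝ) →L[ℝ] (E →L[ℝ] E →L[ℝ] ℝ)).comp T.flip)

/-- Bundled Christoffel map. -/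
noncomputable def chrL (G : E → E →L[ℝ] E →L[ℝ] ℝ) (y : E) : E →L[ℝ] E →L[ℝ] E :=
  (ContinuousLinearMap.compL ℝ E (E →L[ℝ] ℝ) E (G y).inverse).comp (kosz (fderiv ℝ G y))

lemma kosz_apply (T : E →L[ℝ] E →L[ℝ] E →L[ℝ] ℝ) (v w z : E) :
    kosz T v w z = (1 / 2 : ℝ) * (T v w z + T w v z - T z v w) := by
  simp [kosz]

lemma chrL_eq (G : E → E →L[ℝ] E →L[ℝ] ℝ) (y v w : E) :
    chrL G y v w = (G y).inverse (kosz (fderiv ℝ G y) v w) := by
  simp only [chrL, ContinuousLinearMap.comp_apply, ContinuousLinearMap.compL_apply]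

/-- Left side of the Jacobi equation in coordinates. -/
noncomputable def jacL (G : E → E →L[ℝ] E →L[ℝ] ℝ) (c j : ℝ → E) (s : ℝ) : E :=
  cov G c (cov G c j) s + riem G (c s) (j s) (deriv c s) (deriv c s)

/-- Left side of the linearised geodesic equation in coordinates. -/
noncomputable def linL (G : E → E →L[ℝ] E →L[ℝ] ℝ) (c j : ℝ → E) (s : ℝ) : E :=
  deriv (deriv j) s + fderiv ℝ (chrL G) (c s) (j s) (deriv c s) (deriv c s) +
    (2 : ℝ) • chr G (c s) (deriv c s) (deriv j s)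

/-- At time `s`, `c` is a geodesic in `U` and `j` a Jacobi field along it. -/
def GJ (G : E → E →L[ℝ] E →L[ℝ] ℝ) (U : Set E) (c j : ℝ → E) (s : ℝ) : Prop :=
  c s ∈ U ∧ ContDiffAt ℝ 2 c s ∧ ContDiffAt ℝ 2 j s ∧ cov G c (deriv c) s = 0 ∧ jacL G c j s = 0

end Coord

section Mfd

variable {E : Type} [NormedAddCommGroup E] [NormedSpace ℝ E]
  {M : Type} [TopologicalSpace M] [ChartedSpace E M]

/-- `g` is a smooth Riemannian metric, in chart form. -/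
structure IsRM (g : M → E →L[ℝ] E →L[ℝ] ℝ) : Prop where
  symm : ∀ m v w, g m v w = g m w v
  pos : ∀ m v, v ≠ 0 → 0 < g m v v
  smooth : ∀ e ∈ atlas E M, ContDiffOn ℝ ∞ (gc g e) e.target

/-- Nonpositive curvature, numerator form. -/
def NPC (g : M → E →L[ℝ] E →L[ℝ] ℝ) : Prop :=
  ∀ e ∈ atlas E M, ∀ y ∈ e.target, ∀ u v : E, gc g e y (riem (gc g e) y u v v) u ≤ 0

variable (E) in
/-- The differential of `f : A → M` at `a`, as a map into the model space. -/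
noncomputable def dM {A : Type} [NormedAddCommGroup A] [NormedSpace ℝ A] (f : A → M) (a : A) :
    A →L[ℝ] E :=
  mfderiv 𝓘(ℝ, A) 𝓘(ℝ, E) f a

/-- The differential of the chart `e` at `m`. -/
noncomputable def dC (e : OpenPartialHomeomorph M E) (m : M) : E →L[ℝ] E :=
  mfderiv 𝓘(ℝ, E) 𝓘(ℝ, E) e m

variable (E) in
/-- Velocity of a curve. -/
noncomputable def vel (γ : ℝ → M) (s : ℝ) : E := dM E γ s 1

/-- A `C³` family of all geodesics issuing from `m`. -/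
structure GeoFam (g : M → E →L[ℝ] E →L[ℝ] ℝ) (m : M) (Γ : E × ℝ → M) : Prop where
  smooth : ContMDiff 𝓘(ℝ, E × ℝ) 𝓘(ℝ, E) 3 Γ
  geo : ∀ v, IsGeodesicOn g (fun r => Γ (v, r)) univ
  zero : ∀ v, Γ (v, 0) = m
  vel0 : ∀ v, vel E (fun r => Γ (v, r)) 0 = v

/-- The pull-back of `g` along a family. -/
noncomputable def pb (g : M → E →L[ℝ] E →L[ℝ] ℝ) (Γ : E × ℝ → M) (a u w : E × ℝ) : ℝ :=
  g (Γ a) (dM E Γ a u) (dM E Γ a w)

end Mfd

section Top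

variable {E : Type} [NormedAddCommGroup E] [NormedSpace ℝ E] {M : Type} [TopologicalSpace M]

/-- What is used of the exponential maps `ex m` and the norms `nm m`. -/
structure ExpData (ex : M → E → M) (nm : M → E → ℝ) : Prop where
  cover : ∀ m, IsCoveringMap (ex m)
  zero : ∀ m, ex m 0 = m
  cont : ∀ m, Continuous (nm m)
  nonneg : ∀ m v, 0 ≤ nm m v
  eq_zero : ∀ m v, nm m v = 0 ↔ v = 0
  bdd : ∀ m R, Bornology.IsBounded {v | nm m v ≤ R}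
  rev : ∀ m v, ∃ v', nm (ex m v) v' = nm m v ∧
    ∀ r : ℝ, ex (ex m v) (r • v') = ex m ((1 - r) • v)
  tri : ∀ m m' w (ν : ℝ → E), Continuous ν → (∀ s, ex m (ν s) = ex m' (s • w)) →
    nm m (ν 1) ≤ nm m (ν 0) + nm m' w
  cn : ∀ m m' w (ν : ℝ → E), Continuous ν → (∀ s, ex m (ν s) = ex m' (s • w)) →
    nm m (ν (1 / 2)) ^ 2 ≤ nm m (ν 0) ^ 2 / 2 + nm m (ν 1) ^ 2 / 2 - nm m' w ^ 2 / 4

/-- The algebraic obstruction satisfied by the deck group of `p`. -/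
def Obstruct {X : Type} [TopologicalSpace X] (p : X → M) : Prop :=
  ∀ u v a₁ b₁ a₂ b₂ : X ≃ₜ X, p ∘ u = p → p ∘ v = p → p ∘ a₁ = p → p ∘ b₁ = p → p ∘ a₂ = p →
    p ∘ b₂ = p → a₁ * v = v * a₁ → b₁ * v = v * b₁ → a₁ * b₁ = b₁ * a₁ * u →
    a₂ * u = u * a₂ → b₂ * u = u * b₂ → a₂ * b₂ = b₂ * a₂ * (u⁻¹ * v) → u = 1

end Top

section Pres

variable {E : Type} [NormedAddCommGroup E] [NormedSpace ℝ E] {ι Z : Type}

/-- A smooth isometric identification of a neighbourhood of `x` in sheet `i` with a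
neighbourhood of `y` in sheet `j`. -/
def Glue (Ψ : ι → E → Z) (G : ι → E → E →L[ℝ] E →L[ℝ] ℝ) (i : ι) (x : E) (j : ι) (y : E) :
    Prop :=
  ∃ φ : E → E, ContDiffAt ℝ ∞ φ x ∧ φ x = y ∧ (∀ᶠ x' in 𝓝 x, Ψ j (φ x') = Ψ i x') ∧
    ∀ v w, G i x v w = G j y (fderiv ℝ φ x v) (fderiv ℝ φ x w)

/-- A presentation of a closed Riemannian manifold by finitely many sheets mapped into `Z`. -/
structure Pres [TopologicalSpace Z] (U : ι → Set E) (Ψ : ι → E → Z)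
    (G : ι → E → E →L[ℝ] E →L[ℝ] ℝ) : Prop where
  cm : ∀ i, CM (G i) (U i)
  cont : ∀ i, ContinuousOn (Ψ i) (U i)
  inj : ∀ i, ∀ x ∈ U i, ∃ V ∈ 𝓝 x, InjOn (Ψ i) V
  glue : ∀ i j, ∀ x ∈ U i, ∀ y ∈ U j, Ψ i x = Ψ j y → Glue Ψ G i x j y ∨ Glue Ψ G j y i x
  cpt : ∃ K : ι → Set E, (∀ i, IsCompact (K i) ∧ K i ⊆ U i) ∧
    ∀ i, ∀ x ∈ U i, ∃ j, ∃ y ∈ K j, Ψ j y = Ψ i x

/-- The carrier of a presentation. -/
abbrev PM (U : ι → Set E) (Ψ : ι → E → Z) : Type := {z : Z // ∃ i, ∃ x ∈ U i, Ψ i x = z}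

/-- `e` is a chart of `PM U Ψ` inverse to sheet `i`, in which the metric is `G i`. -/
def IsSheet [TopologicalSpace Z] (U : ι → Set E) (Ψ : ι → E → Z)
    (G : ι → E → E →L[ℝ] E →L[ℝ] ℝ) [ChartedSpace E (PM U Ψ)]
    (g : PM U Ψ → E →L[ℝ] E →L[ℝ] ℝ) (i : ι) (e : OpenPartialHomeomorph (PM U Ψ) E) : Prop :=
  e ∈ atlas E (PM U Ψ) ∧ e.target ⊆ U i ∧
    ∀ y ∈ e.target, (e.symm y).1 = Ψ i y ∧ gc g e y = G i y

end Pres

end Vale.Agent.P255
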