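import Vale.Agent.P255.Calc1

open scoped Manifold ContDiff Topology
open Set Filter

set_option maxSynthPendingDepth 3

namespace Vale.Agent.P255

variable {E : Type} [NormedAddCommGroup E] [NormedSpace ℝ E] [FiniteDimensional ℝ E]
  {G : E → E →L[ℝ] E →L[ℝ] ℝ} {U : Set E} {c j : ℝ → E} {s : ℝ}

namespace Calc2

lemma two_le_inf : (2 : WithTop ℕ∞) ≤ ∞ := WithTop.coe_le_coe.2 (le_top : (2 : ℕ∞) ≤ ⊤)

omit [FiniteDimensional ℝ E] in
lemma d1 (hf : ContDiffAt ℝ 2 c s) : HasDerivAt c (deriv c s) s :=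
  (hf.differentiableAt two_ne_zero).hasDerivAt

omit [FiniteDimensional ℝ E] in
lemma cd1 (hf : ContDiffAt ℝ 2 c s) : ContDiffAt ℝ 1 (deriv c) s :=
  hf.derivWithin (m := 1) (by norm_num)

omit [FiniteDimensional ℝ E] in
lemma d2 (hf : ContDiffAt ℝ 2 c s) : HasDerivAt (deriv c) (deriv (deriv c) s) s :=
  ((cd1 hf).differentiableAt one_ne_zero).hasDerivAt

omit [FiniteDimensional ℝ E] in
lemma ev2 (hf : ContDiffAt ℝ 2 c s) : ∀ᶠ r in 𝓝 s, ContDiffAt ℝ 2 c r :=
  hf.eventually (by simp)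

omit [FiniteDimensional ℝ E] in
lemma evU (h : CM G U) (hs : c s ∈ U) (hc : ContDiffAt ℝ 2 c s) : ∀ᶠ r in 𝓝 s, c r ∈ U :=
  hc.continuousAt.preimage_mem_nhds (h.isOpen.mem_nhds hs)

omit [FiniteDimensional ℝ E] in
lemma cG (h : CM G U) {y : E} (hy : y ∈ U) : ContDiffAt ℝ ∞ G y :=
  h.smooth.contDiffAt (h.isOpen.mem_nhds hy)

lemma cC (h : CM G U) {y : E} (hy : y ∈ U) : ContDiffAt ℝ ∞ (chrL G) y :=
  h.contDiffOn_chrL.contDiffAt (h.isOpen.mem_nhds hy)

omit [FiniteDimensional ℝ E] in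
lemma dG (h : CM G U) {y : E} (hy : y ∈ U) : HasFDerivAt G (fderiv ℝ G y) y :=
  ((cG h hy).differentiableAt (by simp)).hasFDerivAt

lemma dC (h : CM G U) {y : E} (hy : y ∈ U) : HasFDerivAt (chrL G) (fderiv ℝ (chrL G) y) y :=
  ((cC h hy).differentiableAt (by simp)).hasFDerivAt

omit [FiniteDimensional ℝ E] in
lemma cDG (h : CM G U) {y : E} (hy : y ∈ U) : ContDiffAt ℝ 1 (fderiv ℝ G) y :=
  (cG h hy).fderiv_right (m := 1) (by rw [one_add_one_eq_two]; exact two_le_inf)

lemma cDC (h : CM G U) {y : E} (hy : y ∈ U) : ContDiffAt ℝ 1 (fderiv ℝ (chrL G)) y :=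
  (cC h hy).fderiv_right (m := 1) (by rw [one_add_one_eq_two]; exact two_le_inf)

omit [FiniteDimensional ℝ E] in
lemma dDG (h : CM G U) {y : E} (hy : y ∈ U) :
    HasFDerivAt (fderiv ℝ G) (fderiv ℝ (fderiv ℝ G) y) y :=
  ((cDG h hy).differentiableAt one_ne_zero).hasFDerivAt

omit [FiniteDimensional ℝ E] in
lemma d2G_symm (h : CM G U) {y : E} (hy : y ∈ U) (u v : E) :
    fderiv ℝ (fderiv ℝ G) y u v = fderiv ℝ (fderiv ℝ G) y v u :=
  (cG h hy).isSymmSndFDerivAt (by simpa using two_le_inf) u v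

lemma chrL_symm (h : CM G U) {y : E} (hy : y ∈ U) (v w : E) : chrL G y v w = chrL G y w v := by
  rw [h.chrL_apply hy, h.chrL_apply hy, h.chr_symm hy]

lemma kos (h : CM G U) {y : E} (hy : y ∈ U) (v w z : E) :
    2 * G y (chrL G y v w) z = fderiv ℝ G y v w z + fderiv ℝ G y w v z - fderiv ℝ G y z v w := by
  rw [h.chrL_apply hy, h.koszul hy]

lemma cov_eq (h : CM G U) (hs : c s ∈ U) :
    cov G c j s = deriv j s + chrL G (c s) (deriv c s) (j s) := by
  rw [cov, h.chrL_apply hs]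

lemma cov_ev (h : CM G U) (hs : c s ∈ U) (hc : ContDiffAt ℝ 2 c s) :
    cov G c j =ᶠ[𝓝 s] fun r => deriv j r + chrL G (c r) (deriv c r) (j r) := by
  filter_upwards [evU h hs hc] with r hr using cov_eq h hr

lemma hd_cov (h : CM G U) (hs : c s ∈ U) (hc : ContDiffAt ℝ 2 c s) (hj : ContDiffAt ℝ 2 j s) :
    HasDerivAt (cov G c j) (deriv (deriv j) s +
      (fderiv ℝ (chrL G) (c s) (deriv c s) (deriv c s) (j s) +
        chrL G (c s) (deriv (deriv c) s) (j s) + chrL G (c s) (deriv c s) (deriv j s))) s := by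
  have h1 : HasDerivAt (fun r => chrL G (c r)) (fderiv ℝ (chrL G) (c s) (deriv c s)) s :=
    (dC h hs).comp_hasDerivAt s (d1 hc)
  have h2 := (h1.clm_apply (d2 hc)).clm_apply (d1 hj)
  refine ((d2 hj).add h2).congr_of_eventuallyEq (cov_ev h hs hc) |>.congr_deriv ?_
  simp

lemma geo (h : CM G U) (hs : c s ∈ U) (hg : cov G c (deriv c) s = 0) :
    deriv (deriv c) s = - chrL G (c s) (deriv c s) (deriv c s) := by
  rw [cov_eq h hs] at hg
  exact eq_neg_of_add_eq_zero_left hg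

/-- The derivative of the Koszul identity. -/
lemma dkos (h : CM G U) {y : E} (hy : y ∈ U) (u v w z : E) :
    2 * (fderiv ℝ G y u (chrL G y v w) z + G y (fderiv ℝ (chrL G) y u v w) z) =
      fderiv ℝ (fderiv ℝ G) y u v w z + fderiv ℝ (fderiv ℝ G) y u w v z -
        fderiv ℝ (fderiv ℝ G) y u z v w := by
  have hl : HasDerivAt (fun r : ℝ => y + r • u) u 0 := by
    simpa using ((hasDerivAt_id (0 : ℝ)).smul_const u).const_add y
  have hy0 : y + (0 : ℝ) • u = y := by simp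
  have hU : ∀ᶠ r : ℝ in 𝓝 0, y + r • u ∈ U :=
    hl.continuousAt.preimage_mem_nhds (by simpa using h.isOpen.mem_nhds hy)
  have hG : HasDerivAt (fun r : ℝ => G (y + r • u)) (fderiv ℝ G y u) 0 :=
    HasFDerivAt.comp_hasDerivAt_of_eq (0 : ℝ) (dG h hy) hl hy0.symm
  have hC : HasDerivAt (fun r : ℝ => chrL G (y + r • u)) (fderiv ℝ (chrL G) y u) 0 :=
    HasFDerivAt.comp_hasDerivAt_of_eq (0 : ℝ) (dC h hy) hl hy0.symm
  have hD : HasDerivAt (fun r : ℝ => fderiv ℝ G (y + r • u)) (fderiv ℝ (fderiv ℝ G) y u) 0 :=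
    HasFDerivAt.comp_hasDerivAt_of_eq (0 : ℝ) (dDG h hy) hl hy0.symm
  have hT : ∀ a b d : E, HasDerivAt (fun r : ℝ => fderiv ℝ G (y + r • u) a b d)
      (fderiv ℝ (fderiv ℝ G) y u a b d) 0 := fun a b d => by
    simpa using ((hD.clm_apply (hasDerivAt_const (0 : ℝ) a)).clm_apply
      (hasDerivAt_const (0 : ℝ) b)).clm_apply (hasDerivAt_const (0 : ℝ) d)
  have hC2 : HasDerivAt (fun r : ℝ => chrL G (y + r • u) v w) (fderiv ℝ (chrL G) y u v w) 0 := by
    simpa using (hC.clm_apply (hasDerivAt_const (0 : ℝ) v)).clm_apply (hasDerivAt_const (0 : ℝ) w)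
  have hL : HasDerivAt (fun r : ℝ => 2 * G (y + r • u) (chrL G (y + r • u) v w) z)
      (2 * (fderiv ℝ G y u (chrL G y v w) z + G y (fderiv ℝ (chrL G) y u v w) z)) 0 := by
    simpa using ((hG.clm_apply hC2).clm_apply (hasDerivAt_const (0 : ℝ) z)).const_mul 2
  have hR := ((hT v w z).add (hT w v z)).sub (hT z v w)
  refine hL.unique (hR.congr_of_eventuallyEq ?_)
  filter_upwards [hU] with r hr using kos h hr v w z

lemma lin (h : CM G U) (hs : c s ∈ U) (hl : linL G c j s = 0) :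
    deriv (deriv j) s = - (fderiv ℝ (chrL G) (c s) (j s) (deriv c s) (deriv c s) +
      (2 : ℝ) • chrL G (c s) (deriv c s) (deriv j s)) := by
  rw [linL, ← h.chrL_apply hs, add_assoc] at hl
  exact eq_neg_of_add_eq_zero_left hl

end Calc2

open Calc2

theorem CM.differentiableAt_cov (h : CM G U) (hs : c s ∈ U) (hc : ContDiffAt ℝ 2 c s)
    (hj : ContDiffAt ℝ 2 j s) : DifferentiableAt ℝ (cov G c j) s :=
  (hd_cov h hs hc hj).differentiableAt

/-- The Jacobi equation is the linearised geodesic equation. -/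
theorem CM.jacL_eq (h : CM G U) (hs : c s ∈ U) (hc : ContDiffAt ℝ 2 c s)
    (hj : ContDiffAt ℝ 2 j s) (hg : cov G c (deriv c) s = 0) : jacL G c j s = linL G c j s := by
  rw [jacL, linL, cov_eq h hs, (hd_cov h hs hc hj).deriv, cov_eq h hs, h.riem_eq hs, geo h hs hg,
    ← h.chrL_apply hs, h.fderiv_chrL_symm hs (deriv c s) (j s) (deriv c s),
    chrL_symm h hs (j s) (deriv c s), chrL_symm h hs (j s)]
  simp only [map_add, map_neg, neg_apply, two_smul]
  abel

namespace Calc2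

lemma lin' (h : CM G U) (hj : GJ G U c j s) :
    deriv (deriv j) s = - (fderiv ℝ (chrL G) (c s) (j s) (deriv c s) (deriv c s) +
      (2 : ℝ) • chrL G (c s) (deriv c s) (deriv j s)) :=
  lin h hj.1 ((h.jacL_eq hj.1 hj.2.1 hj.2.2.1 hj.2.2.2.1).symm.trans hj.2.2.2.2)

/-- The linear vector field of the first order system. -/
noncomputable def fld (G : E → E →L[ℝ] E →L[ℝ] ℝ) (c : ℝ → E) (r : ℝ) : E × E →L[ℝ] E × E :=
  (ContinuousLinearMap.snd ℝ E E).prod
    (- ((((fderiv ℝ (chrL G) (c r)).flip (deriv c r)).flip (deriv c r)).comp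
      (ContinuousLinearMap.fst ℝ E E) +
      (2 : ℝ) • (chrL G (c r) (deriv c r)).comp (ContinuousLinearMap.snd ℝ E E)))

omit [FiniteDimensional ℝ E] in
lemma fld_apply (r : ℝ) (x : E × E) : fld G c r x =
    (x.2, - (fderiv ℝ (chrL G) (c r) x.1 (deriv c r) (deriv c r) +
      (2 : ℝ) • chrL G (c r) (deriv c r) x.2)) := by
  simp [fld]

lemma fld_cont (h : CM G U) (hs : c s ∈ U) (hc : ContDiffAt ℝ 2 c s) :
    ContinuousAt (fld G c) s := by
  rw [continuousAt_clm_apply]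
  intro x
  simp only [fld_apply]
  have h1 : ContinuousAt (fun r => fderiv ℝ (chrL G) (c r)) s :=
    ContinuousAt.comp (f := c) (cDC h hs).continuousAt hc.continuousAt
  have h2 : ContinuousAt (fun r => chrL G (c r)) s :=
    ContinuousAt.comp (f := c) (cC h hs).continuousAt hc.continuousAt
  have h3 : ContinuousAt (deriv c) s := (cd1 hc).continuousAt
  exact continuousAt_const.prodMk
    ((((h1.clm_apply continuousAt_const).clm_apply h3).clm_apply h3).add
      (((h2.clm_apply h3).clm_apply continuousAt_const).const_smul (2 : ℝ))).neg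

end Calc2

/-- Local uniqueness for Jacobi fields. -/
theorem CM.jacobi_zero (h : CM G U) (hj : ∀ᶠ r in 𝓝 s, GJ G U c j r) (h0 : j s = 0)
    (h1 : deriv j s = 0) : ∀ᶠ r in 𝓝 s, j r = 0 := by
  have hs := hj.self_of_nhds
  have hA := fld_cont h hs.1 hs.2.1
  have hK : ∀ᶠ r in 𝓝 s, LipschitzOnWith (‖fld G c s‖₊ + 1) (fld G c r) univ := by
    have : ∀ᶠ r in 𝓝 s, ‖fld G c r‖₊ < ‖fld G c s‖₊ + 1 :=
      hA.nnnorm.eventually (gt_mem_nhds (lt_add_one _))
    filter_upwards [this] with r hr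
    exact ((fld G c r).lipschitz.weaken hr.le).lipschitzOnWith
  have hf : ∀ᶠ r in 𝓝 s, HasDerivAt (fun r => (j r, deriv j r)) (fld G c r (j r, deriv j r)) r ∧
      (j r, deriv j r) ∈ (univ : Set (E × E)) := by
    filter_upwards [hj] with r hr
    refine ⟨?_, mem_univ _⟩
    rw [fld_apply, ← lin' h hr]
    exact (d1 hr.2.2.1).prodMk (d2 hr.2.2.1)
  have hg : ∀ᶠ r in 𝓝 s, HasDerivAt (fun _ : ℝ => (0 : E × E)) (fld G c r 0) r ∧
      (0 : E × E) ∈ (univ : Set (E × E)) := by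
    refine Eventually.of_forall fun r => ⟨?_, mem_univ _⟩
    rw [map_zero]
    exact hasDerivAt_const _ _
  have := ODE_solution_unique_of_eventually (v := fun r => fld G c r) (s := fun _ => univ)
    hK hf hg (by simp [h0, h1])
  filter_upwards [this] with r hr using congrArg Prod.fst hr

/-- Euler-Lagrange form of the geodesic equation. -/
theorem CM.el (h : CM G U) (hs : c s ∈ U) (hc : ContDiffAt ℝ 2 c s)
    (hg : cov G c (deriv c) s = 0) (z : E) :
    HasDerivAt (fun r => G (c r) (deriv c r) z)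
      (fderiv ℝ G (c s) z (deriv c s) (deriv c s) / 2) s := by
  have h1 : HasDerivAt (fun r => G (c r)) (fderiv ℝ G (c s) (deriv c s)) s :=
    (dG h hs).comp_hasDerivAt s (d1 hc)
  refine ((h1.clm_apply (d2 hc)).clm_apply (hasDerivAt_const s z)).congr_deriv ?_
  have k := kos h hs (deriv c s) (deriv c s) z
  simp only [geo h hs hg, map_neg, map_zero, add_apply,
    neg_apply]
  linarith

/-- Linearised Euler-Lagrange form of the Jacobi equation. -/
theorem CM.lel (h : CM G U) (hj : GJ G U c j s) (z : E) :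
    HasDerivAt (fun r => G (c r) (deriv j r) z + fderiv ℝ G (c r) (j r) (deriv c r) z)
      (fderiv ℝ (fderiv ℝ G) (c s) (j s) z (deriv c s) (deriv c s) / 2 +
        fderiv ℝ G (c s) z (deriv c s) (deriv j s)) s := by
  have hl := lin' h hj
  obtain ⟨hs, hc, hj2, hg, -⟩ := hj
  have h1 : HasDerivAt (fun r => G (c r)) (fderiv ℝ G (c s) (deriv c s)) s :=
    (dG h hs).comp_hasDerivAt s (d1 hc)
  have h2 : HasDerivAt (fun r => fderiv ℝ G (c r)) (fderiv ℝ (fderiv ℝ G) (c s) (deriv c s)) s :=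
    (dDG h hs).comp_hasDerivAt s (d1 hc)
  refine (((h1.clm_apply (d2 hj2)).clm_apply (hasDerivAt_const s z)).add
    (((h2.clm_apply (d1 hj2)).clm_apply (d2 hc)).clm_apply (hasDerivAt_const s z))).congr_deriv ?_
  have k := kos h hs (deriv c s) (deriv j s) z
  have k2 := dkos h hs (j s) (deriv c s) (deriv c s) z
  simp only [geo h hs hg, hl, map_neg, map_zero, map_add, map_smul, add_apply,
    neg_apply, smul_apply, smul_eq_mul,
    d2G_symm h hs (deriv c s) (j s)]
  linarith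

namespace Calc2

lemma aff1 (h : CM G U) (hs : c s ∈ U) (hc : ContDiffAt ℝ 2 c s) (hj : ContDiffAt ℝ 2 j s)
    (hg : cov G c (deriv c) s = 0) :
    HasDerivAt (fun r => G (c r) (j r) (deriv c r))
      (G (c s) (deriv j s) (deriv c s) + fderiv ℝ G (c s) (j s) (deriv c s) (deriv c s) / 2) s := by
  have h1 : HasDerivAt (fun r => G (c r)) (fderiv ℝ G (c s) (deriv c s)) s :=
    (dG h hs).comp_hasDerivAt s (d1 hc)
  refine ((h1.clm_apply (d1 hj)).clm_apply (d2 hc)).congr_deriv ?_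
  have k := kos h hs (deriv c s) (deriv c s) (j s)
  have e1 := h.symm _ hs (j s) (chrL G (c s) (deriv c s) (deriv c s))
  have e2 := h.fderiv_symm hs (deriv c s) (j s) (deriv c s)
  simp only [geo h hs hg, map_neg, add_apply]
  linarith

lemma aff2 (h : CM G U) (hj : GJ G U c j s) :
    HasDerivAt (fun r => G (c r) (deriv j r) (deriv c r) +
      fderiv ℝ G (c r) (j r) (deriv c r) (deriv c r) / 2) 0 s := by
  have hl := lin' h hj
  obtain ⟨hs, hc, hj2, hg, -⟩ := hj
  have h1 : HasDerivAt (fun r => G (c r)) (fderiv ℝ G (c s) (deriv c s)) s :=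
    (dG h hs).comp_hasDerivAt s (d1 hc)
  have h2 : HasDerivAt (fun r => fderiv ℝ G (c r)) (fderiv ℝ (fderiv ℝ G) (c s) (deriv c s)) s :=
    (dDG h hs).comp_hasDerivAt s (d1 hc)
  refine (((h1.clm_apply (d2 hj2)).clm_apply (d2 hc)).add
    ((((h2.clm_apply (d1 hj2)).clm_apply (d2 hc)).clm_apply (d2 hc)).div_const 2)).congr_deriv ?_
  have k := kos h hs (deriv c s) (deriv j s) (deriv c s)
  have k1 := kos h hs (deriv c s) (deriv c s) (deriv j s)
  have k2 := dkos h hs (j s) (deriv c s) (deriv c s) (deriv c s)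
  have e1 := h.symm _ hs (deriv j s) (chrL G (c s) (deriv c s) (deriv c s))
  have e2 := h.fderiv_symm hs (deriv c s) (deriv j s) (deriv c s)
  have e3 := h.fderiv_symm hs (j s) (deriv c s) (chrL G (c s) (deriv c s) (deriv c s))
  simp only [geo h hs hg, hl, map_neg, map_add, map_smul, add_apply,
    neg_apply, smul_apply, smul_eq_mul,
    d2G_symm h hs (deriv c s) (j s)]
  linarith

end Calc2

/-- `⟨J, γ'⟩` is an affine function of time. -/
theorem CM.affine (h : CM G U) (hj : ∀ᶠ r in 𝓝 s, GJ G U c j r) :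
    DifferentiableAt ℝ (fun r => G (c r) (j r) (deriv c r)) s ∧
    HasDerivAt (deriv fun r => G (c r) (j r) (deriv c r)) 0 s := by
  have hs := hj.self_of_nhds
  refine ⟨(aff1 h hs.1 hs.2.1 hs.2.2.1 hs.2.2.2.1).differentiableAt, ?_⟩
  refine (aff2 h hs).congr_of_eventuallyEq ?_
  filter_upwards [hj] with r hr using (aff1 h hr.1 hr.2.1 hr.2.2.1 hr.2.2.2.1).deriv

/-- For a locally constant metric, ` (|J|²)'' = 2 |J'|²`. -/
theorem CM.flat (h : CM G U) {G₀ : E →L[ℝ] E →L[ℝ] ℝ} (hG : ∀ y ∈ U, G y = G₀)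
    (hj : ∀ᶠ r in 𝓝 s, GJ G U c j r) :
    HasDerivAt (fun r => deriv (fun x => G (c x) (j x) (j x)) r / 2)
      (G₀ (deriv j s) (deriv j s)) s := by
  have hs := hj.self_of_nhds
  have hD : ∀ y ∈ U, fderiv ℝ G y = 0 := fun y hy => by
    have : G =ᶠ[𝓝 y] fun _ => G₀ := by
      filter_upwards [h.isOpen.mem_nhds hy] with x hx using hG x hx
    rw [this.fderiv_eq, fderiv_fun_const, Pi.zero_apply]
  have hC : ∀ y ∈ U, chrL G y = 0 := fun y hy => by
    ext v w
    have : kosz (fderiv ℝ G y) v w = 0 := by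
      ext z
      simp [kosz_apply, hD y hy]
    rw [chrL_eq, this]
    simp
  have hDC : fderiv ℝ (chrL G) (c s) = 0 := by
    have : chrL G =ᶠ[𝓝 (c s)] fun _ => 0 := by
      filter_upwards [h.isOpen.mem_nhds hs.1] with x hx using hC x hx
    rw [this.fderiv_eq, fderiv_fun_const, Pi.zero_apply]
  have h2 : deriv (deriv j) s = 0 := by
    rw [lin' h hs, hDC, hC _ hs.1]
    simp
  have hev : (fun r => deriv (fun x => G (c x) (j x) (j x)) r / 2) =ᶠ[𝓝 s]
      fun r => (G₀ (deriv j r) (j r) + G₀ (j r) (deriv j r)) / 2 := by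
    filter_upwards [hj] with r hr
    have e : (fun x => G (c x) (j x) (j x)) =ᶠ[𝓝 r] fun x => G₀ (j x) (j x) := by
      filter_upwards [evU h hr.1 hr.2.1] with x hx
      rw [hG _ hx]
    have d := ((hasDerivAt_const r G₀).clm_apply (d1 hr.2.2.1)).clm_apply (d1 hr.2.2.1)
    rw [e.deriv_eq, d.deriv]
    simp
  have a1 := ((hasDerivAt_const s G₀).clm_apply (d2 hs.2.2.1)).clm_apply (d1 hs.2.2.1)
  have a2 := ((hasDerivAt_const s G₀).clm_apply (d1 hs.2.2.1)).clm_apply (d2 hs.2.2.1)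
  refine (((a1.add a2).div_const 2).congr_of_eventuallyEq hev).congr_deriv ?_
  simp [h2]

end Vale.Agent.P255
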