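import Mathlib

open scoped Manifold ContDiff Topology
open Set Filter

set_option maxSynthPendingDepth 3

namespace Vale.Agent.P255

theorem cat_lin {a b : ℝ} (h : ∀ n : ℤ, n * a ≤ b) : a = 0 := by
  by_contra ha
  obtain ⟨n, hn⟩ := exists_int_gt (b / |a|)
  rw [div_lt_iff₀ (abs_pos.2 ha)] at hn
  rcases abs_choice a with e | e <;> rw [e] at hn
  · linarith [h n]
  · have := h (-n)
    push_cast at this
    linarith

theorem cat_key {X Γ : Type} [Group Γ] [MulAction Γ X] (d : X → X → ℝ)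
    (d0 : ∀ x y, 0 ≤ d x y) (dself : ∀ x, d x x = 0) (dsymm : ∀ x y, d x y = d y x)
    (dtri : ∀ x y z, d x z ≤ d x y + d y z) (iso : ∀ (f : Γ) x y, d (f • x) (f • y) = d x y)
    (cn : ∀ y z, ∃ m, ∀ x, d x m ^ 2 ≤ d x y ^ 2 / 2 + d x z ^ 2 / 2 - d y z ^ 2 / 4)
    (f : Γ) (x : X) (hx : ∀ y, d x (f • x) ≤ d y (f • y)) :
    ∃ φ : Γ → ℝ, (∀ g h, Commute f g → Commute f h → φ (g * h) = φ g + φ h) ∧
      φ f = d x (f • x) ^ 2 ∧ ∀ g, Commute f g → ∀ n : ℤ,
        d x ((f ^ n * g) • x) ^ 2 = d x (g • x) ^ 2 + 2 * n * φ g + n ^ 2 * d x (f • x) ^ 2 := by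
  have sq : ∀ p q r, d p r ^ 2 ≤ 2 * d p q ^ 2 + 2 * d q r ^ 2 := fun p q r => by
    nlinarith [d0 p r, d0 p q, d0 q r, dtri p q r, sq_nonneg (d p q - d q r)]
  have quad : ∀ p q r s, d p r ^ 2 + d q s ^ 2 ≤ d p q ^ 2 + d p s ^ 2 + d r q ^ 2 + d r s ^ 2 :=
    fun p q r s => by
      obtain ⟨m, hm⟩ := cn q s
      have := sq p m r
      rw [dsymm m r] at this
      linarith [hm p, hm r]
  have two : 4 * d x (f • x) ^ 2 ≤ d x (f • f • x) ^ 2 := by
    obtain ⟨m, hm⟩ := cn x (f • x)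
    have h1 := hm (f • x)
    have h2 := hm (f • f • x)
    have h3 := hm (f⁻¹ • m)
    have h4 := pow_le_pow_left₀ (d0 _ _) (hx m) 2
    rw [← iso f (f⁻¹ • m), ← iso f (f⁻¹ • m), ← iso f (f⁻¹ • m), smul_inv_smul,
      dsymm m (f • x), dsymm m (f • f • x)] at h3
    rw [dself, dsymm (f • x) x] at h1
    rw [dsymm _ x, iso, dsymm (f • x) x] at h2
    linarith
  have mid : ∀ w, 2 * d w (f • x) ^ 2 + 2 * d x (f • x) ^ 2 ≤ d w x ^ 2 + d w (f • f • x) ^ 2 :=
    fun w => by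
      obtain ⟨m, hm⟩ := cn x (f • f • x)
      have h1 := hm (f • x)
      rw [iso, dsymm (f • x) x] at h1
      have h2 : d (f • x) m = 0 := by nlinarith [d0 (f • x) m]
      have h3 := dtri w m (f • x)
      rw [dsymm m, h2, add_zero] at h3
      linarith [hm w, pow_le_pow_left₀ (d0 _ _) h3 2]
  have sec : ∀ g, Commute f g → d x ((f * (f * g)) • x) ^ 2 + d x (g • x) ^ 2 =
      2 * d x ((f * g) • x) ^ 2 + 2 * d x (f • x) ^ 2 := fun g hg => by
    have e : ∀ y : X, g • f • y = f • g • y := fun y => by rw [← mul_smul, ← hg.eq, mul_smul]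
    have h1 := mid (g⁻¹ • x)
    rw [← iso g (g⁻¹ • x), ← iso g (g⁻¹ • x), ← iso g (g⁻¹ • x), smul_inv_smul, e, e, e] at h1
    have h2 := quad x (f • x) (f • f • g • x) (f • g • x)
    rw [iso, iso, iso, dsymm (f • g • x) x, ← e, iso, dsymm (f • x) x, e] at h2
    simp only [mul_smul]
    linarith
  have form : ∀ g, Commute f g → ∀ n : ℤ, d x ((f ^ n * g) • x) ^ 2 = d x (g • x) ^ 2 +
      2 * n * ((d x ((f * g) • x) ^ 2 - d x (g • x) ^ 2 - d x (f • x) ^ 2) / 2) +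
      n ^ 2 * d x (f • x) ^ 2 := fun g hg => by
    have s : ∀ n : ℤ, d x ((f ^ (n + 1 + 1) * g) • x) ^ 2 + d x ((f ^ n * g) • x) ^ 2 =
        2 * d x ((f ^ (n + 1) * g) • x) ^ 2 + 2 * d x (f • x) ^ 2 := fun n => by
      have e : ∀ k : ℤ, f ^ (k + 1) * g = f * (f ^ k * g) := fun k => by
        rw [add_comm, zpow_one_add, mul_assoc]
      rw [e, e]
      exact sec _ (((Commute.refl f).zpow_right n).mul_right hg)
    have t : ∀ n : ℤ, d x ((f ^ (n + 1) * g) • x) ^ 2 - d x ((f ^ n * g) • x) ^ 2 =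
        d x ((f * g) • x) ^ 2 - d x (g • x) ^ 2 + 2 * n * d x (f • x) ^ 2 := fun n => by
      induction n using Int.induction_on with
      | zero => simp
      | succ n ih => push_cast at ih ⊢; linarith [s n]
      | pred n ih =>
        have := s (-n - 1)
        rw [sub_add_cancel] at this ⊢
        push_cast at ih ⊢
        linarith
    intro n
    induction n using Int.induction_on with
    | zero => simp
    | succ n ih => have := t n; push_cast at ih this ⊢; linarith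
    | pred n ih =>
      have := t (-n - 1)
      rw [sub_add_cancel] at this
      push_cast at ih this ⊢
      linarith
  refine ⟨fun g => (d x ((f * g) • x) ^ 2 - d x (g • x) ^ 2 - d x (f • x) ^ 2) / 2,
    fun g h hg hh => ?_, ?_, form⟩
  · rw [← sub_eq_zero]
    refine cat_lin (b := d x (g • x) ^ 2 + d x (h • x) ^ 2) fun n => ?_
    have h1 := sq x ((f ^ n * g) • x) ((f ^ n * g) • (f ^ n * h) • x)
    have e : f ^ n * g * (f ^ n * h) = f ^ (n + n) * (g * h) := by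
      rw [zpow_add, mul_assoc, mul_assoc, ← mul_assoc g, ← (hg.zpow_left n).eq, mul_assoc]
    rw [iso, ← mul_smul, e, form _ (hg.mul_right hh), form _ hg, form _ hh] at h1
    push_cast at h1
    nlinarith [sq_nonneg (d x ((g * h) • x)), sq_nonneg (d x (g • x)), sq_nonneg (d x (h • x))]
  · have := sec 1 (Commute.one_right f)
    simp only [mul_one, one_smul, dself] at this
    linarith

/-- The algebraic obstruction for free semisimple actions on spaces with the CN inequality. -/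
theorem cat_obstruct {X Γ : Type} [Group Γ] [MulAction Γ X] (d : X → X → ℝ)
    (d0 : ∀ x y, 0 ≤ d x y) (dself : ∀ x, d x x = 0) (dsymm : ∀ x y, d x y = d y x)
    (dtri : ∀ x y z, d x z ≤ d x y + d y z) (iso : ∀ (f : Γ) x y, d (f • x) (f • y) = d x y)
    (cn : ∀ y z, ∃ m, ∀ x, d x m ^ 2 ≤ d x y ^ 2 / 2 + d x z ^ 2 / 2 - d y z ^ 2 / 4)
    (hmin : ∀ f : Γ, ∃ x, ∀ y, d x (f • x) ≤ d y (f • y))
    (free : ∀ (f : Γ) x, d x (f • x) = 0 → f = 1)
    (u v a₁ b₁ a₂ b₂ : Γ) (h₁ : a₁ * v = v * a₁) (h₂ : b₁ * v = v * b₁)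
    (h₃ : a₁ * b₁ = b₁ * a₁ * u) (h₄ : a₂ * u = u * a₂) (h₅ : b₂ * u = u * b₂)
    (h₆ : a₂ * b₂ = b₂ * a₂ * (u⁻¹ * v)) : u = 1 := by
  obtain ⟨x, hx⟩ := hmin u
  obtain ⟨y, hy⟩ := hmin v
  obtain ⟨φ, φ1, φ2, φ3⟩ := cat_key d d0 dself dsymm dtri iso cn u x hx
  obtain ⟨ψ, ψ1, -, ψ3⟩ := cat_key d d0 dself dsymm dtri iso cn v y hy
  have c1 : Commute v a₁ := h₁.symm
  have c2 : Commute v b₁ := h₂.symm
  have c4 : Commute u a₂ := h₄.symm
  have c5 : Commute u b₂ := h₅.symm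
  have c : Commute v u := by
    rw [show u = (b₁ * a₁)⁻¹ * (a₁ * b₁) by rw [h₃, inv_mul_cancel_left]]
    exact (c2.mul_right c1).inv_right.mul_right (c1.mul_right c2)
  have c6 : Commute u (u⁻¹ * v) := (Commute.refl u).inv_right.mul_right c.symm
  have e1 : ψ u = 0 := by
    have := ψ1 _ _ (c2.mul_right c1) c
    rw [← h₃, ψ1 _ _ c1 c2, ψ1 _ _ c2 c1] at this
    linarith
  have e2 : φ v = d x (u • x) ^ 2 := by
    have := φ1 _ _ (c5.mul_right c4) c6
    rw [← h₆, φ1 _ _ c4 c5, φ1 _ _ c5 c4] at this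
    have h := φ1 _ _ (Commute.refl u) c6
    rw [mul_inv_cancel_left] at h
    linarith
  have pw : ∀ (χ : Γ → ℝ) (f g : Γ), (∀ g h, Commute f g → Commute f h → χ (g * h) = χ g + χ h) →
      Commute f g → ∀ k : ℕ, χ (g ^ k) = k * χ g ∧ χ (g ^ k)⁻¹ = -(k * χ g) := by
    intro χ f g h1 h2 k
    have z : χ 1 = 0 := by
      have := h1 1 1 (Commute.one_right f) (Commute.one_right f)
      rw [mul_one] at this
      linarith
    have : χ (g ^ k) = k * χ g := by
      induction k with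
      | zero => simpa using z
      | succ k ih => rw [pow_succ, h1 _ _ (h2.pow_right k) h2, ih]; push_cast; ring
    have h3 := h1 _ _ (h2.pow_right k) (h2.pow_right k).inv_right
    rw [mul_inv_cancel] at h3
    exact ⟨this, by linarith⟩
  have sub : ∀ (g : Γ) (k : ℕ), d x ((g ^ k) • x) ≤ k * d x (g • x) := fun g k => by
    induction k with
    | zero => simp [dself]
    | succ k ih =>
      have := dtri x ((g ^ k) • x) ((g ^ k) • g • x)
      rw [iso, ← mul_smul, ← pow_succ] at this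
      push_cast
      linarith
  have cmp : ∀ (g : Γ) p q, d p (g • p) ≤ d q (g • q) + 2 * d p q := fun g p q => by
    have h1 := dtri p q (g • p)
    have h2 := dtri q (g • q) (g • p)
    rw [iso, dsymm q p] at h2
    linarith
  have main : ∀ k : ℕ, (k : ℝ) ^ 2 * d x (u • x) ^ 2 ≤
      2 * d x y * (k * d x ((u * v⁻¹) • x)) + 4 * d x y ^ 2 := fun k => by
    have a1 := ψ3 _ (c.pow_right k) k
    have a2 := ψ3 _ (c.pow_right k) (-k)
    have b1 := φ3 _ (c.symm.pow_right k) k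
    have b2 := φ3 _ (c.symm.pow_right k).inv_right k
    have b3 : d x ((v ^ k)⁻¹ • x) = d x ((v ^ k) • x) := by
      rw [← iso (v ^ k), smul_inv_smul, dsymm]
    have b4 := sub (u * v⁻¹) k
    rw [(pw ψ v u ψ1 c k).1, e1] at a1 a2
    rw [(pw φ u v φ1 c.symm k).1, e2] at b1
    rw [(pw φ u v φ1 c.symm k).2, e2, b3] at b2
    rw [zpow_natCast, (c.pow_pow k k).eq] at a1
    rw [zpow_neg, zpow_natCast, (c.pow_pow k k).inv_left.eq] at a2
    rw [zpow_natCast] at b1 b2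
    rw [c.symm.inv_right.mul_pow, inv_pow] at b4
    have a3 : d y ((u ^ k * v ^ k) • y) = d y ((u ^ k * (v ^ k)⁻¹) • y) := by
      rw [← pow_left_inj₀ (d0 _ _) (d0 _ _) two_ne_zero, a1, a2]
      push_cast
      ring
    have i1 := cmp (u ^ k * v ^ k) x y
    have i2 := cmp (u ^ k * (v ^ k)⁻¹) y x
    rw [dsymm y x] at i2
    have i3 := pow_le_pow_left₀ (d0 _ _) (show d x ((u ^ k * v ^ k) • x) ≤
      d x ((u ^ k * (v ^ k)⁻¹) • x) + 4 * d x y by linarith) 2
    push_cast at b1 b2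
    nlinarith [mul_le_mul_of_nonneg_left b4 (d0 x y)]
  refine free u x ?_
  by_contra h0
  have hp : 0 < d x (u • x) ^ 2 := by positivity
  obtain ⟨k, hk⟩ := exists_nat_gt
    ((2 * d x y * d x ((u * v⁻¹) • x) + 4 * d x y ^ 2) / d x (u • x) ^ 2 + 1)
  have h1 : 0 ≤ (2 * d x y * d x ((u * v⁻¹) • x) + 4 * d x y ^ 2) / d x (u • x) ^ 2 := by
    have := d0 x y
    have := d0 x ((u * v⁻¹) • x)
    positivity
  have h2 : (1 : ℝ) ≤ k := by linarith
  have h3 := (div_lt_iff₀ hp).1 ((lt_add_one _).trans hk)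
  nlinarith [main k, mul_lt_mul_of_pos_left h3 (show (0 : ℝ) < k by linarith),
    mul_le_mul_of_nonneg_right h2 (sq_nonneg (d x y))]

end Vale.Agent.P255
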