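import Vale.Agent.P255.ModelA

open scoped Manifold ContDiff Topology
open Set Filter

set_option maxSynthPendingDepth 3

namespace Vale.Agent.P255

lemma conn_norm {x : ℝ} (hx : |x| ≤ 1 / 2) : ‖(x : UnitAddCircle)‖ = |x| := by
  rw [AddCircle.norm_coe_eq_abs_iff (p := 1) one_ne_zero]
  simpa using hx

/-- A point of the flat domain is joined, up to a lattice translation, to the circle of
radius `r`. -/
lemma conn_flat {R r : ℝ} (hR : 0 < R) (hRr : R < r) (hr : r ≤ 1 / 2) {y : E3} (hy : y ∈ UF R) :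
    ∃ S : Set E3, IsPreconnected S ∧ S ⊆ UF R ∧
      (∃ y' ∈ S, ∃ k l : ℤ, y 0 = y' 0 + k ∧ y 1 = y' 1 + l ∧ y 2 = y' 2) ∧
      ∃ θ : ℝ, (![r * Real.cos (2 * Real.pi * θ), r * Real.sin (2 * Real.pi * θ), y 2] : E3) ∈ S := by
  set a : ℝ := y 0 - round (y 0) with ha
  set b : ℝ := y 1 - round (y 1) with hb
  have ha2 : |a| ≤ 1 / 2 := abs_sub_round _
  have hb2 : |b| ≤ 1 / 2 := abs_sub_round _
  have hab : R ^ 2 < a ^ 2 + b ^ 2 := by
    have h1 : R ^ 2 < ‖(y 0 : UnitAddCircle)‖ ^ 2 + ‖(y 1 : UnitAddCircle)‖ ^ 2 := hy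
    rw [UnitAddCircle.norm_eq, UnitAddCircle.norm_eq, sq_abs, sq_abs] at h1
    exact h1
  set w : ℂ := ⟨a, b⟩ with hw
  set n : ℝ := ‖w‖ with hn
  set φ : ℝ := Complex.arg w with hφ
  have hn2 : n ^ 2 = a ^ 2 + b ^ 2 := by
    rw [hn, Complex.sq_norm, Complex.normSq_apply]
    simp [hw, sq]
  have hn0 : 0 ≤ n := norm_nonneg _
  have hRn : R < n := by
    have : R ^ 2 < n ^ 2 := by rw [hn2]; exact hab
    exact lt_of_pow_lt_pow_left₀ 2 hn0 this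
  have hca : n * Real.cos φ = a := Complex.norm_mul_cos_arg w
  have hsb : n * Real.sin φ = b := Complex.norm_mul_sin_arg w
  let f : ℝ → E3 := fun s => ![s * Real.cos φ, s * Real.sin φ, y 2]
  have hf : Continuous f := by
    refine continuous_pi fun i => ?_
    fin_cases i <;> simp [f] <;> fun_prop
  have key : ∀ s ∈ uIcc n r, ∀ c : ℝ, |c| ≤ 1 → |n * c| ≤ 1 / 2 → |s * c| ≤ 1 / 2 := by
    intro s hs c hc hnc
    have hr0 : 0 < r := hR.trans hRr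
    rw [abs_mul, abs_of_nonneg hn0] at hnc
    have hc0 : 0 ≤ |c| := abs_nonneg c
    rcases mem_uIcc.1 hs with h | h
    · rw [abs_mul, abs_of_nonneg (hn0.trans h.1)]
      nlinarith [h.2]
    · rw [abs_mul, abs_of_nonneg (hr0.le.trans h.1)]
      nlinarith [h.2]
  refine ⟨f '' uIcc n r, isPreconnected_uIcc.image f hf.continuousOn, ?_, ?_, ?_⟩
  · rintro _ ⟨s, hs, rfl⟩
    have hRs : R < s := by
      rcases mem_uIcc.1 hs with h | h
      · exact hRn.trans_le h.1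
      · exact hRr.trans_le h.1
    have h1 : |s * Real.cos φ| ≤ 1 / 2 := key s hs _ (Real.abs_cos_le_one φ) (by rw [hca]; exact ha2)
    have h2 : |s * Real.sin φ| ≤ 1 / 2 := key s hs _ (Real.abs_sin_le_one φ) (by rw [hsb]; exact hb2)
    change R ^ 2 < ‖((s * Real.cos φ : ℝ) : UnitAddCircle)‖ ^ 2 +
      ‖((s * Real.sin φ : ℝ) : UnitAddCircle)‖ ^ 2
    rw [conn_norm h1, conn_norm h2, sq_abs, sq_abs]
    have h3 : (s * Real.cos φ) ^ 2 + (s * Real.sin φ) ^ 2 = s ^ 2 := by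
      have := Real.cos_sq_add_sin_sq φ
      calc (s * Real.cos φ) ^ 2 + (s * Real.sin φ) ^ 2
          = s ^ 2 * (Real.cos φ ^ 2 + Real.sin φ ^ 2) := by ring
        _ = s ^ 2 := by rw [this, mul_one]
    rw [h3]
    exact pow_lt_pow_left₀ hRs hR.le two_ne_zero
  · refine ⟨f n, ⟨n, left_mem_uIcc, rfl⟩, round (y 0), round (y 1), ?_, ?_, ?_⟩
    · change y 0 = n * Real.cos φ + _
      rw [hca, ha]; ring
    · change y 1 = n * Real.sin φ + _
      rw [hsb, hb]; ring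
    · rfl
  · refine ⟨φ / (2 * Real.pi), r, right_mem_uIcc, ?_⟩
    have : 2 * Real.pi * (φ / (2 * Real.pi)) = φ := by
      have := Real.pi_pos
      field_simp
    rw [this]

lemma conn_radii {ρ : ℝ} (h : 0 < ρ + 2) :
    0 < (ρ + 2) / (4 * (ρ + 3)) ∧ (ρ + 2) / (4 * (ρ + 3)) < (ρ + 5 / 2) / (4 * (ρ + 3)) ∧
      (ρ + 5 / 2) / (4 * (ρ + 3)) ≤ 1 / 2 := by
  have h3 : 0 < 4 * (ρ + 3) := by linarith
  refine ⟨div_pos h h3, div_lt_div_of_pos_right (by linarith) h3, ?_⟩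
  rw [div_le_iff₀ h3]
  linarith

lemma conn_UN : IsPreconnected UN := by
  have : Convex ℝ UN :=
    (convex_Ioo (-3 : ℝ) 3).linear_preimage (LinearMap.proj (R := ℝ) (φ := fun _ : Fin 3 => ℝ) 0)
  exact this.isPreconnected

/-- Each flat point is joined to the neck. -/
lemma ND.Prof.conn_join {d : ND} (h : d.Prof) (b : Bool) {y : E3} (hy : y ∈ d.U (some b)) :
    ∃ S : Set E3, IsPreconnected S ∧ S ⊆ d.U (some b) ∧ d.Ψ (some b) y ∈ d.Ψ (some b) '' S ∧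
      ∃ x ∈ UN, d.Ψ none x ∈ d.Ψ (some b) '' S := by
  cases b with
  | false =>
    obtain ⟨h1, h2, h3⟩ := conn_radii h.hρ₁
    obtain ⟨S, hS, hSU, ⟨y', hy', k, l, hk, hl, hz⟩, θ, hθ⟩ := conn_flat h1 h2 h3 hy
    refine ⟨S, hS, hSU, ⟨y', hy', (ND.psi_flat d false y' y).2 ⟨k, l, 0, hk, hl, by simpa using hz⟩⟩,
      ![-5 / 2, θ, y 2], ?_, _, hθ, ?_⟩
    · change (-5 / 2 : ℝ) ∈ Ioo (-3 : ℝ) 3
      constructor <;> norm_num
    · rw [h.psi_left (x := ![-5 / 2, θ, y 2]) (by change (-5 / 2 : ℝ) ≤ -2; norm_num)]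
      have : d.ρ₁ - (-5 / 2) = d.ρ₁ + 5 / 2 := by ring
      simp only [Matrix.cons_val_zero, Matrix.cons_val_one, Matrix.cons_val, this]
  | true =>
    obtain ⟨h1, h2, h3⟩ := conn_radii h.hρ₂
    obtain ⟨S, hS, hSU, ⟨y', hy', k, l, hk, hl, hz⟩, θ, hθ⟩ := conn_flat h1 h2 h3 hy
    refine ⟨S, hS, hSU, ⟨y', hy', (ND.psi_flat d true y' y).2 ⟨k, l, 0, hk, hl, by simpa using hz⟩⟩,
      ![5 / 2, y 2 - θ, θ], ?_, _, hθ, ?_⟩
    · change (5 / 2 : ℝ) ∈ Ioo (-3 : ℝ) 3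
      constructor <;> norm_num
    · rw [h.psi_right (x := ![5 / 2, y 2 - θ, θ]) (by change (2 : ℝ) ≤ 5 / 2; norm_num)]
      simp only [Matrix.cons_val_zero, Matrix.cons_val_one, Matrix.cons_val, sub_add_cancel]

theorem ND.Prof.connected {d : ND} (h : d.Prof) : ConnectedSpace d.MM := by
  have h0 : (0 : E3) ∈ UN := by
    change (0 : ℝ) ∈ Ioo (-3 : ℝ) 3
    constructor <;> norm_num
  have hN : IsPreconnected (d.Ψ none '' UN) := conn_UN.image _ (d.continuous_psi none).continuousOn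
  have hT : IsConnected {z : ZH × ZH | ∃ i, ∃ x ∈ d.U i, d.Ψ i x = z} := by
    refine ⟨⟨_, none, 0, h0, rfl⟩, isPreconnected_of_forall (d.Ψ none 0) ?_⟩
    rintro _ ⟨i, y, hy, rfl⟩
    cases i with
    | none =>
      refine ⟨d.Ψ none '' UN, ?_, ⟨0, h0, rfl⟩, ⟨y, hy, rfl⟩, hN⟩
      rintro _ ⟨x, hx, rfl⟩
      exact ⟨none, x, hx, rfl⟩
    | some b =>
      obtain ⟨S, hS, hSU, hyS, x, hx, hxS⟩ := h.conn_join b hy
      refine ⟨d.Ψ none '' UN ∪ d.Ψ (some b) '' S, ?_, Or.inl ⟨0, h0, rfl⟩, Or.inr hyS,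
        IsPreconnected.union (d.Ψ none x) ⟨x, hx, rfl⟩ hxS hN
          (hS.image _ (d.continuous_psi _).continuousOn)⟩
      rintro _ (⟨x, hx, rfl⟩ | ⟨x, hx, rfl⟩)
      · exact ⟨none, x, hx, rfl⟩
      · exact ⟨some b, x, hSU hx, rfl⟩
  exact isConnected_iff_connectedSpace.1 hT

end Vale.Agent.P255
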