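import Vale.Agent.P255.Base

open scoped Manifold ContDiff Topology
open Set Filter

set_option maxSynthPendingDepth 3

namespace Vale.Agent.P255

variable {X M : Type} [TopologicalSpace X] [TopologicalSpace M] {p : X → M}

/-- Deck transformations agreeing at one point agree. -/
theorem deck_ext [PreconnectedSpace X] (hp : IsCoveringMap p) {φ ψ : X ≃ₜ X} (hφ : p ∘ φ = p)
    (hψ : p ∘ ψ = p) {x : X} (h : φ x = ψ x) : φ = ψ :=
  DFunLike.coe_injective (hp.eq_of_comp_eq φ.continuous ψ.continuous (hφ.trans hψ.symm) x h)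

/-- The deck group of a universal covering is transitive on fibres. -/
theorem deck_trans [SimplyConnectedSpace X] [LocallyPathConnectedSpace X] (hp : IsCoveringMap p)
    {a b : X} (h : p a = p b) : ∃ φ : X ≃ₜ X, p ∘ φ = p ∧ φ a = b := by
  obtain ⟨f, ⟨f1, f2⟩, -⟩ := hp.existsUnique_continuousMap_lifts ⟨p, hp.continuous⟩ a b h.symm
  obtain ⟨g, ⟨g1, g2⟩, -⟩ := hp.existsUnique_continuousMap_lifts ⟨p, hp.continuous⟩ b a h
  have f3 : p ∘ f = p := f2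
  have g3 : p ∘ g = p := g2
  have e1 : g ∘ f = id := hp.eq_of_comp_eq (by fun_prop) continuous_id
    (by rw [← Function.comp_assoc, g3, f3]; rfl) a (by simp [f1, g1])
  have e2 : f ∘ g = id := hp.eq_of_comp_eq (by fun_prop) continuous_id
    (by rw [← Function.comp_assoc, f3, g3]; rfl) b (by simp [f1, g1])
  exact ⟨⟨⟨f, g, congrFun e1, congrFun e2⟩, f.continuous, g.continuous⟩, f3, f1⟩

/-- Two lifts of one map on a preconnected set differ by a deck transformation. -/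
theorem deck_of_lifts [SimplyConnectedSpace X] [LocallyPathConnectedSpace X]
    (hp : IsCoveringMap p) {A : Type} [TopologicalSpace A] {S : Set A} (hS : IsPreconnected S)
    {f f' : A → X} (hf : ContinuousOn f S) (hf' : ContinuousOn f' S)
    (h : ∀ a ∈ S, p (f a) = p (f' a)) : ∃ φ : X ≃ₜ X, p ∘ φ = p ∧ ∀ a ∈ S, φ (f a) = f' a := by
  rcases S.eq_empty_or_nonempty with rfl | ⟨a, ha⟩
  · exact ⟨1, rfl, by simp⟩
  obtain ⟨φ, h1, h2⟩ := deck_trans hp (h a ha)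
  exact ⟨φ, h1, hp.eqOn_of_comp_eqOn (g₁ := φ ∘ f) hS (φ.continuous.comp_continuousOn hf) hf'
    (fun b hb => (congrFun h1 (f b)).trans (h b hb)) ha h2⟩

/-- The relation of a once-punctured torus times a circle. -/
theorem half [SimplyConnectedSpace X] [LocallyPathConnectedSpace X] (hp : IsCoveringMap p)
    (H : ℝ × ℝ → X) (hH : Continuous H) (u v : X ≃ₜ X) (hu : p ∘ u = p) (hv : p ∘ v = p)
    (hHu : ∀ θ z, H (θ + 1, z) = u (H (θ, z))) (hHv : ∀ θ z, H (θ, z + 1) = v (H (θ, z)))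
    (F : ℝ × ℝ × ℝ → M) (hF : Continuous F) (h0 : ∀ θ z, F (θ, 0, z) = p (H (θ, z)))
    (hθ : ∀ θ l z, F (θ + 1, l, z) = F (θ, l, z)) (hz : ∀ θ l z, F (θ, l, z + 1) = F (θ, l, z))
    (ha : ∀ φ ∈ Icc (-1 / 8 : ℝ) (1 / 8), ∀ z, F (φ, 1, z) = F (1 / 2 - φ, 1, z))
    (hb : ∀ φ ∈ Icc (-1 / 8 : ℝ) (1 / 8), ∀ z, F (1 / 4 - φ, 1, z) = F (-1 / 4 + φ, 1, z)) :
    ∃ a b : X ≃ₜ X, p ∘ a = p ∧ p ∘ b = p ∧ a * v = v * a ∧ b * v = v * b ∧
      a * b = b * a * u := by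
  obtain ⟨G, ⟨G1, G2⟩, -⟩ := hp.existsUnique_continuousMap_lifts ⟨F, hF⟩ (0, 0, 0) (H (0, 0))
    (h0 0 0).symm
  have G3 : ∀ w, p (G w) = F w := congrFun G2
  have g0 : ∀ θ z, G (θ, 0, z) = H (θ, z) := fun θ z =>
    congrFun (hp.eq_of_comp_eq (g₁ := fun w : ℝ × ℝ => G (w.1, 0, w.2)) (by fun_prop) hH
      (funext fun w => (G3 _).trans (h0 _ _)) (0, 0) G1) (θ, z)
  have gu : ∀ θ l z, G (θ + 1, l, z) = u (G (θ, l, z)) := fun θ l z =>
    congrFun (hp.eq_of_comp_eq (g₁ := fun w : ℝ × ℝ × ℝ => G (w.1 + 1, w.2))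
      (g₂ := fun w => u (G w)) (by fun_prop) (by fun_prop)
      (funext fun w => (G3 _).trans ((hθ _ _ _).trans ((G3 _).symm.trans (congrFun hu _).symm)))
      (0, 0, 0) (by simp only [g0, hHu])) (θ, l, z)
  have gv : ∀ θ l z, G (θ, l, z + 1) = v (G (θ, l, z)) := fun θ l z =>
    congrFun (hp.eq_of_comp_eq (g₁ := fun w : ℝ × ℝ × ℝ => G (w.1, w.2.1, w.2.2 + 1))
      (g₂ := fun w => v (G w)) (by fun_prop) (by fun_prop)
      (funext fun w => (G3 _).trans ((hz _ _ _).trans ((G3 _).symm.trans (congrFun hv _).symm)))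
      (0, 0, 0) (by simp only [g0, hHv])) (θ, l, z)
  have hS : IsPreconnected (Icc (-1 / 8 : ℝ) (1 / 8) ×ˢ (univ : Set ℝ)) :=
    isPreconnected_Icc.prod isPreconnected_univ
  obtain ⟨a, a1, a2⟩ := deck_of_lifts hp hS (f := fun w => G (1 / 2 - w.1, 1, w.2))
    (f' := fun w => G (w.1, 1, w.2)) (by fun_prop) (by fun_prop)
    fun w hw => by rw [G3, G3, ha _ hw.1]
  obtain ⟨b, b1, b2⟩ := deck_of_lifts hp hS (f := fun w => G (-1 / 4 + w.1, 1, w.2))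
    (f' := fun w => G (1 / 4 - w.1, 1, w.2)) (by fun_prop) (by fun_prop)
    fun w hw => by rw [G3, G3, hb _ hw.1]
  have mul : ∀ {φ ψ : X ≃ₜ X}, p ∘ φ = p → p ∘ ψ = p → p ∘ ⇑(φ * ψ) = p := fun h1 h2 =>
    funext fun x => (congrFun h1 _).trans (congrFun h2 x)
  have m0 : ∀ z : ℝ, ((0 : ℝ), z) ∈ Icc (-1 / 8 : ℝ) (1 / 8) ×ˢ (univ : Set ℝ) := fun z =>
    ⟨⟨by norm_num, by norm_num⟩, trivial⟩
  have m1 : ((1 / 8 : ℝ), (0 : ℝ)) ∈ Icc (-1 / 8 : ℝ) (1 / 8) ×ˢ (univ : Set ℝ) :=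
    ⟨⟨by norm_num, by norm_num⟩, trivial⟩
  have m2 : ((-1 / 8 : ℝ), (0 : ℝ)) ∈ Icc (-1 / 8 : ℝ) (1 / 8) ×ˢ (univ : Set ℝ) :=
    ⟨⟨by norm_num, by norm_num⟩, trivial⟩
  refine ⟨a, b, a1, b1, deck_ext hp (mul a1 hv) (mul hv a1) (x := G (1 / 2 - 0, 1, 0)) ?_,
    deck_ext hp (mul b1 hv) (mul hv b1) (x := G (-1 / 4 + 0, 1, 0)) ?_,
    deck_ext hp (mul a1 b1) (mul (mul b1 a1) hu) (x := G (-1 / 4 + -1 / 8, 1, 0)) ?_⟩
  · change a (v _) = v (a _)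
    rw [← gv, a2 _ (m0 _), a2 _ (m0 _), gv]
  · change b (v _) = v (b _)
    rw [← gv, b2 _ (m0 _), b2 _ (m0 _), gv]
  · change a (b _) = b (a (u _))
    have p1 := a2 _ m1
    have p2 := a2 _ m2
    have p3 := b2 _ m1
    have p4 := b2 _ m2
    rw [← gu, p4]
    norm_num at p1 p2 p3 ⊢
    rw [p1, p2, p3]

end Vale.Agent.P255
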