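import Mathlib

/-! Riemannian geometry in charts: Levi-Civita connection, curvature, geodesics, Jacobi fields. -/

open scoped Manifold ContDiff Topology

namespace Vale.Agent.P255

section Coord

variable {E : Type} [NormedAddCommGroup E] [NormedSpace ℝ E]

/-- The derivative at `y`, in the direction `c`, of the coefficient `G(a,b)`. -/
noncomputable def dg (G : E → E →L[ℝ] E →L[ℝ] ℝ) (y c a b : E) : ℝ :=
  fderiv ℝ (fun x => G x a b) y c

/-- Christoffel map `Γ_y(v,w)` of the coordinate metric `G`: the vector given by the Koszul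
formula `2 G_y(Γ(v,w), z) = ∂_v G(w,z) + ∂_w G(v,z) - ∂_z G(v,w)` for all `z`. -/
noncomputable def chr (G : E → E →L[ℝ] E →L[ℝ] ℝ) (y v w : E) : E :=
  Classical.epsilon fun a : E => ∀ z, 2 * G y a z = dg G y v w z + dg G y w v z - dg G y z v w

/-- The curvature tensor `R(u,v)w` at `y`. -/
noncomputable def riem (G : E → E →L[ℝ] E →L[ℝ] ℝ) (y u v w : E) : E :=
  fderiv ℝ (fun x => chr G x v w) y u - fderiv ℝ (fun x => chr G x u w) y v +
    chr G y u (chr G y v w) - chr G y v (chr G y u w)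

/-- Sectional curvature at `y` of the plane spanned by `u` and `v`. -/
noncomputable def sec (G : E → E →L[ℝ] E →L[ℝ] ℝ) (y u v : E) : ℝ :=
  G y (riem G y u v v) u / (G y u u * G y v v - G y u v ^ 2)

/-- Covariant derivative at time `s` of the vector field `j` along the curve `c`. -/
noncomputable def cov (G : E → E →L[ℝ] E →L[ℝ] ℝ) (c j : ℝ → E) (s : ℝ) : E :=
  deriv j s + chr G (c s) (deriv c s) (j s)

end Coord

section Mfd

variable {E : Type} [NormedAddCommGroup E] [NormedSpace ℝ E]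
  {M : Type} [TopologicalSpace M] [ChartedSpace E M]

/-- The coefficients of the metric `g` in the chart `e`. -/
noncomputable def gc (g : M → E →L[ℝ] E →L[ℝ] ℝ) (e : OpenPartialHomeomorph M E) (y : E) :
    E →L[ℝ] E →L[ℝ] ℝ :=
  (g (e.symm y)).bilinearComp (mfderiv 𝓘(ℝ, E) 𝓘(ℝ, E) e.symm y : E →L[ℝ] E)
    (mfderiv 𝓘(ℝ, E) 𝓘(ℝ, E) e.symm y : E →L[ℝ] E)

/-- The components in the chart `e` of the vector field `J` along `γ`. -/
noncomputable def fieldc (e : OpenPartialHomeomorph M E) (γ : ℝ → M)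
    (J : (s : ℝ) → TangentSpace 𝓘(ℝ, E) (γ s)) (s : ℝ) : E :=
  mfderiv 𝓘(ℝ, E) 𝓘(ℝ, E) e (γ s) (J s)

/-- `γ` is a geodesic on the time set `I`. -/
def IsGeodesicOn (g : M → E →L[ℝ] E →L[ℝ] ℝ) (γ : ℝ → M) (I : Set ℝ) : Prop :=
  ContinuousOn γ I ∧ ∀ e ∈ atlas E M, ∀ s ∈ I, γ s ∈ e.source →
    ContDiffAt ℝ 2 (e ∘ γ) s ∧ cov (gc g e) (e ∘ γ) (deriv (e ∘ γ)) s = 0

/-- `J` is a Jacobi field along `γ` on the time set `I`: `J'' + R(J,γ')γ' = 0`. -/
def IsJacobiOn (g : M → E →L[ℝ] E →L[ℝ] ℝ) (γ : ℝ → M)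
    (J : (s : ℝ) → TangentSpace 𝓘(ℝ, E) (γ s)) (I : Set ℝ) : Prop :=
  ∀ e ∈ atlas E M, ∀ s ∈ I, γ s ∈ e.source →
    ContDiffAt ℝ 2 (fieldc e γ J) s ∧
    cov (gc g e) (e ∘ γ) (cov (gc g e) (e ∘ γ) (fieldc e γ J)) s +
      riem (gc g e) (e (γ s)) (fieldc e γ J s) (deriv (e ∘ γ) s) (deriv (e ∘ γ) s) = 0

/-- No nonzero Jacobi field along a geodesic vanishes at two distinct times. -/
def NoConjugatePoints (g : M → E →L[ℝ] E →L[ℝ] ℝ) : Prop :=
  ∀ (a b : ℝ) (γ : ℝ → M) (J : (s : ℝ) → TangentSpace 𝓘(ℝ, E) (γ s)),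
    IsGeodesicOn g γ (Set.Ioo a b) → IsJacobiOn g γ J (Set.Ioo a b) →
    ∀ s₀ ∈ Set.Ioo a b, ∀ s₁ ∈ Set.Ioo a b, s₀ ≠ s₁ → J s₀ = 0 → J s₁ = 0 →
      ∀ s ∈ Set.Ioo a b, J s = 0

/-- All sectional curvatures are nonpositive. -/
def NonposCurv (g : M → E →L[ℝ] E →L[ℝ] ℝ) : Prop :=
  ∀ e ∈ atlas E M, ∀ y ∈ e.target, ∀ u v : E, LinearIndependent ℝ ![u, v] →
    sec (gc g e) y u v ≤ 0

variable (E M) in
/-- Smooth Riemannian metrics on `M`. -/
abbrev RMetric [IsManifold 𝓘(ℝ, E) ∞ M] : Type :=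
  Bundle.ContMDiffRiemannianMetric 𝓘(ℝ, E) ∞ E (fun x : M => TangentSpace 𝓘(ℝ, E) x)

variable (E M) in
/-- `M` admits a smooth Riemannian metric without conjugate points. -/
def AdmitsNoConj [IsManifold 𝓘(ℝ, E) ∞ M] : Prop :=
  ∃ g : RMetric E M, NoConjugatePoints (E := E) g.inner

variable (E M) in
/-- `M` admits a smooth Riemannian metric of nonpositive sectional curvature. -/
def AdmitsNonpos [IsManifold 𝓘(ℝ, E) ∞ M] : Prop :=
  ∃ g : RMetric E M, NonposCurv (E := E) g.inner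

end Mfd

end Vale.Agent.P255
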