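import Vale.Agent.P255.Key1

open scoped Manifold ContDiff Topology
open Set Filter

set_option maxSynthPendingDepth 3

namespace Vale.Agent.P255

variable {E : Type} [NormedAddCommGroup E] [NormedSpace ℝ E] [FiniteDimensional ℝ E]
  {M : Type} [TopologicalSpace M] [ChartedSpace E M] [IsManifold 𝓘(ℝ, E) ∞ M]
  {g : M → E →L[ℝ] E →L[ℝ] ℝ}
  {m : M} {Γ : E × ℝ → M}

omit [FiniteDimensional ℝ E] [IsManifold 𝓘(ℝ, E) ∞ M] in
theorem IsRM.nonneg_Key2 (h : IsRM g) (m : M) (v : E) : 0 ≤ g m v v := by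
  by_cases hv : v = 0
  · simp [hv]
  · exact (h.pos m v hv).le

omit [FiniteDimensional ℝ E] [IsManifold 𝓘(ℝ, E) ∞ M] in
/-- Cauchy-Schwarz. -/
theorem IsRM.cs_Key2 (h : IsRM g) (m : M) (v w : E) :
    g m v w ≤ √(g m v v) * √(g m w w) := by
  have h1 : ∀ t : ℝ, 0 ≤ g m w w * (t * t) + (2 * g m v w) * t + g m v v := by
    intro t
    have h2 := h.nonneg_Key2 m (v + t • w)
    have h3 := h.symm m w v
    simp only [map_add, map_smul, add_apply, smul_apply, smul_eq_mul] at h2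
    rw [h3] at h2
    linarith
  have h2 := discrim_le_zero h1
  rw [discrim] at h2
  rw [← Real.sqrt_mul (h.nonneg_Key2 m v)]
  exact Real.le_sqrt_of_sq_le (by nlinarith)

theorem le3_Key2 : (3 : WithTop ℕ∞) ≤ ∞ := WithTop.coe_le_coe.2 (le_top : (3 : ℕ∞) ≤ ⊤)

/-- The energy of a global geodesic in a chart. -/
theorem IsRM.energy_Key2 (h : IsRM g) {σ : ℝ → M} (hσ : IsGeodesicOn g σ univ)
    {e : OpenPartialHomeomorph M E} (he : e ∈ atlas E M) {s : ℝ} (hs : σ s ∈ e.source) :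
    gc g e (e (σ s)) (deriv (e ∘ σ) s) (deriv (e ∘ σ) s) =
      g (σ 0) (vel E σ 0) (vel E σ 0) := by
  have hc : ContinuousAt σ s := (hσ.1 s trivial).continuousAt univ_mem
  have h2 := (hσ.2 e he s trivial hs).1
  rw [← dC_vel he hs hc (h2.differentiableAt two_ne_zero), gc_dC g he hs]
  exact h.geo_energy isOpen_univ isPreconnected_univ hσ trivial trivial

/-- The lift of a geodesic in a chart. -/
theorem GeoFam.lift_Key2 (h : IsRM g) (hK : NPC g) (hΓ : GeoFam g m Γ) {σ : ℝ → M}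
    (hσ : IsGeodesicOn g σ univ) {ν : ℝ → E} (hν : Continuous ν) (hl : ∀ s, Γ (ν s, 1) = σ s)
    {e : OpenPartialHomeomorph M E} (he : e ∈ atlas E M) {s : ℝ} (hs : σ s ∈ e.source) :
    HasDerivAt ν (deriv ν s) s ∧ fderiv ℝ (e ∘ Γ) (ν s, 1) (deriv ν s, 0) = deriv (e ∘ σ) s ∧
      g m (deriv ν s) (deriv ν s) ≤ g (σ 0) (vel E σ 0) (vel E σ 0) := by
  have h2 := (hσ.2 e he s trivial hs).1
  obtain ⟨k1, k2, k3⟩ := hΓ.lift h hK he (ν := ν) (σ := e ∘ σ) (s := s) hν.continuousAt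
    (by rw [hl]; exact hs) (Eventually.of_forall fun r => by rw [hl]; rfl)
    (h2.of_le (by norm_num))
  refine ⟨(k1.differentiableAt one_ne_zero).hasDerivAt, k2, k3.trans_eq ?_⟩
  exact h.energy_Key2 hσ he hs

/-- Triangle inequality. -/
theorem GeoFam.tri (h : IsRM g) (hK : NPC g) (hΓ : GeoFam g m Γ) {σ : ℝ → M}
    (hσ : IsGeodesicOn g σ univ) {ν : ℝ → E} (hν : Continuous ν) (hl : ∀ s, Γ (ν s, 1) = σ s) :
    √(g m (ν 1) (ν 1)) ≤ √(g m (ν 0) (ν 0)) + √(g (σ 0) (vel E σ 0) (vel E σ 0)) := by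
  set W := g (σ 0) (vel E σ 0) (vel E σ 0) with hW
  have hd : ∀ s, HasDerivAt ν (deriv ν s) s ∧ g m (deriv ν s) (deriv ν s) ≤ W := fun s => by
    obtain ⟨k1, -, k3⟩ := hΓ.lift_Key2 h hK hσ hν hl (chart_mem_atlas E (σ s))
      (mem_chart_source E (σ s))
    exact ⟨k1, k3⟩
  set N := √(g m (ν 1) (ν 1)) with hN
  have hN0 : 0 ≤ N := Real.sqrt_nonneg _
  have hφ : ∀ s, HasDerivAt (fun r => g m (ν 1) (ν r)) (g m (ν 1) (deriv ν s)) s := fun s =>
    (g m (ν 1)).hasFDerivAt.comp_hasDerivAt s (hd s).1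
  have hb : ∀ s, deriv (fun r => g m (ν 1) (ν r)) s ≤ N * √W := fun s => by
    rw [(hφ s).deriv]
    exact (h.cs_Key2 m _ _).trans (mul_le_mul_of_nonneg_left (Real.sqrt_le_sqrt (hd s).2) hN0)
  have h1 := image_sub_le_mul_sub_of_deriv_le (fun s => (hφ s).differentiableAt) hb
    (zero_le_one (α := ℝ))
  have h2 : g m (ν 1) (ν 0) ≤ N * √(g m (ν 0) (ν 0)) := h.cs_Key2 m _ _
  have h3 : N * N = g m (ν 1) (ν 1) := Real.mul_self_sqrt (h.nonneg_Key2 m _)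
  have h4 : 0 ≤ √(g m (ν 0) (ν 0)) + √W := by positivity
  by_contra hlt
  rw [not_le] at hlt
  have h5 : 0 < N := h4.trans_lt hlt
  nlinarith

/-- The coordinate computation behind the second variation formula. -/
theorem CM.second_Key2 {G : E → E →L[ℝ] E →L[ℝ] ℝ} {U : Set E} (hcm : CM G U) {f : E × ℝ → E}
    {c ν : ℝ → E} {w : E} {s : ℝ} (hf : ContDiffAt ℝ 3 f (ν s, 1)) (hν : HasDerivAt ν w s)
    (hc : ContDiffAt ℝ 2 c s) (hg : cov G c (deriv c) s = 0) (h0 : f (ν s, 1) = c s)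
    (hU : c s ∈ U) (h1 : fderiv ℝ f (ν s, 1) (w, 0) = deriv c s) :
    ∃ D, HasDerivAt (fun r => G (c r) (fderiv ℝ f (ν r, 1) (0, 1)) (deriv c r)) D s ∧
      HasDerivAt (fun r : ℝ => G (f (ν s, r)) (fderiv ℝ f (ν s, r) (w, 0))
        (fderiv ℝ f (ν s, r) (w, 0))) (2 * D) 1 := by
  have hD : HasFDerivAt (fderiv ℝ f) (fderiv ℝ (fderiv ℝ f) (ν s, 1)) (ν s, 1) :=
    ((hf.fderiv_right (m := 1) (by norm_num)).differentiableAt one_ne_zero).hasFDerivAt
  have hsym : fderiv ℝ (fderiv ℝ f) (ν s, 1) (w, 0) (0, 1) =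
      fderiv ℝ (fderiv ℝ f) (ν s, 1) (0, 1) (w, 0) :=
    hf.isSymmSndFDerivAt (by simp; norm_num) _ _
  have p1 : HasDerivAt (fun r => ((ν r, 1) : E × ℝ)) (w, 0) s :=
    hν.prodMk (hasDerivAt_const s 1)
  have p2 : HasDerivAt (fun r : ℝ => ((ν s, r) : E × ℝ)) (0, 1) 1 :=
    (hasDerivAt_const 1 (ν s)).prodMk (hasDerivAt_id 1)
  have hA : HasDerivAt (fun r => fderiv ℝ f (ν r, 1) (0, 1))
      (fderiv ℝ (fderiv ℝ f) (ν s, 1) (0, 1) (w, 0)) s := by
    have h2 : HasDerivAt (fun r => fderiv ℝ f (ν r, 1)) (fderiv ℝ (fderiv ℝ f) (ν s, 1) (w, 0)) s :=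
      HasFDerivAt.comp_hasDerivAt (f := fun r => ((ν r, 1) : E × ℝ)) s hD p1
    refine (h2.clm_apply (hasDerivAt_const s ((0, 1) : E × ℝ))).congr_deriv ?_
    rw [map_zero, add_zero, hsym]
  have hH := hcm.hasDerivAt_inner (c := c) (s := s) hU (Calc2.d1 hc) hA (Calc2.d2 hc)
  have hcov : deriv (deriv c) s + chr G (c s) (deriv c s) (deriv c s) = 0 := hg
  refine ⟨_, hH, ?_⟩
  rw [hcov, map_zero, add_zero]
  have hγ : HasDerivAt (fun r : ℝ => f (ν s, r)) (fderiv ℝ f (ν s, 1) (0, 1)) 1 :=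
    HasFDerivAt.comp_hasDerivAt (f := fun r : ℝ => ((ν s, r) : E × ℝ)) 1
      (hf.differentiableAt (by norm_num)).hasFDerivAt p2
  have hj : HasDerivAt (fun r : ℝ => fderiv ℝ f (ν s, r) (w, 0))
      (fderiv ℝ (fderiv ℝ f) (ν s, 1) (0, 1) (w, 0)) 1 := by
    have h2 : HasDerivAt (fun r : ℝ => fderiv ℝ f (ν s, r))
        (fderiv ℝ (fderiv ℝ f) (ν s, 1) (0, 1)) 1 :=
      HasFDerivAt.comp_hasDerivAt (f := fun r : ℝ => ((ν s, r) : E × ℝ)) 1 hD p2
    refine (h2.clm_apply (hasDerivAt_const (1 : ℝ) ((w, 0) : E × ℝ))).congr_deriv ?_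
    rw [map_zero, add_zero]
  have hU' : f (ν s, 1) ∈ U := by rw [h0]; exact hU
  have hB := hcm.hasDerivAt_inner (c := fun r : ℝ => f (ν s, r)) (s := 1) hU' hγ hj hj
  refine hB.congr_deriv ?_
  simp only [h0, h1]
  rw [hcm.symm _ hU (deriv c s), hcm.chr_symm hU _ (deriv c s)]
  ring

/-- Second variation: the derivative of `g m ν ν'` is at least the energy. -/
theorem GeoFam.second_Key2 (h : IsRM g) (hK : NPC g) (hΓ : GeoFam g m Γ) {σ : ℝ → M}
    (hσ : IsGeodesicOn g σ univ) {ν : ℝ → E} (hν : Continuous ν) (hl : ∀ s, Γ (ν s, 1) = σ s)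
    (s : ℝ) : ∃ D, HasDerivAt (fun r => g m (ν r) (deriv ν r)) D s ∧
      g (σ 0) (vel E σ 0) (vel E σ 0) ≤ D := by
  obtain ⟨e, he, hs⟩ : ∃ e ∈ atlas E M, σ s ∈ e.source :=
    ⟨_, chart_mem_atlas E (σ s), mem_chart_source E (σ s)⟩
  have hσc : Continuous σ := continuousOn_univ.1 hσ.1
  have hΓc : Continuous Γ := hΓ.smooth.continuous
  have hf : ∀ a, Γ a ∈ e.source → ContDiffAt ℝ 3 (e ∘ Γ) a := fun a ha =>
    contDiffAt_chart_comp le3_Key2 he ha (hΓ.smooth a)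
  have hpb : ∀ a, Γ a ∈ e.source → ∀ u w, pb g Γ a u w =
      gc g e (e (Γ a)) (fderiv ℝ (e ∘ Γ) a u) (fderiv ℝ (e ∘ Γ) a w) := fun a ha u w =>
    pb_eq he ha hΓc.continuousAt ((hf a ha).differentiableAt (by norm_num)) u w
  have hs1 : Γ (ν s, 1) ∈ e.source := by rw [hl]; exact hs
  obtain ⟨k1, k2, -⟩ := hΓ.lift_Key2 h hK hσ hν hl he hs
  obtain ⟨c2, cg⟩ := hσ.2 e he s trivial hs
  obtain ⟨D, hH, hB⟩ := (h.cm he).second_Key2 (hf _ hs1) k1 c2 cg (congrArg e (hl s))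
    (e.map_source hs) k2
  have hev : (fun r => g m (ν r) (deriv ν r)) =ᶠ[𝓝 s] fun r =>
      gc g e ((e ∘ σ) r) (fderiv ℝ (e ∘ Γ) (ν r, 1) (0, 1)) (deriv (e ∘ σ) r) := by
    filter_upwards [hσc.continuousAt.preimage_mem_nhds (e.open_source.mem_nhds hs)] with r hr
    have hr1 : Γ (ν r, 1) ∈ e.source := by rw [hl]; exact hr
    obtain ⟨-, q2, -⟩ := hΓ.lift_Key2 h hK hσ hν hl he hr
    have q3 := hΓ.gauss h (ν r) (deriv ν r) 1
    rw [hpb _ hr1, q2, hl, one_mul] at q3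
    exact q3.symm
  refine ⟨D, hH.congr_of_eventuallyEq hev, ?_⟩
  have hev' : (fun r : ℝ => pb g Γ (ν s, r) (deriv ν s, 0) (deriv ν s, 0)) =ᶠ[𝓝 1] fun r =>
      gc g e ((e ∘ Γ) (ν s, r)) (fderiv ℝ (e ∘ Γ) (ν s, r) (deriv ν s, 0))
        (fderiv ℝ (e ∘ Γ) (ν s, r) (deriv ν s, 0)) := by
    have hc : ContinuousAt (fun r : ℝ => Γ (ν s, r)) 1 :=
      (hΓc.comp (continuous_const.prodMk continuous_id)).continuousAt
    filter_upwards [hc.preimage_mem_nhds (e.open_source.mem_nhds hs1)] with r hr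
    exact hpb _ hr _ _
  have hh := hΓ.hess h hK (ν s) (deriv ν s)
  rw [(hB.congr_of_eventuallyEq hev').deriv, hpb _ hs1, k2, hl, h.energy_Key2 hσ he hs] at hh
  linarith

/-- The squared distance is `2`-convex along geodesics. -/
theorem GeoFam.cn (h : IsRM g) (hK : NPC g) (hΓ : GeoFam g m Γ) {σ : ℝ → M}
    (hσ : IsGeodesicOn g σ univ) {ν : ℝ → E} (hν : Continuous ν) (hl : ∀ s, Γ (ν s, 1) = σ s) :
    g m (ν (1 / 2)) (ν (1 / 2)) ≤ g m (ν 0) (ν 0) / 2 + g m (ν 1) (ν 1) / 2 -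
      g (σ 0) (vel E σ 0) (vel E σ 0) / 4 := by
  set W := g (σ 0) (vel E σ 0) (vel E σ 0) with hW
  have hd : ∀ s, HasDerivAt ν (deriv ν s) s := fun s =>
    (hΓ.lift_Key2 h hK hσ hν hl (chart_mem_atlas E (σ s)) (mem_chart_source E (σ s))).1
  choose D hD hWD using hΓ.second_Key2 h hK hσ hν hl
  have hF : ∀ s, HasDerivAt (fun r => g m (ν r) (ν r) - W * (r * r))
      (2 * g m (ν s) (deriv ν s) - 2 * (W * s)) s := fun s => by
    have h1 := ((g m).hasFDerivAt.comp_hasDerivAt s (hd s)).clm_apply (hd s)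
    have h2 := ((hasDerivAt_id s).mul (hasDerivAt_id s)).const_mul W
    refine (h1.sub h2).congr_deriv ?_
    have h3 := h.symm m (deriv ν s) (ν s)
    simp only [Function.comp_apply, id]
    rw [h3]
    ring
  have hF' : ∀ s, HasDerivAt (fun s => 2 * g m (ν s) (deriv ν s) - 2 * (W * s))
      (2 * D s - 2 * (W * 1)) s := fun s =>
    ((hD s).const_mul 2).sub (((hasDerivAt_id s).const_mul W).const_mul 2)
  have hmono : Monotone (deriv fun r => g m (ν r) (ν r) - W * (r * r)) := by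
    have : (deriv fun r => g m (ν r) (ν r) - W * (r * r)) =
        fun s => 2 * g m (ν s) (deriv ν s) - 2 * (W * s) := funext fun s => (hF s).deriv
    rw [this]
    refine monotone_of_deriv_nonneg (fun s => (hF' s).differentiableAt) fun s => ?_
    rw [(hF' s).deriv]
    linarith [hWD s]
  have hconv := hmono.convexOn_univ_of_deriv (fun s => (hF s).differentiableAt)
  have h1 := hconv.2 (mem_univ (0 : ℝ)) (mem_univ (1 : ℝ)) (by norm_num : (0 : ℝ) ≤ 1 / 2)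
    (by norm_num : (0 : ℝ) ≤ 1 / 2) (by norm_num)
  simp only [smul_eq_mul, mul_zero, mul_one, zero_add] at h1
  linarith

end Vale.Agent.P255
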