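import Vale.Agent.P255.Key2
import Vale.Agent.P255.Geo2
import Vale.Agent.P255.Geo3

open scoped Manifold ContDiff Topology
open Set Filter

set_option maxSynthPendingDepth 3

namespace Vale.Agent.P255

variable {E : Type} [NormedAddCommGroup E] [NormedSpace ℝ E] [FiniteDimensional ℝ E]
  {M : Type} [TopologicalSpace M] [ChartedSpace E M] [IsManifold 𝓘(ℝ, E) ∞ M]
  {g : M → E →L[ℝ] E →L[ℝ] ℝ}

/-- A positive definite form is coercive. -/
theorem coercive_Key3 (B : E →L[ℝ] E →L[ℝ] ℝ) (hB : ∀ v, v ≠ 0 → 0 < B v v) :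
    ∃ c > 0, ∀ w, c * ‖w‖ ^ 2 ≤ B w w := by
  have hc : Continuous fun w => B w w := B.continuous.clm_apply continuous_id
  obtain ⟨c, hc0, hc1⟩ := (isCompact_sphere (0 : E) 1).exists_forall_le' hc.continuousOn
    (a := 0) fun w hw => hB w (by
      rintro rfl
      simp at hw)
  refine ⟨c, hc0, fun w => ?_⟩
  by_cases hw : w = 0
  · simp [hw]
  · have hn : 0 < ‖w‖ := norm_pos_iff.2 hw
    have h2 := hc1 (‖w‖⁻¹ • w) (by simp [norm_smul, hn.ne'])
    simp only [map_smul, smul_apply, smul_eq_mul] at h2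
    have h3 : B w w = ‖w‖ ^ 2 * (‖w‖⁻¹ * (‖w‖⁻¹ * B w w)) := by field_simp
    rw [h3, mul_comm]
    exact mul_le_mul_of_nonneg_left h2 (by positivity)

/-- Two global geodesics related by an affine change of parameter. -/
theorem IsRM.affine_Key3 [T2Space M] (h : IsRM g) {γ γ' : ℝ → M}
    (hγ : IsGeodesicOn g γ univ) (hγ' : IsGeodesicOn g γ' univ) (a b : ℝ)
    (h0 : γ' 0 = γ a) (h1 : vel E γ' 0 = b • vel E γ a) (s : ℝ) : γ' s = γ (a + b * s) := by
  have h2 : IsGeodesicOn g (fun s => γ (a + b * s)) univ := h.geo_affine hγ a b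
  have h3 := IsGeodesicOn.vel_affine isOpen_univ hγ a b 0 (mem_univ _)
  refine h.geo_unique isOpen_univ isPreconnected_univ hγ' h2 (mem_univ (0 : ℝ)) ?_ ?_
    (mem_univ s)
  · simpa using h0
  · rw [h3, h1]
    simp

theorem IsRM.exists_expData [T2Space M] [CompactSpace M] (h : IsRM g) (hK : NPC g) :
    ∃ (ex : M → E → M) (nm : M → E → ℝ), ExpData ex nm := by
  choose γ hγ hγ0 hγ1 using fun m v => h.geo_exists (E := E) m v
  have hF : ∀ m, GeoFam g m (fun x : E × ℝ => γ m x.1 x.2) := fun m =>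
    ⟨h.geo_smooth (Γ := fun x : E × ℝ => γ m x.1 x.2) (fun v => hγ m v) (fun v => hγ0 m v)
      (fun v => hγ1 m v), fun v => hγ m v, fun v => hγ0 m v, fun v => hγ1 m v⟩
  have hsc : ∀ m v (r : ℝ), γ m (r • v) 1 = γ m v r := by
    intro m v r
    have := h.affine_Key3 (hγ m v) (hγ m (r • v)) 0 r (by rw [hγ0, hγ0]) (by rw [hγ1, hγ1]) 1
    simpa using this
  have hnn : ∀ m v, 0 ≤ g m v v := by
    intro m v
    by_cases hv : v = 0
    · simp [hv]
    · exact (h.pos m v hv).le
  refine ⟨fun m v => γ m v 1, fun m v => √(g m v v), fun m => GeoFam.isCoveringMap h hK (hF m),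
    fun m => ?_, fun m => ((g m).continuous.clm_apply continuous_id).sqrt,
    fun m v => Real.sqrt_nonneg _, fun m v => ?_, fun m R => ?_, fun m v => ?_,
    fun m m' w ν hν hl => ?_, fun m m' w ν hν hl => ?_⟩
  · have := hsc m 0 0
    rw [smul_zero, hγ0] at this
    exact this
  · constructor
    · intro hv
      by_contra hv'
      exact (Real.sqrt_pos.2 (h.pos m v hv')).ne' hv
    · rintro rfl
      simp
  · obtain ⟨c, hc, hc'⟩ := coercive_Key3 (g m) (h.pos m)
    refine (Metric.isBounded_closedBall (x := (0 : E)) (r := √(R ^ 2 / c))).subset fun v hv => ?_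
    rw [mem_closedBall_zero_iff]
    refine Real.le_sqrt_of_sq_le ?_
    rw [le_div_iff₀ hc, mul_comm]
    refine (hc' v).trans ?_
    have h1 : √(g m v v) ≤ R := hv
    calc g m v v = √(g m v v) ^ 2 := (Real.sq_sqrt (hnn m v)).symm
      _ ≤ R ^ 2 := by gcongr
  · refine ⟨-vel E (γ m v) 1, ?_, fun r => ?_⟩
    · have := h.geo_energy isOpen_univ isPreconnected_univ (hγ m v) (mem_univ (1 : ℝ))
        (mem_univ (0 : ℝ))
      rw [hγ0, hγ1] at this
      simp only [map_neg, neg_apply, neg_neg]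
      rw [this]
    · show γ (γ m v 1) (r • -vel E (γ m v) 1) 1 = γ m ((1 - r) • v) 1
      rw [hsc, hsc, h.affine_Key3 (hγ m v) (hγ (γ m v 1) (-vel E (γ m v) 1)) 1 (-1)
        (hγ0 _ _) (by rw [hγ1]; simp) r]
      congr 1
      ring
  · have := GeoFam.tri h hK (hF m) (hγ m' w) hν fun s => (hl s).trans (hsc m' w s)
    rwa [hγ0, hγ1] at this
  · have := GeoFam.cn h hK (hF m) (hγ m' w) hν fun s => (hl s).trans (hsc m' w s)
    rw [hγ0, hγ1] at this
    simpa only [Real.sq_sqrt (hnn _ _)] using this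

end Vale.Agent.P255
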