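import Vale.Agent.P255.NoConj

open scoped Manifold ContDiff Topology
open Set Filter

set_option maxSynthPendingDepth 3

namespace Vale.Agent.P255

/-- An integer valued function which is continuous at a point is locally constant there. -/
lemma ev_const_MC {X : Type} [TopologicalSpace X] {f : X → ℝ} {m : X} (hc : ContinuousAt f m)
    (hz : ∀ᶠ m' in 𝓝 m, ∃ k : ℤ, f m' = k) : ∀ᶠ m' in 𝓝 m, f m' = f m := by
  obtain ⟨k, hk⟩ := hz.self_of_nhds
  have h1 : ∀ᶠ m' in 𝓝 m, f m' ∈ Ioo (f m - 1) (f m + 1) :=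
    hc.eventually (Ioo_mem_nhds (by linarith) (by linarith))
  filter_upwards [hz, h1] with m' h2 h3
  obtain ⟨l, hl⟩ := h2
  rw [hk, hl] at h3
  have h4 : (k : ℝ) - 1 < l := h3.1
  have h5 : (l : ℝ) < k + 1 := h3.2
  have h6 : k - 1 < l := by exact_mod_cast h4
  have h7 : l < k + 1 := by exact_mod_cast h5
  have h8 : l = k := by omega
  rw [hk, hl, h8]

theorem ND.Prof.noConj {d : ND} (hd : d.Prof) [ChartedSpace E3 d.MM]
    [IsManifold 𝓘(ℝ, E3) ∞ d.MM] {g : d.MM → E3 →L[ℝ] E3 →L[ℝ] ℝ} (h : IsRM g)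
    (hs : ∀ i, ∀ x ∈ d.U i, ∃ e, IsSheet d.U d.Ψ d.G g i e ∧ x ∈ e.target) :
    NoConjugatePoints g := by
  have hcov : ∀ i, ∀ x ∈ d.U i, ∀ m : d.MM, d.Ψ i x = m.1 →
      ∃ e, IsSheet d.U d.Ψ d.G g i e ∧ m ∈ e.source := by
    intro i x hx m hm
    obtain ⟨e, he, hxe⟩ := hs i x hx
    refine ⟨e, he, ?_⟩
    have h1 : e.symm x = m := Subtype.ext ((he.2.2 x hxe).1.trans hm)
    rw [← h1]
    exact e.map_target hxe
  have hval : ∀ i e, IsSheet d.U d.Ψ d.G g i e → ∀ m ∈ e.source, d.Ψ i (e m) = m.1 := by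
    intro i e he m hm
    rw [← (he.2.2 _ (e.map_source hm)).1, e.left_inv hm]
  apply noConj_of_charts hd h {e | IsSheet d.U d.Ψ d.G g none e}
    {e | ∃ b, IsSheet d.U d.Ψ d.G g (some b) e} (fun e he => he.1)
    (fun e he => he.choose_spec.1)
  · intro m
    by_cases hm : ∃ e, IsSheet d.U d.Ψ d.G g none e ∧ m ∈ e.source
    · exact Or.inl hm
    right
    constructor
    · obtain ⟨i, x, hx, hxm⟩ := m.2
      obtain ⟨e, he, hme⟩ := hcov i x hx m hxm
      cases i with
      | none => exact absurd ⟨e, he, hme⟩ hm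
      | some b => exact ⟨e, ⟨b, he⟩, hme⟩
    · let B : Set E3 := Icc ![-5 / 2, 0, 0] ![5 / 2, 1, 1]
      have hB : ∀ x ∈ B, x ∈ UN := by
        intro x hx
        have h1 := hx.1 0
        have h2 := hx.2 0
        simp only [Matrix.cons_val_zero] at h1 h2
        exact ⟨by linarith, by linarith⟩
      have hC : IsClosed (d.Ψ none '' B) :=
        (isCompact_Icc.image (d.continuous_psi none)).isClosed
      have hO : IsOpen (Subtype.val ⁻¹' (d.Ψ none '' B) : Set d.MM)ᶜ :=
        (hC.preimage continuous_subtype_val).isOpen_compl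
      have hmO : m ∈ (Subtype.val ⁻¹' (d.Ψ none '' B) : Set d.MM)ᶜ := by
        rintro ⟨x, hx, hxm⟩
        exact hm (hcov none x (hB x hx) m hxm)
      filter_upwards [hO.mem_nhds hmO] with m' hm' e he hme
      by_contra hle
      rw [not_lt, abs_le] at hle
      apply hm'
      have hy : e m' ∈ UN := he.2.1 (e.map_source hme)
      have hy' : (![e m' 0, Int.fract (e m' 1), Int.fract (e m' 2)] : E3) ∈ B := by
        constructor
        · intro k
          fin_cases k
          · simpa [neg_div] using hle.1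
          · simp
          · simp
        · intro k
          fin_cases k
          · simpa using hle.2
          · simpa using (Int.fract_lt_one _).le
          · simpa using (Int.fract_lt_one _).le
      refine ⟨_, hy', ?_⟩
      rw [← hval none e he m' hme]
      refine (hd.psi_neck (hB _ hy') hy).2 ⟨by simp, ⌊e m' 1⌋, ⌊e m' 2⌋, ?_, ?_⟩
      · simp
      · simp
  · intro e he y hy
    exact ⟨he.2.1 hy, (he.2.2 y hy).2⟩
  · rintro e ⟨b, he⟩
    cases b with
    | false => exact ⟨_, fun y hy => (he.2.2 y hy).2⟩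
    | true => exact ⟨_, fun y hy => (he.2.2 y hy).2⟩
  · intro e he e' he' m hm hm'
    have hev : ∀ᶠ m' in 𝓝 m, e m' 0 = e' m' 0 ∧
        ∃ k l : ℤ, e' m' 1 = e m' 1 + k ∧ e' m' 2 = e m' 2 + l := by
      filter_upwards [e.open_source.mem_nhds hm, e'.open_source.mem_nhds hm'] with m' h1 h2
      exact (hd.psi_neck (he.2.1 (e.map_source h1)) (he'.2.1 (e'.map_source h2))).1
        ((hval none e he m' h1).trans (hval none e' he' m' h2).symm)
    have hc : ∀ k : Fin 3, ContinuousAt (fun m' => e' m' k - e m' k) m := fun k =>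
      ((continuous_apply k).continuousAt.comp (e'.continuousAt hm')).sub
        ((continuous_apply k).continuousAt.comp (e.continuousAt hm))
    have h1 := ev_const_MC (hc 1) (hev.mono fun m' h' => by
      obtain ⟨-, k, l, h2, -⟩ := h'
      exact ⟨k, by linarith⟩)
    have h2 := ev_const_MC (hc 2) (hev.mono fun m' h' => by
      obtain ⟨-, k, l, -, h2⟩ := h'
      exact ⟨l, by linarith⟩)
    refine ⟨e' m - e m, ?_, ?_⟩
    · have h3 := hev.self_of_nhds.1
      simp [h3]
    · filter_upwards [hev, h1, h2] with m' h3 h4 h5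
      have h6 := hev.self_of_nhds.1
      funext k
      fin_cases k
      · simp [h3.1, h6]
      · simp only [Fin.mk_one, Pi.add_apply, Pi.sub_apply]
        linarith
      · simp only [Fin.reduceFinMk, Pi.add_apply, Pi.sub_apply]
        linarith

end Vale.Agent.P255
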