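import Vale.Agent.P255.ModelA

open scoped Manifold ContDiff Topology
open Set Filter

set_option maxSynthPendingDepth 3

namespace Vale.Agent.P255

namespace ModelP

theorem GF_apply (D l : ℝ) (v w : E3) :
    GF D l v w = D ^ 2 * (v 0 * w 0 + v 1 * w 1) + l ^ 2 * (v 2 * w 2) := by
  simp [GF, mul_add]

theorem GN_apply (d : ND) (y v w : E3) : d.GN y v w = v 0 * w 0 + d.h11 (y 0) * (v 1 * w 1) +
    d.h12 (y 0) * (v 1 * w 2 + v 2 * w 1) + d.h22 (y 0) * (v 2 * w 2) := by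
  simp [ND.GN, mul_add]

/-- The flat metric in cylindrical coordinates. -/
theorem polar {r θ ζ : E3 → ℝ} (hr : ContDiff ℝ ∞ r) (hθ : ContDiff ℝ ∞ θ) (hζ : ContDiff ℝ ∞ ζ)
    {r' θ' ζ' : E3 →L[ℝ] ℝ} {x : E3} (hr' : HasFDerivAt r r' x) (hθ' : HasFDerivAt θ θ' x)
    (hζ' : HasFDerivAt ζ ζ' x) (c : E3) (D l : ℝ) :
    ContDiffAt ℝ ∞ (fun z => (![r z * Real.cos (θ z), r z * Real.sin (θ z), ζ z] : E3) + c) x ∧
    ∀ v w, GF D l
      (fderiv ℝ (fun z => (![r z * Real.cos (θ z), r z * Real.sin (θ z), ζ z] : E3) + c) x v)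
      (fderiv ℝ (fun z => (![r z * Real.cos (θ z), r z * Real.sin (θ z), ζ z] : E3) + c) x w) =
      D ^ 2 * (r' v * r' w + r x ^ 2 * (θ' v * θ' w)) + l ^ 2 * (ζ' v * ζ' w) := by
  have hs : ContDiff ℝ ∞
      (fun z => (![r z * Real.cos (θ z), r z * Real.sin (θ z), ζ z] : E3) + c) := by
    refine ContDiff.add (contDiff_pi.mpr fun i => ?_) contDiff_const
    fin_cases i
    · exact hr.mul hθ.cos
    · exact hr.mul hθ.sin
    · exact hζ
  refine ⟨hs.contDiffAt, fun v w => ?_⟩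
  have hd := (hs.differentiable (by simp)).differentiableAt (x := x)
  have e : ∀ (i : Fin 3) (L : E3 →L[ℝ] ℝ), HasFDerivAt (fun z =>
      ((![r z * Real.cos (θ z), r z * Real.sin (θ z), ζ z] : E3) + c) i) L x → ∀ u, fderiv ℝ
      (fun z => (![r z * Real.cos (θ z), r z * Real.sin (θ z), ζ z] : E3) + c) x u i = L u := by
    intro i L hL u
    rw [← hL.fderiv, fderiv_apply hd i]
    rfl
  have e0 := e 0 _ ((hr'.mul hθ'.cos).add_const (c 0))
  have e1 := e 1 _ ((hr'.mul hθ'.sin).add_const (c 1))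
  have e2 := e 2 _ (hζ'.add_const (c 2))
  rw [GF_apply, e0, e0, e1, e1, e2, e2]
  simp only [ContinuousLinearMap.add_apply, ContinuousLinearMap.smul_apply, smul_eq_mul]
  have := Real.sin_sq_add_cos_sq (θ x)
  linear_combination D ^ 2 * (r' v * r' w + r x ^ 2 * (θ' v * θ' w)) * this

theorem glue_shift {ι Z : Type} {Ψ : ι → E3 → Z} {G : ι → E3 → E3 →L[ℝ] E3 →L[ℝ] ℝ} {i : ι}
    {x y : E3} (h : ∀ᶠ z in 𝓝 x, Ψ i (z + (y - x)) = Ψ i z) (hG : G i x = G i y) :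
    Glue Ψ G i x i y := by
  refine ⟨fun z => z + (y - x), contDiffAt_id.add contDiffAt_const, by simp, h, fun v w => ?_⟩
  have : fderiv ℝ (fun z : E3 => z + (y - x)) x = ContinuousLinearMap.id ℝ E3 :=
    ((hasFDerivAt_id x).add_const _).fderiv
  rw [this, hG]
  rfl

theorem flat_shift (d : ND) (b : Bool) {p y : E3} (h : d.Ψ (some b) p = d.Ψ (some b) y) (z : E3) :
    d.Ψ (some b) (z + (y - p)) = d.Ψ (some b) z := by
  obtain ⟨k, l, n, h0, h1, h2⟩ := (d.psi_flat b p y).mp h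
  refine ((d.psi_flat b _ _).mpr ⟨k, l, n, ?_, ?_, ?_⟩).symm
  · simp [h0]
  · simp [h1]
  · simp [h2]

theorem int_eq_zero {a b c : ℝ} {k : ℤ} (ha : |a - c| < 1 / 2) (hb : |b - c| < 1 / 2)
    (h : b = a + k) : a = b := by
  have h1 : |(k : ℝ)| < 1 := by
    rw [abs_lt] at *
    constructor <;> linarith [ha.1, ha.2, hb.1, hb.2]
  have h2 : k = 0 := Int.abs_lt_one_iff.mp (by exact_mod_cast h1)
  rw [h, h2, Int.cast_zero, add_zero]

theorem ball_coord {x y : E3} (h : y ∈ Metric.ball x (1 / 2)) (i : Fin 3) : |y i - x i| < 1 / 2 :=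
  (dist_le_pi_dist y x i).trans_lt h

variable {d : ND}

theorem pr_smooth (i : Fin 3) : ContDiff ℝ ∞ fun z : E3 => z i := contDiff_apply ℝ ℝ i

theorem pr_deriv (i : Fin 3) (x : E3) : HasFDerivAt (fun z : E3 => z i)
    (ContinuousLinearMap.proj (R := ℝ) (φ := fun _ : Fin 3 => ℝ) i) x := hasFDerivAt_apply i x

theorem glue_left (h : d.Prof) {x y : E3} (hx : x ∈ UN) (hy : y ∈ d.U (some false))
    (hxy : d.Ψ none x = d.Ψ (some false) y) : Glue d.Ψ d.G none x (some false) y := by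
  have hlt := h.lt_of_left hx hy hxy
  have hp := (h.psi_left hlt.le).symm.trans hxy
  obtain ⟨h1, h2⟩ := polar (r := fun z => (d.ρ₁ - z 0) / (4 * (d.ρ₁ + 3)))
    (θ := fun z => 2 * Real.pi * z 1) (ζ := fun z => z 2)
    ((contDiff_const.sub (pr_smooth 0)).div_const _) (contDiff_const.mul (pr_smooth 1))
    (pr_smooth 2) (((pr_deriv 0 x).const_sub d.ρ₁).mul_const (4 * (d.ρ₁ + 3))⁻¹)
    ((pr_deriv 1 x).const_mul _) (pr_deriv 2 x)
    (y - ![(d.ρ₁ - x 0) / (4 * (d.ρ₁ + 3)) * Real.cos (2 * Real.pi * x 1),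
      (d.ρ₁ - x 0) / (4 * (d.ρ₁ + 3)) * Real.sin (2 * Real.pi * x 1), x 2]) (4 * (d.ρ₁ + 3)) d.l₁
  refine ⟨_, h1, add_sub_cancel _ _, ?_, fun v w => ?_⟩
  · filter_upwards [(continuous_apply 0).continuousAt.eventually_lt continuousAt_const hlt]
      with z hz
    rw [flat_shift d false hp, h.psi_left hz.le]
  · refine Eq.trans ?_ (h2 v w).symm
    obtain ⟨hA, hB, hC⟩ := h.left (x 0) ⟨hx.1, hlt.le⟩
    have h3 : d.ρ₁ - x 0 ≠ 0 := by linarith [h.hρ₁] |> fun (h' : 0 < d.ρ₁ - x 0) => h'.ne'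
    have h4 : d.ρ₁ + 3 ≠ 0 := by linarith [h.hρ₁] |> fun (h' : 0 < d.ρ₁ + 3) => h'.ne'
    have h5 := h.hl₁.ne'
    have h6 := Real.pi_ne_zero
    change d.GN x v w = _
    rw [GN_apply, ND.h11, ND.h12, ND.h22, hA, hB, hC]
    simp only [ContinuousLinearMap.smul_apply, ContinuousLinearMap.neg_apply,
      ContinuousLinearMap.proj_apply, smul_eq_mul]
    field_simp
    ring

theorem glue_right (h : d.Prof) {x y : E3} (hx : x ∈ UN) (hy : y ∈ d.U (some true))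
    (hxy : d.Ψ none x = d.Ψ (some true) y) : Glue d.Ψ d.G none x (some true) y := by
  have hlt := h.lt_of_right hx hy hxy
  have hp := (h.psi_right hlt.le).symm.trans hxy
  obtain ⟨h1, h2⟩ := polar (r := fun z => (d.ρ₂ + z 0) / (4 * (d.ρ₂ + 3)))
    (θ := fun z => 2 * Real.pi * z 2) (ζ := fun z => z 1 + z 2)
    ((contDiff_const.add (pr_smooth 0)).div_const _) (contDiff_const.mul (pr_smooth 2))
    ((pr_smooth 1).add (pr_smooth 2))
    (((pr_deriv 0 x).const_add d.ρ₂).mul_const (4 * (d.ρ₂ + 3))⁻¹)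
    ((pr_deriv 2 x).const_mul _) ((pr_deriv 1 x).add (pr_deriv 2 x))
    (y - ![(d.ρ₂ + x 0) / (4 * (d.ρ₂ + 3)) * Real.cos (2 * Real.pi * x 2),
      (d.ρ₂ + x 0) / (4 * (d.ρ₂ + 3)) * Real.sin (2 * Real.pi * x 2), x 1 + x 2])
    (4 * (d.ρ₂ + 3)) d.l₂
  refine ⟨_, h1, add_sub_cancel _ _, ?_, fun v w => ?_⟩
  · filter_upwards [continuousAt_const.eventually_lt (continuous_apply 0).continuousAt hlt]
      with z hz
    rw [flat_shift d true hp, h.psi_right hz.le]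
  · refine Eq.trans ?_ (h2 v w).symm
    obtain ⟨hA, hB, hC⟩ := h.right (x 0) ⟨hlt.le, hx.2⟩
    have h3 : d.ρ₂ + x 0 ≠ 0 := by linarith [h.hρ₂] |> fun (h' : 0 < d.ρ₂ + x 0) => h'.ne'
    have h4 : d.ρ₂ + 3 ≠ 0 := by linarith [h.hρ₂] |> fun (h' : 0 < d.ρ₂ + 3) => h'.ne'
    have h5 := h.hl₂.ne'
    have h6 := Real.pi_ne_zero
    have hdet : d.A (x 0) * d.B (x 0) - d.C (x 0) ^ 2 =
        (d.l₂ ^ 2)⁻¹ * ((2 * Real.pi * (d.ρ₂ + x 0)) ^ 2)⁻¹ := by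
      rw [hA, hB, hC]
      ring
    change d.GN x v w = _
    rw [GN_apply, ND.h11, ND.h12, ND.h22, hdet, hA, hB, hC]
    simp only [ContinuousLinearMap.smul_apply, ContinuousLinearMap.add_apply,
      ContinuousLinearMap.proj_apply, smul_eq_mul]
    field_simp
    ring

/-- The compact part of the neck. -/
noncomputable def KN : Set E3 := Icc ![-5 / 2, 0, 0] ![5 / 2, 1, 1]

/-- The compact part of a flat piece. -/
def KF (R : ℝ) : Set E3 :=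
  Icc 0 1 ∩ {y | R ^ 2 ≤ ‖(y 0 : UnitAddCircle)‖ ^ 2 + ‖(y 1 : UnitAddCircle)‖ ^ 2}

theorem KN_sub : KN ⊆ UN := fun y hy => by
  have h1 : (-5 / 2 : ℝ) ≤ y 0 := hy.1 0
  have h2 : y 0 ≤ (5 / 2 : ℝ) := hy.2 0
  exact ⟨by linarith, by linarith⟩

theorem KF_compact (R : ℝ) : IsCompact (KF R) := by
  refine isCompact_Icc.inter_right (isClosed_le continuous_const ?_)
  have hc : ∀ i : Fin 3, Continuous fun y : E3 => (y i : UnitAddCircle) := fun i =>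
    (AddCircle.continuous_mk' 1).comp (continuous_apply i)
  exact ((hc 0).norm.pow 2).add ((hc 1).norm.pow 2)

theorem KF_sub {ρ : ℝ} (hρ : 0 < ρ + 2) :
    KF ((ρ + 5 / 2) / (4 * (ρ + 3))) ⊆ UF ((ρ + 2) / (4 * (ρ + 3))) := fun y hy => by
  refine lt_of_lt_of_le (b := ((ρ + 5 / 2) / (4 * (ρ + 3))) ^ 2) ?_ hy.2
  have h1 : 0 < 4 * (ρ + 3) := by linarith
  exact pow_lt_pow_left₀ (div_lt_div_of_pos_right (by linarith) h1) (div_pos hρ h1).le two_ne_zero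

theorem neck_red (h : d.Prof) {x : E3} (h1 : -5 / 2 ≤ x 0) (h2 : x 0 ≤ 5 / 2) :
    ∃ y ∈ KN, d.Ψ none y = d.Ψ none x := by
  have hy : (![x 0, Int.fract (x 1), Int.fract (x 2)] : E3) ∈ KN := by
    refine ⟨fun i => ?_, fun i => ?_⟩ <;> fin_cases i
    exacts [h1, Int.fract_nonneg _, Int.fract_nonneg _, h2, (Int.fract_lt_one _).le,
      (Int.fract_lt_one _).le]
  refine ⟨_, hy, (h.psi_neck (KN_sub hy) ⟨by linarith, by linarith⟩).mpr
    ⟨rfl, ⌊x 1⌋, ⌊x 2⌋, ?_, ?_⟩⟩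
  · exact (Int.fract_add_floor _).symm
  · exact (Int.fract_add_floor _).symm

theorem flat_red (d : ND) (b : Bool) {R : ℝ} {x : E3}
    (hx : R ^ 2 ≤ ‖(x 0 : UnitAddCircle)‖ ^ 2 + ‖(x 1 : UnitAddCircle)‖ ^ 2) :
    ∃ y ∈ KF R, d.Ψ (some b) y = d.Ψ (some b) x := by
  refine ⟨fun i => Int.fract (x i), ⟨⟨fun i => Int.fract_nonneg _,
    fun i => (Int.fract_lt_one _).le⟩, ?_⟩, (d.psi_flat b _ _).mpr
    ⟨⌊x 0⌋, ⌊x 1⌋, ⌊x 2⌋, (Int.fract_add_floor _).symm, (Int.fract_add_floor _).symm,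
      (Int.fract_add_floor _).symm⟩⟩
  simpa only [mem_setOf_eq, AddCircle.coe_fract] using hx

theorem norm_coe {a : ℝ} (h : |a| ≤ 1 / 2) : ‖(a : UnitAddCircle)‖ = |a| :=
  (AddCircle.norm_coe_eq_abs_iff 1 one_ne_zero).mpr (by simpa using h)

theorem polar_norm {r : ℝ} (h0 : 0 ≤ r) (h : r ≤ 1 / 2) (θ : ℝ) :
    ‖((r * Real.cos θ : ℝ) : UnitAddCircle)‖ ^ 2 + ‖((r * Real.sin θ : ℝ) : UnitAddCircle)‖ ^ 2 =
      r ^ 2 := by
  have h1 : ∀ c : ℝ, |c| ≤ 1 → |r * c| ≤ 1 / 2 := fun c hc => by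
    rw [abs_mul, abs_of_nonneg h0]
    nlinarith [abs_nonneg c]
  rw [norm_coe (h1 _ (Real.abs_cos_le_one θ)), norm_coe (h1 _ (Real.abs_sin_le_one θ)), sq_abs,
    sq_abs]
  linear_combination r ^ 2 * Real.sin_sq_add_cos_sq θ

theorem polar_dec (a b : ℝ) : ∃ r θ : ℝ, 0 ≤ r ∧
    r ^ 2 = ‖(a : UnitAddCircle)‖ ^ 2 + ‖(b : UnitAddCircle)‖ ^ 2 ∧ ∃ k l : ℤ,
      a = r * Real.cos (2 * Real.pi * θ) + k ∧ b = r * Real.sin (2 * Real.pi * θ) + l := by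
  obtain ⟨z, hz⟩ : ∃ z : ℂ, z = ⟨a - round a, b - round b⟩ := ⟨_, rfl⟩
  have e : 2 * Real.pi * (z.arg / (2 * Real.pi)) = z.arg := by
    have := Real.pi_ne_zero
    field_simp
  refine ⟨‖z‖, z.arg / (2 * Real.pi), norm_nonneg _, ?_, round a, round b, ?_, ?_⟩
  · rw [UnitAddCircle.norm_eq, UnitAddCircle.norm_eq, sq_abs, sq_abs, Complex.sq_norm,
      Complex.normSq_apply, hz]
    ring
  · rw [e, Complex.norm_mul_cos_arg, hz]
    ring
  · rw [e, Complex.norm_mul_sin_arg, hz]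
    ring

theorem radius {ρ r : ℝ} (hρ : 0 < ρ + 2) (h0 : 0 ≤ r)
    (h1 : ((ρ + 2) / (4 * (ρ + 3))) ^ 2 < r ^ 2) (h2 : r ^ 2 < ((ρ + 5 / 2) / (4 * (ρ + 3))) ^ 2) :
    ρ + 2 < r * (4 * (ρ + 3)) ∧ r * (4 * (ρ + 3)) < ρ + 5 / 2 := by
  have hD : 0 < 4 * (ρ + 3) := by linarith
  exact ⟨(div_lt_iff₀ hD).mp (lt_of_pow_lt_pow_left₀ 2 h0 h1),
    (lt_div_iff₀ hD).mp (lt_of_pow_lt_pow_left₀ 2 (div_pos (by linarith) hD).le h2)⟩

theorem outer {ρ s : ℝ} (hρ : 0 < ρ + 2) (h1 : ρ + 5 / 2 ≤ s) (h2 : s ≤ ρ + 3) (θ : ℝ) :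
    ((ρ + 5 / 2) / (4 * (ρ + 3))) ^ 2 ≤
      ‖((s / (4 * (ρ + 3)) * Real.cos θ : ℝ) : UnitAddCircle)‖ ^ 2 +
        ‖((s / (4 * (ρ + 3)) * Real.sin θ : ℝ) : UnitAddCircle)‖ ^ 2 := by
  have hD : 0 < 4 * (ρ + 3) := by linarith
  rw [polar_norm (div_pos (by linarith) hD).le ((div_le_iff₀ hD).mpr (by linarith))]
  exact pow_le_pow_left₀ (div_pos (by linarith) hD).le (div_le_div_of_nonneg_right h1 hD.le) 2

/-- The compact sets. -/
noncomputable def KK (d : ND) : Option Bool → Set E3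
  | none => KN
  | some false => KF ((d.ρ₁ + 5 / 2) / (4 * (d.ρ₁ + 3)))
  | some true => KF ((d.ρ₂ + 5 / 2) / (4 * (d.ρ₂ + 3)))

theorem cover (h : d.Prof) (i : Option Bool) (x : E3) (hx : x ∈ d.U i) :
    ∃ j, ∃ y ∈ KK d j, d.Ψ j y = d.Ψ i x := by
  rcases i with _ | _ | _
  · rcases le_total (x 0) (-5 / 2) with h1 | h1
    · rw [h.psi_left (by linarith)]
      exact ⟨some false, flat_red d false
        (outer h.hρ₁ (by linarith) (by linarith [hx.1]) (2 * Real.pi * x 1))⟩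
    rcases le_total (5 / 2) (x 0) with h2 | h2
    · rw [h.psi_right (by linarith)]
      exact ⟨some true, flat_red d true
        (outer h.hρ₂ (by linarith) (by linarith [hx.2]) (2 * Real.pi * x 2))⟩
    exact ⟨none, neck_red h h1 h2⟩
  · rcases le_or_gt (((d.ρ₁ + 5 / 2) / (4 * (d.ρ₁ + 3))) ^ 2)
      (‖(x 0 : UnitAddCircle)‖ ^ 2 + ‖(x 1 : UnitAddCircle)‖ ^ 2) with h1 | h1
    · exact ⟨some false, flat_red d false h1⟩
    obtain ⟨r, θ, h0, hr, k, l, hk, hl⟩ := polar_dec (x 0) (x 1)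
    obtain ⟨h2, h3⟩ := radius h.hρ₁ h0 (hr ▸ hx) (hr ▸ h1)
    have hD : 4 * (d.ρ₁ + 3) ≠ 0 := by linarith [h.hρ₁] |> fun (h' : 0 < 4 * (d.ρ₁ + 3)) => h'.ne'
    obtain ⟨y, hy, hy'⟩ := neck_red h (x := ![d.ρ₁ - r * (4 * (d.ρ₁ + 3)), θ, x 2])
      (by change _ ≤ d.ρ₁ - _; linarith) (by change d.ρ₁ - _ ≤ _; linarith)
    refine ⟨none, y, hy, hy'.trans ?_⟩
    rw [h.psi_left (by change d.ρ₁ - _ ≤ _; linarith)]
    refine (d.psi_flat false _ _).mpr ⟨k, l, 0, ?_, ?_, ?_⟩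
    · simpa [hD] using hk
    · simpa [hD] using hl
    · simp
  · rcases le_or_gt (((d.ρ₂ + 5 / 2) / (4 * (d.ρ₂ + 3))) ^ 2)
      (‖(x 0 : UnitAddCircle)‖ ^ 2 + ‖(x 1 : UnitAddCircle)‖ ^ 2) with h1 | h1
    · exact ⟨some true, flat_red d true h1⟩
    obtain ⟨r, θ, h0, hr, k, l, hk, hl⟩ := polar_dec (x 0) (x 1)
    obtain ⟨h2, h3⟩ := radius h.hρ₂ h0 (hr ▸ hx) (hr ▸ h1)
    have hD : 4 * (d.ρ₂ + 3) ≠ 0 := by linarith [h.hρ₂] |> fun (h' : 0 < 4 * (d.ρ₂ + 3)) => h'.ne'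
    obtain ⟨y, hy, hy'⟩ := neck_red h (x := ![r * (4 * (d.ρ₂ + 3)) - d.ρ₂, x 2 - θ, θ])
      (by change _ ≤ _ - d.ρ₂; linarith) (by change _ - d.ρ₂ ≤ _; linarith)
    refine ⟨none, y, hy, hy'.trans ?_⟩
    rw [h.psi_right (by change _ ≤ _ - d.ρ₂; linarith)]
    refine (d.psi_flat true _ _).mpr ⟨k, l, 0, ?_, ?_, ?_⟩
    · simpa [hD] using hk
    · simpa [hD] using hl
    · simp

end ModelP

open ModelP

theorem ND.Prof.pres {d : ND} (h : d.Prof) : Pres d.U d.Ψ d.G := by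
  refine ⟨h.cm, fun i => (d.continuous_psi i).continuousOn, fun i x hx => ?_,
    fun i j x hx y hy hxy => ?_, KK d, fun i => ?_, cover h⟩
  · rcases i with _ | b
    · refine ⟨UN ∩ Metric.ball x (1 / 2), inter_mem ((h.cm none).isOpen.mem_nhds hx)
        (Metric.ball_mem_nhds x one_half_pos), fun y hy z hz hyz => ?_⟩
      obtain ⟨h0, k, l, h1, h2⟩ := (h.psi_neck hy.1 hz.1).mp hyz
      funext i
      fin_cases i
      exacts [h0, int_eq_zero (ball_coord hy.2 1) (ball_coord hz.2 1) h1,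
        int_eq_zero (ball_coord hy.2 2) (ball_coord hz.2 2) h2]
    · refine ⟨Metric.ball x (1 / 2), Metric.ball_mem_nhds x one_half_pos, fun y hy z hz hyz => ?_⟩
      obtain ⟨k, l, n, h0, h1, h2⟩ := (d.psi_flat b y z).mp hyz
      funext i
      fin_cases i
      exacts [int_eq_zero (ball_coord hy 0) (ball_coord hz 0) h0,
        int_eq_zero (ball_coord hy 1) (ball_coord hz 1) h1,
        int_eq_zero (ball_coord hy 2) (ball_coord hz 2) h2]
  · rcases i with _ | _ | _ <;> rcases j with _ | _ | _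
    · obtain ⟨h0, k, l, h1, h2⟩ := (h.psi_neck hx hy).mp hxy
      refine Or.inl (glue_shift ?_ ?_)
      · filter_upwards [(h.cm none).isOpen.mem_nhds hx] with z hz
        have e0 : (z + (y - x)) 0 = z 0 := by simp [h0]
        refine ((h.psi_neck hz ?_).mpr ⟨e0.symm, k, l, by simp [h1], by simp [h2]⟩).symm
        change (z + (y - x)) 0 ∈ Ioo (-3 : ℝ) 3
        rw [e0]
        exact hz
      · change d.GN x = d.GN y
        rw [ND.GN, ND.GN, h0]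
    · exact Or.inl (glue_left h hx hy hxy)
    · exact Or.inl (glue_right h hx hy hxy)
    · exact Or.inr (glue_left h hy hx hxy.symm)
    · exact Or.inl (glue_shift (Eventually.of_forall (flat_shift d false hxy)) rfl)
    · exact absurd hxy (d.psi_ne x y)
    · exact Or.inr (glue_right h hy hx hxy.symm)
    · exact absurd hxy.symm (d.psi_ne y x)
    · exact Or.inl (glue_shift (Eventually.of_forall (flat_shift d true hxy)) rfl)
  · rcases i with _ | _ | _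
    · exact ⟨isCompact_Icc, KN_sub⟩
    · exact ⟨KF_compact _, KF_sub h.hρ₁⟩
    · exact ⟨KF_compact _, KF_sub h.hρ₂⟩

end Vale.Agent.P255
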