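import Vale.Agent.P255.Chart

open scoped Manifold ContDiff Topology
open Set Filter

set_option maxSynthPendingDepth 3
set_option linter.unusedSectionVars false

namespace Vale.Agent.P255

variable {E : Type} [NormedAddCommGroup E] [NormedSpace ℝ E] [FiniteDimensional ℝ E]
  {ι Z : Type} [Finite ι] [TopologicalSpace Z] [T2Space Z]
  {U : ι → Set E} {Ψ : ι → E → Z} {G : ι → E → E →L[ℝ] E →L[ℝ] ℝ}

/-- Gluing maps can be reversed by the inverse function theorem. -/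
theorem Glue.symm' {i j : ι} {x y : E} (hpos : ∀ v, v ≠ 0 → 0 < G i x v v)
    (h : Glue Ψ G i x j y) : Glue Ψ G j y i x := by
  have := FiniteDimensional.complete ℝ E
  obtain ⟨φ, hφ, rfl, hev, hG⟩ := h
  have hinj : Function.Injective (fderiv ℝ φ x : E →ₗ[ℝ] E) := by
    rw [injective_iff_map_eq_zero]
    intro v hv
    by_contra hne
    have h1 := hpos v hne
    have hv' : fderiv ℝ φ x v = 0 := hv
    rw [hG, hv'] at h1
    simp at h1
  let A : E ≃L[ℝ] E := (LinearEquiv.ofInjectiveEndo _ hinj).toContinuousLinearEquiv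
  have hA : ∀ v, A v = fderiv ℝ φ x v := fun v => rfl
  have hA' : (A : E →L[ℝ] E) = fderiv ℝ φ x := by
    ext v; exact hA v
  have hn : (∞ : WithTop ℕ∞) ≠ 0 := by simp
  have hd : HasFDerivAt φ (A : E →L[ℝ] E) x := by
    rw [hA']
    exact (hφ.differentiableAt hn).hasFDerivAt
  have hs := hφ.hasStrictFDerivAt' hd hn
  have hc := hφ.to_localInverse hd hn
  have hx := hφ.localInverse_apply_image hd hn
  refine ⟨hφ.localInverse hd hn, hc, hx, ?_, ?_⟩
  · have h1 : Tendsto (hφ.localInverse hd hn) (𝓝 (φ x)) (𝓝 x) := by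
      have h2 := hc.continuousAt.tendsto
      rwa [hx] at h2
    filter_upwards [h1.eventually hev, hs.eventually_right_inverse] with y' h2 h3
    have h4 : φ (hφ.localInverse hd hn y') = y' := h3
    rw [← h2, h4]
  · intro v w
    have h1 : fderiv ℝ (hφ.localInverse hd hn) (φ x) = (A.symm : E →L[ℝ] E) :=
      hs.to_localInverse.hasFDerivAt.fderiv
    rw [h1, hG, ← hA, ← hA]
    simp

theorem Pres.glue' (h : Pres U Ψ G) {i j : ι} {x y : E} (hx : x ∈ U i) (hy : y ∈ U j)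
    (hxy : Ψ i x = Ψ j y) : Glue Ψ G i x j y := by
  rcases h.glue i j x hx y hy hxy with h1 | h1
  · exact h1
  · exact h1.symm' ((h.cm j).pos y hy)

/-- Sheets are open maps into the carrier. -/
theorem Pres.isOpen_image (h : Pres U Ψ G) {i : ι} {V : Set E} (hV : IsOpen V) (hVU : V ⊆ U i) :
    IsOpen {m : PM U Ψ | ∃ x ∈ V, Ψ i x = m.1} := by
  obtain ⟨K, hK, hKc⟩ := h.cpt
  have hS : ∀ j, IsOpen {y | y ∈ U j ∧ ∃ x ∈ V, Ψ i x = Ψ j y} := by
    intro j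
    rw [isOpen_iff_mem_nhds]
    rintro y ⟨hy, x, hx, hxy⟩
    obtain ⟨φ, hφ, hφx, hev, -⟩ := h.glue' hy (hVU hx) hxy.symm
    have h1 : ∀ᶠ y' in 𝓝 y, φ y' ∈ V :=
      hφ.continuousAt.eventually (by rw [hφx]; exact hV.mem_nhds hx)
    filter_upwards [hev, h1, (h.cm j).isOpen.mem_nhds hy] with y' h2 h3 h4
    exact ⟨h4, φ y', h3, h2⟩
  have hC : IsClosed (⋃ j, Ψ j '' (K j \ {y | y ∈ U j ∧ ∃ x ∈ V, Ψ i x = Ψ j y})) := by
    apply isClosed_iUnion_of_finite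
    intro j
    apply IsCompact.isClosed
    exact ((hK j).1.diff (hS j)).image_of_continuousOn
      ((h.cont j).mono fun y hy => (hK j).2 hy.1)
  have h1 := (hC.preimage (continuous_subtype_val (p := fun z : Z => ∃ i, ∃ x ∈ U i, Ψ i x = z))).isOpen_compl
  have h2 : {m : PM U Ψ | ∃ x ∈ V, Ψ i x = m.1} =
      (Subtype.val ⁻¹' (⋃ j, Ψ j '' (K j \ {y | y ∈ U j ∧ ∃ x ∈ V, Ψ i x = Ψ j y})))ᶜ := by
    ext m
    simp only [mem_ofPred_eq, mem_compl_iff, mem_preimage, mem_iUnion, mem_image, Set.mem_sdiff]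
    constructor
    · rintro ⟨x, hx, hxm⟩ ⟨j, y, ⟨hyK, hyS⟩, hym⟩
      exact hyS ⟨(hK j).2 hyK, x, hx, hxm.trans hym.symm⟩
    · intro hm
      obtain ⟨k, z, hz, hzm⟩ := m.2
      obtain ⟨j, y, hy, hyz⟩ := hKc k z hz
      by_contra hne
      apply hm
      refine ⟨j, y, ⟨hy, ?_⟩, hyz.trans hzm⟩
      rintro ⟨-, x, hx, hxy⟩
      exact hne ⟨x, hx, hxy.trans (hyz.trans hzm)⟩
  rw [h2]
  exact h1

/-- The charts of the presentation. -/
def PAtl (U : ι → Set E) (Ψ : ι → E → Z) (i : ι) (e : OpenPartialHomeomorph (PM U Ψ) E) : Prop :=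
  e.target ⊆ U i ∧ ∀ y ∈ e.target, (e.symm y).1 = Ψ i y

theorem Pres.exists_chart (h : Pres U Ψ G) {i : ι} {x : E} (hx : x ∈ U i) :
    ∃ e, PAtl U Ψ i e ∧ x ∈ e.target := by
  classical
  obtain ⟨V₀, hV₀, hinj⟩ := h.inj i x hx
  obtain ⟨V, hVsub, hV, hxV⟩ := mem_nhds_iff.1 (inter_mem hV₀ ((h.cm i).isOpen.mem_nhds hx))
  have hVU : V ⊆ U i := fun y hy => (hVsub hy).2
  let f : E → PM U Ψ := fun y =>
    if hy : y ∈ U i then ⟨Ψ i y, i, y, hy, rfl⟩ else ⟨Ψ i x, i, x, hx, rfl⟩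
  have hf : ∀ y ∈ U i, (f y).1 = Ψ i y := by
    intro y hy
    simp only [f, dif_pos hy]
  have hfi : InjOn f V := by
    intro a ha b hb hab
    apply hinj (hVsub ha).1 (hVsub hb).1
    rw [← hf a (hVU ha), ← hf b (hVU hb), hab]
  have hfc : ContinuousOn f V := by
    refine (Topology.IsInducing.subtypeVal
      (t := {z : Z | ∃ i, ∃ x ∈ U i, Ψ i x = z})).continuousOn_iff.2 ?_
    exact ((h.cont i).mono hVU).congr fun y hy => hf y (hVU hy)
  have him : ∀ W, W ⊆ V → f '' W = {m : PM U Ψ | ∃ x ∈ W, Ψ i x = m.1} := by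
    intro W hW
    ext m
    constructor
    · rintro ⟨y, hy, rfl⟩
      exact ⟨y, hy, (hf y (hVU (hW hy))).symm⟩
    · rintro ⟨y, hy, hym⟩
      exact ⟨y, hy, Subtype.ext ((hf y (hVU (hW hy))).trans hym)⟩
  let p : PartialEquiv E (PM U Ψ) := hfi.toPartialEquiv f V
  have hps : p.source = V := rfl
  have hpf : (p : E → PM U Ψ) = f := rfl
  have ho : IsOpenMap (p.source.domRestrict p) := by
    intro W hW
    have h1 : IsOpen (Subtype.val '' W : Set E) := hV.isOpenMap_subtype_val W hW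
    have h2 : (Subtype.val '' W : Set E) ⊆ V := by
      rintro _ ⟨y, -, rfl⟩
      exact y.2
    have h3 : p.source.domRestrict p '' W = f '' (Subtype.val '' W) := by
      rw [image_image]; rfl
    rw [h3, him _ h2]
    exact h.isOpen_image h1 (h2.trans hVU)
  refine ⟨(OpenPartialHomeomorph.ofContinuousOpenRestrict p hfc ho hV).symm, ⟨hVU, ?_⟩, hxV⟩
  intro y hy
  exact hf y (hVU hy)

theorem Pres.exists_chartAt (h : Pres U Ψ G) (m : PM U Ψ) :
    ∃ q : ι × OpenPartialHomeomorph (PM U Ψ) E, PAtl U Ψ q.1 q.2 ∧ m ∈ q.2.source := by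
  obtain ⟨i, x, hx, hxm⟩ := m.2
  obtain ⟨e, he, hxe⟩ := h.exists_chart hx
  refine ⟨(i, e), he, ?_⟩
  have h1 : e.symm x = m := Subtype.ext ((he.2 x hxe).trans hxm)
  rw [← h1]
  exact e.map_target hxe

/-- The transition map of two charts agrees locally with a gluing map. -/
theorem Pres.trans_glue (h : Pres U Ψ G) {i j : ι} {e e' : OpenPartialHomeomorph (PM U Ψ) E}
    (he : PAtl U Ψ i e) (he' : PAtl U Ψ j e') {y : E} (hy : y ∈ e.target)
    (hy' : e.symm y ∈ e'.source) :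
    ContDiffAt ℝ ∞ (e' ∘ e.symm) y ∧ ∀ v w, G i y v w =
      G j (e' (e.symm y)) (fderiv ℝ (e' ∘ e.symm) y v) (fderiv ℝ (e' ∘ e.symm) y w) := by
  have ht : e' (e.symm y) ∈ e'.target := e'.map_source hy'
  have hxy : Ψ i y = Ψ j (e' (e.symm y)) := by
    rw [← he.2 y hy, ← he'.2 _ ht, e'.left_inv hy']
  obtain ⟨φ, hφ, hφy, hev, hG⟩ := h.glue' (he.1 hy) (he'.1 ht) hxy
  have h1 : ∀ᶠ y' in 𝓝 y, φ y' ∈ e'.target :=
    hφ.continuousAt.eventually (by rw [hφy]; exact e'.open_target.mem_nhds ht)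
  have h2 : (e' ∘ e.symm) =ᶠ[𝓝 y] φ := by
    filter_upwards [hev, h1, e.open_target.mem_nhds hy] with y' h3 h4 h5
    have h6 : e.symm y' = e'.symm (φ y') := Subtype.ext (by rw [he.2 y' h5, he'.2 _ h4, h3])
    show e' (e.symm y') = φ y'
    rw [h6, e'.right_inv h4]
  refine ⟨hφ.congr_of_eventuallyEq h2, fun v w => ?_⟩
  rw [h2.fderiv_eq]
  exact hG v w

theorem Pres.compactSpace (h : Pres U Ψ G) : CompactSpace (PM U Ψ) := by
  obtain ⟨K, hK, hKc⟩ := h.cpt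
  have h1 : IsCompact (⋃ j, Ψ j '' K j) :=
    isCompact_iUnion fun j => (hK j).1.image_of_continuousOn ((h.cont j).mono (hK j).2)
  have h2 : (⋃ j, Ψ j '' K j) = {z : Z | ∃ i, ∃ x ∈ U i, Ψ i x = z} := by
    ext z
    simp only [mem_iUnion, mem_image, mem_ofPred_eq]
    constructor
    · rintro ⟨j, y, hy, rfl⟩
      exact ⟨j, y, (hK j).2 hy, rfl⟩
    · rintro ⟨i, x, hx, rfl⟩
      exact hKc i x hx
  rw [h2] at h1
  exact isCompact_iff_compactSpace.1 h1

theorem Pres.exists_manifold (h : Pres U Ψ G) :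
    ∃ (_ : ChartedSpace E (PM U Ψ)) (_ : IsManifold 𝓘(ℝ, E) ∞ (PM U Ψ))
      (g : PM U Ψ → E →L[ℝ] E →L[ℝ] ℝ), CompactSpace (PM U Ψ) ∧ IsRM g ∧
      ∀ i, ∀ x ∈ U i, ∃ e, IsSheet U Ψ G g i e ∧ x ∈ e.target := by
  choose q hq hqm using h.exists_chartAt
  let cs : ChartedSpace E (PM U Ψ) :=
    { atlas := {e | ∃ i, PAtl U Ψ i e}
      chartAt := fun m => (q m).2
      mem_chart_source := hqm
      chart_mem_atlas := fun m => ⟨(q m).1, hq m⟩ }
  have hchart : ∀ m : PM U Ψ, chartAt E m = (q m).2 := fun m => rfl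
  have mf : IsManifold 𝓘(ℝ, E) ∞ (PM U Ψ) := by
    apply isManifold_of_contDiffOn
    rintro e e' ⟨i, he⟩ ⟨j, he'⟩ y hy
    have hy1 : y ∈ e.target ∧ e.symm y ∈ e'.source := by simpa using hy
    exact (h.trans_glue he he' hy1.1 hy1.2).1.contDiffWithinAt
  let g : PM U Ψ → E →L[ℝ] E →L[ℝ] ℝ := fun m => G (q m).1 ((q m).2 m)
  have hmU : ∀ m, (q m).2 m ∈ U (q m).1 := fun m => (hq m).1 ((q m).2.map_source (hqm m))
  have hgc : ∀ i e, PAtl U Ψ i e → ∀ y ∈ e.target, gc g e y = G i y := by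
    intro i e he y hy
    ext v w
    have he1 : e ∈ atlas E (PM U Ψ) := ⟨i, he⟩
    have he2 : (q (e.symm y)).2 ∈ atlas E (PM U Ψ) := ⟨_, hq _⟩
    rw [gc_trans g he1 he2 ⟨hy, hqm _⟩, (h.trans_glue he (hq (e.symm y)) hy (hqm _)).2 v w]
    have h1 : ∀ a b, gc g (q (e.symm y)).2 ((q (e.symm y)).2 (e.symm y)) a b = g (e.symm y) a b := by
      intro a b
      have h2 := gc_dC g he2 (hqm (e.symm y)) a b
      have h3 := dC_chartAt (E := E) (e.symm y)
      rw [hchart] at h3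
      rwa [h3, h3] at h2
    rw [h1]
  refine ⟨cs, mf, g, h.compactSpace, ⟨fun m v w => (h.cm _).symm _ (hmU m) v w,
    fun m v hv => (h.cm _).pos _ (hmU m) v hv, ?_⟩, ?_⟩
  · rintro e ⟨i, he⟩
    exact ((h.cm i).smooth.mono he.1).congr (hgc i e he)
  · intro i x hx
    obtain ⟨e, he, hxe⟩ := h.exists_chart hx
    exact ⟨e, ⟨⟨i, he⟩, he.1, fun y hy => ⟨he.2 y hy, hgc i e he y hy⟩⟩, hxe⟩

end Vale.Agent.P255
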