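import Vale.Agent.P255.Profile_a

open scoped ContDiff Topology Real
open Set Filter

namespace Vale.Agent.P255

/-- The concave profile. -/
noncomputable def xtPB (t : ℝ) : ℝ := 1 + (∫ x in (-1 : ℝ)..t, (1 - phPA x)) / 10

lemma xt_smooth : ContDiff ℝ ∞ xtPB :=
  contDiff_const.add ((contDiff_int_PA (contDiff_const.sub ph_smooth) _).div_const _)

lemma xt_hasDerivAt (t : ℝ) : HasDerivAt xtPB ((1 - phPA t) / 10) t :=
  ((hasDerivAt_int_PA (continuous_const.sub ph_cont) (-1) t).div_const 10).const_add 1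

lemma xt_deriv : deriv xtPB = fun t => (1 - phPA t) / 10 :=
  funext fun t => (xt_hasDerivAt t).deriv

lemma xt_left {t : ℝ} (h : t ≤ -1) : xtPB t = 1 + (t + 1) / 10 := by
  rw [xtPB, intervalIntegral.integral_congr (g := fun _ => (1 : ℝ))]
  · simp
  · intro x hx
    rw [uIcc_of_ge h] at hx
    simp [ph_zero hx.2]

lemma xt_mono : Monotone xtPB :=
  monotone_of_deriv_nonneg (fun t => (xt_hasDerivAt t).differentiableAt) fun t => by
    rw [xt_deriv]; have := ph_le_one t; simp only; linarith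

lemma xt_right {t : ℝ} (h : 1 ≤ t) : xtPB t = xtPB 1 := by
  have h1 : ∫ x in (1 : ℝ)..t, (1 - phPA x) = 0 := by
    rw [intervalIntegral.integral_congr (g := fun _ => (0 : ℝ))]
    · simp
    · intro x hx
      rw [uIcc_of_le h] at hx
      simp [ph_one hx.1]
  have hc : Continuous fun x => 1 - phPA x := continuous_const.sub ph_cont
  rw [xtPB, xtPB, ← intervalIntegral.integral_add_adjacent_intervals (b := 1)
    (hc.intervalIntegrable _ _) (hc.intervalIntegrable _ _), h1, add_zero]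

lemma xt_gap {t : ℝ} (h : t ∈ Icc (-1 : ℝ) 1) : xtPB 1 - xtPB t ≤ (1 - phPA t) / 5 := by
  have hc : Continuous fun x => 1 - phPA x := continuous_const.sub ph_cont
  have h1 : ∫ x in t..1, (1 - phPA x) ≤ ∫ _ in t..1, (1 - phPA t) :=
    intervalIntegral.integral_mono_on h.2 (hc.intervalIntegrable _ _) (by simp) fun x hx => by
      have := ph_mono hx.1; linarith
  rw [xtPB, xtPB, ← intervalIntegral.integral_add_adjacent_intervals (a := -1) (b := t) (c := 1)
    (hc.intervalIntegrable _ _) (hc.intervalIntegrable _ _)]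
  simp only [intervalIntegral.integral_const, smul_eq_mul] at h1
  have := ph_le_one t
  nlinarith [h.1]

lemma xt_ge {t : ℝ} (h : -1 ≤ t) : 1 ≤ xtPB t := by
  have := xt_mono h
  rw [xt_left le_rfl] at this
  linarith

lemma xt_le (t : ℝ) : xtPB t ≤ 1.2 := by
  have h1 : xtPB 1 ≤ 1.2 := by
    have := xt_gap (t := -1) ⟨le_rfl, by norm_num⟩
    rw [xt_left le_rfl, ph_zero le_rfl] at this
    linarith
  rcases le_total t 1 with h | h
  · exact (xt_mono h).trans h1
  · rwa [xt_right h]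

/-- The cut-off of the side region. -/
noncomputable def chPB (t : ℝ) : ℝ := Real.smoothTransition (2 * t + 4)

lemma ch_smooth : ContDiff ℝ ∞ chPB := Real.smoothTransition.contDiff.comp (by fun_prop)
lemma ch_zero {t : ℝ} (h : t ≤ -2) : chPB t = 0 :=
  Real.smoothTransition.zero_of_nonpos (by linarith)
lemma ch_one {t : ℝ} (h : -3 / 2 ≤ t) : chPB t = 1 :=
  Real.smoothTransition.one_of_one_le (by linarith)
lemma ch_mono : Monotone chPB := fun _ _ h => Real.smoothTransition.monotone (by linarith)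

/-- Slope of the radius function. -/
noncomputable def psPB (k t : ℝ) : ℝ :=
  -(2 * π) * (1 - chPB t) - chPB t * (k / 20 * (1 + (t + 1) / 10) ^ (-3 / 2 : ℝ))

lemma ps_smooth (k : ℝ) : ContDiff ℝ ∞ (psPB k) := by
  refine (contDiff_const.mul (contDiff_const.sub ch_smooth)).sub ?_
  rw [contDiff_iff_contDiffAt]
  intro t
  rcases lt_or_ge t (-2) with h | h
  · refine (contDiffAt_const (c := (0 : ℝ))).congr_of_eventuallyEq ?_
    filter_upwards [Iio_mem_nhds h] with x hx
    rw [ch_zero (le_of_lt hx), zero_mul]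
  · refine ch_smooth.contDiffAt.mul (contDiffAt_const.mul ?_)
    exact ContDiffAt.rpow_const_of_ne (by fun_prop) (by linarith)

/-- The radius function. -/
noncomputable def aPB (k t : ℝ) : ℝ := k + ∫ x in (-1 : ℝ)..t, psPB k x

lemma a_smooth (k : ℝ) : ContDiff ℝ ∞ (aPB k) :=
  contDiff_const.add (contDiff_int_PA (ps_smooth k) _)

lemma a_hasDerivAt (k t : ℝ) : HasDerivAt (aPB k) (psPB k t) t :=
  (hasDerivAt_int_PA (ps_smooth k).continuous (-1) t).const_add k

lemma ps_neg {k : ℝ} (hk : 0 < k) {t : ℝ} (ht : -4 < t) : psPB k t < 0 := by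
  have h1 : 0 < k / 20 * (1 + (t + 1) / 10) ^ (-3 / 2 : ℝ) :=
    mul_pos (by positivity) (Real.rpow_pos_of_pos (by linarith) _)
  have h2 : 0 ≤ chPB t := Real.smoothTransition.nonneg _
  have h3 : chPB t ≤ 1 := Real.smoothTransition.le_one _
  have h4 := Real.pi_pos
  unfold psPB
  rcases h2.eq_or_lt with h | h
  · rw [← h]; linarith
  · nlinarith [mul_pos h h1]

lemma ps_deriv_nonneg {k : ℝ} (hk : 0 < k) (hk1 : k ≤ 1) {t : ℝ} (ht : -4 < t) :
    0 ≤ deriv (psPB k) t := by
  have hw : 0 < 1 + (t + 1) / 10 := by linarith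
  have hc : HasDerivAt chPB (deriv chPB t) t := (ch_smooth.differentiable (by simp) t).hasDerivAt
  have hc0 : 0 ≤ deriv chPB t := ch_mono.deriv_nonneg
  have hr : HasDerivAt (fun t : ℝ => (1 + (t + 1) / 10) ^ (-3 / 2 : ℝ))
      (1 / 10 * (-3 / 2) * (1 + (t + 1) / 10) ^ (-3 / 2 - 1 : ℝ)) t := by
    refine HasDerivAt.rpow_const ?_ (Or.inl hw.ne')
    simpa using (((hasDerivAt_id t).add_const 1).div_const 10).const_add 1
  have hd : HasDerivAt (psPB k) _ t :=
    ((hc.const_sub 1).const_mul (-(2 * π))).sub (hc.mul (hr.const_mul (k / 20)))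
  rw [hd.deriv]
  have h2 : 0 ≤ chPB t := Real.smoothTransition.nonneg _
  have h5 : 0 < (1 + (t + 1) / 10) ^ (-3 / 2 - 1 : ℝ) := Real.rpow_pos_of_pos hw _
  have h6 : (1 + (t + 1) / 10) ^ (-3 / 2 : ℝ) ≤ 4 := by
    calc (1 + (t + 1) / 10) ^ (-3 / 2 : ℝ) ≤ (1 / 2 : ℝ) ^ (-3 / 2 : ℝ) :=
          Real.rpow_le_rpow_of_nonpos (by norm_num) (by linarith) (by norm_num)
      _ ≤ (1 / 2 : ℝ) ^ (-2 : ℝ) :=
          Real.rpow_le_rpow_of_exponent_ge (by norm_num) (by norm_num) (by norm_num)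
      _ = 4 := by
          rw [Real.rpow_neg (by norm_num), Real.rpow_two]; norm_num
  have h7 : k / 20 * (1 + (t + 1) / 10) ^ (-3 / 2 : ℝ) ≤ 2 * π := by
    have := Real.pi_gt_three
    have h0 : 0 < (1 + (t + 1) / 10) ^ (-3 / 2 : ℝ) := Real.rpow_pos_of_pos hw _
    nlinarith
  have h8 := mul_nonneg hc0 (sub_nonneg.2 h7)
  have h9 : 0 ≤ chPB t * k * (1 + (t + 1) / 10) ^ (-3 / 2 - 1 : ℝ) := by positivity
  nlinarith

lemma a_ge {k : ℝ} (hk : 0 < k) {t : ℝ} (ht : -4 < t) (ht' : t ≤ -1) : k ≤ aPB k t := by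
  have : AntitoneOn (aPB k) (Ioi (-4)) :=
    antitoneOn_of_deriv_nonpos (convex_Ioi _) (a_smooth k).continuous.continuousOn
      (fun x _ => (a_hasDerivAt k x).differentiableAt.differentiableWithinAt) fun x hx => by
        rw [(a_hasDerivAt k x).deriv]
        exact (ps_neg hk (by simpa using hx)).le
  have h := this (show t ∈ Ioi (-4 : ℝ) from ht) (show (-1 : ℝ) ∈ Ioi (-4 : ℝ) by norm_num) ht'
  simpa [aPB] using h

lemma a_mid (k : ℝ) {t : ℝ} (ht : -3 / 2 ≤ t) (ht' : t ≤ -1) :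
    aPB k t = k * (1 + (t + 1) / 10) ^ (-1 / 2 : ℝ) := by
  have hF : ∀ x ∈ uIcc (-1 : ℝ) t, HasDerivAt (fun x : ℝ => k * (1 + (x + 1) / 10) ^ (-1 / 2 : ℝ))
      (psPB k x) x := by
    intro x hx
    rw [uIcc_of_ge ht'] at hx
    have hw : 0 < 1 + (x + 1) / 10 := by linarith [hx.1]
    have hr : HasDerivAt (fun t : ℝ => (1 + (t + 1) / 10) ^ (-1 / 2 : ℝ))
        (1 / 10 * (-1 / 2) * (1 + (x + 1) / 10) ^ (-1 / 2 - 1 : ℝ)) x := by
      refine HasDerivAt.rpow_const ?_ (Or.inl hw.ne')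
      simpa using (((hasDerivAt_id x).add_const 1).div_const 10).const_add 1
    refine (hr.const_mul k).congr_deriv ?_
    rw [psPB, ch_one (ht.trans hx.1), show (-1 / 2 - 1 : ℝ) = -3 / 2 by norm_num]
    ring
  rw [aPB, intervalIntegral.integral_eq_sub_of_hasDerivAt hF
    ((ps_smooth k).continuous.intervalIntegrable _ _)]
  simp

lemma a_left (k : ℝ) {t : ℝ} (ht : t ≤ -2) : aPB k t = aPB k (-2) - 2 * π * (t + 2) := by
  have hc := (ps_smooth k).continuous
  have h1 : ∫ x in (-2 : ℝ)..t, psPB k x = -(2 * π * (t + 2)) := by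
    rw [intervalIntegral.integral_congr (g := fun _ => -(2 * π))]
    · simp; ring
    · intro x hx
      rw [uIcc_of_ge ht] at hx
      simp [psPB, ch_zero hx.2]
  rw [aPB, aPB, ← intervalIntegral.integral_add_adjacent_intervals (b := -2)
    (hc.intervalIntegrable _ _) (hc.intervalIntegrable _ _), h1]
  ring

/-- The side profile. -/
theorem side_PB {k : ℝ} (hk : 0 < k) (hk1 : k ≤ 1) : ∃ (X : ℝ → ℝ) (ρ : ℝ),
    ContDiffOn ℝ ∞ X (Ioo (-3) 3) ∧ (∀ t ∈ Ioo (-3 : ℝ) 3, 0 < X t) ∧ 0 < ρ + 2 ∧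
    (∀ t ≤ -2, X t = k ^ 2 * ((2 * π * (ρ - t)) ^ 2)⁻¹) ∧
    (∀ t, -1 ≤ t → X t = xtPB t ∧ deriv X t = (1 - phPA t) / 10 ∧
      deriv (deriv X) t = -deriv phPA t / 10) ∧
    (∀ t ∈ Ioo (-3 : ℝ) (-1), 0 < deriv X t ∧
      2 * X t * deriv (deriv X) t ≤ 3 * deriv X t ^ 2) := by
  classical
  set X : ℝ → ℝ := fun t => if t ≤ -5 / 4 then k ^ 2 * (aPB k t ^ 2)⁻¹ else xtPB t with hX
  have hL : ∀ t ≤ -1, X t = k ^ 2 * (aPB k t ^ 2)⁻¹ := by
    intro t ht
    simp only [hX]
    split_ifs with h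
    · rfl
    · have hw : 0 < 1 + (t + 1) / 10 := by linarith
      rw [a_mid k (by linarith) ht, xt_left ht, mul_pow, ← Real.rpow_natCast _ 2,
        ← Real.rpow_natCast _ 2, ← Real.rpow_mul hw.le]
      norm_num
      rw [Real.rpow_neg_one]
      field_simp
  have hR : ∀ t, -3 / 2 ≤ t → X t = xtPB t := by
    intro t ht
    simp only [hX]
    split_ifs with h
    · have hw : 0 < 1 + (t + 1) / 10 := by linarith
      rw [a_mid k ht (by linarith), xt_left (by linarith), mul_pow, ← Real.rpow_natCast _ 2,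
        ← Real.rpow_natCast _ 2, ← Real.rpow_mul hw.le]
      norm_num
      rw [Real.rpow_neg_one]
      field_simp
    · rfl
  have eL : ∀ t < -1, X =ᶠ[𝓝 t] fun t => k ^ 2 * (aPB k t ^ 2)⁻¹ := fun t ht => by
    filter_upwards [Iio_mem_nhds ht] with x hx using hL x (le_of_lt hx)
  have eR : ∀ t, -3 / 2 < t → X =ᶠ[𝓝 t] xtPB := fun t ht => by
    filter_upwards [Ioi_mem_nhds ht] with x hx using hR x (le_of_lt hx)
  have apos : ∀ t, -4 < t → t ≤ -1 → 0 < aPB k t := fun t h1 h2 => hk.trans_le (a_ge hk h1 h2)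
  have dL : ∀ t ∈ Ioo (-3 : ℝ) (-1), HasDerivAt X (-2 * k ^ 2 * psPB k t / aPB k t ^ 3) t := by
    intro t ht
    have h0 := apos t (by linarith [ht.1]) ht.2.le
    have h1 := (((a_hasDerivAt k t).pow 2).inv (pow_pos h0 2).ne').const_mul (k ^ 2)
    refine (h1.congr_deriv ?_).congr_of_eventuallyEq (eL t ht.2)
    simp only [Pi.pow_apply]
    field_simp
    ring
  refine ⟨X, aPB k (-2) / (2 * π) - 2, ?_, ?_, ?_, ?_, ?_, ?_⟩
  · intro t ht
    refine ContDiffAt.contDiffWithinAt ?_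
    rcases lt_or_ge t (-1) with h | h
    · have h0 := apos t (by linarith [ht.1]) h.le
      exact (contDiffAt_const.mul (((a_smooth k).contDiffAt.pow 2).inv
        (by positivity))).congr_of_eventuallyEq (eL t h)
    · exact xt_smooth.contDiffAt.congr_of_eventuallyEq (eR t (by linarith))
  · intro t ht
    rcases lt_or_ge t (-1) with h | h
    · have h0 := apos t (by linarith [ht.1]) h.le
      rw [hL t h.le]; positivity
    · rw [hR t (by linarith)]; linarith [xt_ge h]
  · have h0 := apos (-2) (by norm_num) (by norm_num)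
    have := Real.pi_pos
    rw [sub_add_cancel]; positivity
  · intro t ht
    have := Real.pi_pos
    rw [hL t (by linarith), a_left k ht]
    congr 3
    field_simp
    ring
  · intro t ht
    have h := eR t (by linarith)
    refine ⟨h.self_of_nhds, by rw [h.deriv_eq, xt_deriv], ?_⟩
    rw [h.deriv.deriv_eq, xt_deriv]
    exact (((ph_hasDerivAt t).const_sub 1).div_const 10).deriv
  · intro t ht
    have h0 := apos t (by linarith [ht.1]) ht.2.le
    have hn := ps_neg hk (show -4 < t by linarith [ht.1])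
    have hp := ps_deriv_nonneg hk hk1 (show -4 < t by linarith [ht.1])
    have e2 : deriv X =ᶠ[𝓝 t] fun t => -2 * k ^ 2 * psPB k t / aPB k t ^ 3 := by
      filter_upwards [isOpen_Ioo.mem_nhds ht] with x hx using (dL x hx).deriv
    have hps : HasDerivAt (psPB k) (deriv (psPB k) t) t :=
      ((ps_smooth k).differentiable (by simp) t).hasDerivAt
    have h2 := (hps.const_mul (-2 * k ^ 2)).div ((a_hasDerivAt k t).pow 3) (pow_pos h0 3).ne'
    rw [e2.deriv_eq, (dL t ht).deriv, hL t ht.2.le]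
    refine ⟨div_pos (by nlinarith [mul_pos (pow_pos hk 2) (neg_pos.2 hn)]) (by positivity), ?_⟩
    have h3 : deriv (fun t => -2 * k ^ 2 * psPB k t / aPB k t ^ 3) t =
        6 * k ^ 2 * psPB k t ^ 2 / aPB k t ^ 4 - 2 * k ^ 2 * deriv (psPB k) t / aPB k t ^ 3 := by
      refine h2.deriv.trans ?_
      simp only [Pi.pow_apply]
      field_simp
      ring
    rw [h3]
    have h4 : 0 ≤ 4 * k ^ 4 * deriv (psPB k) t / aPB k t ^ 5 := by positivity
    refine le_of_sub_nonneg (h4.trans_eq ?_)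
    field_simp
    ring

end Vale.Agent.P255
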