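import Vale.Agent.P255.Model
import Vale.Agent.P255.Profile_b

open scoped Manifold ContDiff Topology Real
open Set Filter

set_option maxSynthPendingDepth 3

namespace Vale.Agent.P255

/-- The twist function. -/
noncomputable def gmPC (t : ℝ) : ℝ := (∫ x in t..1, phPA x * (1 - phPA x)) / 100

lemma pq_cont_PC : Continuous fun x => phPA x * (1 - phPA x) :=
  ph_cont.mul (continuous_const.sub ph_cont)

lemma gm_eq_PC (t : ℝ) : gmPC t = -(∫ x in (1 : ℝ)..t, phPA x * (1 - phPA x)) / 100 := by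
  rw [gmPC, intervalIntegral.integral_symm]

lemma gm_smooth : ContDiff ℝ ∞ gmPC := by
  rw [funext gm_eq_PC]
  exact (contDiff_int_PA (ph_smooth.mul (contDiff_const.sub ph_smooth)) _).neg.div_const _

lemma gm_hasDerivAt (t : ℝ) : HasDerivAt gmPC (-(phPA t * (1 - phPA t)) / 100) t := by
  rw [funext gm_eq_PC]
  exact (hasDerivAt_int_PA pq_cont_PC 1 t).neg.div_const _

lemma gm_right {t : ℝ} (h : 1 ≤ t) : gmPC t = 0 := by
  rw [gm_eq_PC, intervalIntegral.integral_congr (g := fun _ => (0 : ℝ))]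
  · simp
  · intro x hx
    rw [uIcc_of_le h] at hx
    simp [ph_one hx.1]

lemma gm_split (s t : ℝ) : gmPC s - gmPC t = (∫ x in s..t, phPA x * (1 - phPA x)) / 100 := by
  rw [gmPC, gmPC, ← intervalIntegral.integral_add_adjacent_intervals (a := s) (b := t) (c := 1)
    (pq_cont_PC.intervalIntegrable _ _) (pq_cont_PC.intervalIntegrable _ _)]
  ring

lemma gm_left {t : ℝ} (h : t ≤ -1) : gmPC t = gmPC (-1) := by
  have := gm_split t (-1)
  rw [intervalIntegral.integral_congr (g := fun _ => (0 : ℝ))] at this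
  · simp only [intervalIntegral.integral_const, smul_zero, zero_div] at this
    linarith
  · intro x hx
    rw [uIcc_of_le h] at hx
    simp [ph_zero hx.2]

lemma gm_pos : 0 < gmPC (-1) := by
  refine div_pos (intervalIntegral.intervalIntegral_pos_of_pos_on
    (pq_cont_PC.intervalIntegrable _ _) (fun x hx => mul_pos ?_ ?_) (by norm_num)) (by norm_num)
  · exact Real.smoothTransition.pos_of_pos (by linarith [hx.1])
  · exact sub_pos.2 (Real.smoothTransition.lt_one_of_lt_one (by linarith [hx.2]))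

lemma int_le_PC {s t c : ℝ} (h : s ≤ t) (h2 : t - s ≤ 2) (hc : 0 ≤ c)
    (hb : ∀ x ∈ Icc s t, phPA x * (1 - phPA x) ≤ c) :
    0 ≤ ∫ x in s..t, phPA x * (1 - phPA x) ∧ ∫ x in s..t, phPA x * (1 - phPA x) ≤ 2 * c := by
  refine ⟨intervalIntegral.integral_nonneg h fun x _ =>
    mul_nonneg (ph_nonneg x) (sub_nonneg.2 (ph_le_one x)), ?_⟩
  have h1 : ∫ x in s..t, phPA x * (1 - phPA x) ≤ ∫ _ in s..t, c :=
    intervalIntegral.integral_mono_on h (pq_cont_PC.intervalIntegrable _ _) (by simp) hb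
  simp only [intervalIntegral.integral_const, smul_eq_mul] at h1
  nlinarith

lemma gm_le : gmPC (-1) ≤ 1 / 200 := by
  have := (int_le_PC (s := -1) (t := 1) (c := 1 / 4) (by norm_num) (by norm_num) (by norm_num)
    fun x _ => by nlinarith [sq_nonneg (phPA x - 1 / 2)]).2
  rw [gmPC]; linarith

lemma gm_mid {t : ℝ} (h : t ∈ Icc (-1 : ℝ) 1) : (0 ≤ gmPC t ∧ gmPC t ≤ (1 - phPA t) / 50) ∧
    0 ≤ gmPC (-1) - gmPC t ∧ gmPC (-1) - gmPC t ≤ phPA t / 50 := by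
  have h1 := int_le_PC (s := t) (t := 1) (c := 1 - phPA t) h.2 (by linarith [h.1])
    (sub_nonneg.2 (ph_le_one t)) fun x hx => by
      nlinarith [ph_mono hx.1, ph_le_one x, ph_nonneg x]
  have h2 := int_le_PC (s := -1) (t := t) (c := phPA t) h.1 (by linarith [h.2])
    (ph_nonneg t) fun x hx => by nlinarith [ph_mono hx.2, ph_le_one x, ph_nonneg x]
  rw [gm_split, gmPC]
  exact ⟨⟨by linarith [h1.1], by linarith [h1.2]⟩, by linarith [h2.1], by linarith [h2.2]⟩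

lemma ph_deriv_left {t : ℝ} (h : t < -1) : deriv phPA t = 0 := by
  have : phPA =ᶠ[𝓝 t] fun _ => 0 := by
    filter_upwards [Iio_mem_nhds h] with x hx using ph_zero (le_of_lt hx)
  rw [this.deriv_eq]; simp

lemma ph_deriv_right {t : ℝ} (h : 1 < t) : deriv phPA t = 0 := by
  rw [← ph_deriv_neg, ph_deriv_left (by linarith)]

lemma bf_change (a b c ε p₁ p₂ q₁ q₂ : ℝ) (hε : ε ≠ 0) :
    bf (a / ε ^ 2 + b - 2 * c / ε) b (c / ε - b) p₁ p₂ q₁ q₂ =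
      bf a b c (p₁ / ε) (p₂ - p₁) (q₁ / ε) (q₂ - q₁) := by
  unfold bf; field_simp; ring

lemma mono_alg_PC {φ ψ : ℝ} (u z : ℝ) (h : φ ≤ ψ) (h0 : 0 ≤ φ) (h1 : ψ ≤ 1) :
    bf ((1 - ψ) / 10) (-(ψ / 10)) (-(ψ * (1 - ψ)) / 100) u z u z ≤
      bf ((1 - φ) / 10) (-(φ / 10)) (-(φ * (1 - φ)) / 100) u z u z := by
  have k : 0 ≤ u ^ 2 + z ^ 2 + (1 - φ - ψ) * u * z / 5 := by
    nlinarith [mul_nonneg (show 0 ≤ φ + ψ by linarith) (sq_nonneg (u - z)),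
      mul_nonneg (show 0 ≤ 2 - φ - ψ by linarith) (sq_nonneg (u + z)), sq_nonneg u, sq_nonneg z]
  have := mul_nonneg (sub_nonneg.2 h) k
  unfold bf
  linarith

lemma conc_alg_PC {φ φ' : ℝ} (u z : ℝ) (h : 0 ≤ φ') (h0 : 0 ≤ φ) (h1 : φ ≤ 1) :
    bf (-φ' / 10) (-φ' / 10) (-(φ' * (1 - 2 * φ)) / 100) u z u z ≤ 0 := by
  have k : 0 ≤ u ^ 2 + z ^ 2 + (1 - 2 * φ) * u * z / 5 := by
    nlinarith [mul_nonneg h0 (sq_nonneg (u - z)),
      mul_nonneg (show 0 ≤ 1 - φ by linarith) (sq_nonneg (u + z)), sq_nonneg u, sq_nonneg z]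
  have := mul_nonneg h k
  unfold bf
  linarith

/-- The data built from two side profiles. -/
noncomputable def ndPC (X Y : ℝ → ℝ) (ρ₁ ρ₂ m ε : ℝ) : ND where
  A t := (X t + m * ε ^ 2) / ε ^ 2 + Y (-t) - 2 * gmPC t / ε
  B t := Y (-t)
  C t := gmPC t / ε - Y (-t)
  ρ₁ := ρ₁
  ρ₂ := ρ₂
  l₁ := (√m)⁻¹
  l₂ := ε * (√(m + m * ε ^ 2))⁻¹

section

variable {X Y : ℝ → ℝ} {ρ₁ ρ₂ m ε : ℝ}

lemma neg_mem_PC {t : ℝ} (ht : t ∈ Ioo (-3 : ℝ) 3) : -t ∈ Ioo (-3 : ℝ) 3 :=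
  ⟨by linarith [ht.2], by linarith [ht.1]⟩

lemma d1_PC (hX : ContDiffOn ℝ ∞ X (Ioo (-3) 3)) {t : ℝ} (ht : t ∈ Ioo (-3 : ℝ) 3) :
    HasDerivAt X (deriv X t) t :=
  ((hX.contDiffAt (isOpen_Ioo.mem_nhds ht)).differentiableAt (by simp)).hasDerivAt

lemma d2_PC (hX : ContDiffOn ℝ ∞ X (Ioo (-3) 3)) {t : ℝ} (ht : t ∈ Ioo (-3 : ℝ) 3) :
    HasDerivAt (deriv X) (deriv (deriv X) t) t :=
  d1_PC (((contDiffOn_infty_iff_deriv_of_isOpen isOpen_Ioo).1 hX).2) ht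

lemma derivs_PC (hX : ContDiffOn ℝ ∞ X (Ioo (-3) 3)) (hY : ContDiffOn ℝ ∞ Y (Ioo (-3) 3))
    {t : ℝ} (ht : t ∈ Ioo (-3 : ℝ) 3) :
    deriv (ndPC X Y ρ₁ ρ₂ m ε).A t =
        deriv X t / ε ^ 2 + -deriv Y (-t) - 2 * (-(phPA t * (1 - phPA t)) / 100) / ε ∧
      deriv (ndPC X Y ρ₁ ρ₂ m ε).B t = -deriv Y (-t) ∧
      deriv (ndPC X Y ρ₁ ρ₂ m ε).C t = (-(phPA t * (1 - phPA t)) / 100) / ε - -deriv Y (-t) := by
  have hy : HasDerivAt (fun t => Y (-t)) (-deriv Y (-t)) t :=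
    ((d1_PC hY (neg_mem_PC ht)).comp t (hasDerivAt_neg t)).congr_deriv (by ring)
  exact ⟨(((((d1_PC hX ht).add_const _).div_const _).add hy).sub
      (((gm_hasDerivAt t).const_mul 2).div_const ε)).deriv, hy.deriv,
    (((gm_hasDerivAt t).div_const ε).sub hy).deriv⟩

lemma derivs2_PC (hX : ContDiffOn ℝ ∞ X (Ioo (-3) 3)) (hY : ContDiffOn ℝ ∞ Y (Ioo (-3) 3))
    {t : ℝ} (ht : t ∈ Ioo (-3 : ℝ) 3) :
    deriv (deriv (ndPC X Y ρ₁ ρ₂ m ε).A) t = deriv (deriv X) t / ε ^ 2 + deriv (deriv Y) (-t) -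
        2 * (-(deriv phPA t * (1 - 2 * phPA t)) / 100) / ε ∧
      deriv (deriv (ndPC X Y ρ₁ ρ₂ m ε).B) t = deriv (deriv Y) (-t) ∧
      deriv (deriv (ndPC X Y ρ₁ ρ₂ m ε).C) t =
        (-(deriv phPA t * (1 - 2 * phPA t)) / 100) / ε - deriv (deriv Y) (-t) := by
  have hy : HasDerivAt (fun t => -deriv Y (-t)) (deriv (deriv Y) (-t)) t :=
    ((d2_PC hY (neg_mem_PC ht)).comp t (hasDerivAt_neg t)).neg.congr_deriv (by ring)
  have hg : HasDerivAt (fun t => -(phPA t * (1 - phPA t)) / 100)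
      (-(deriv phPA t * (1 - 2 * phPA t)) / 100) t :=
    (((ph_hasDerivAt t).mul ((ph_hasDerivAt t).const_sub 1)).neg.div_const 100).congr_deriv
      (by ring)
  have ev := (isOpen_Ioo.eventually_mem ht).mono fun x hx =>
    derivs_PC (ρ₁ := ρ₁) (ρ₂ := ρ₂) (m := m) (ε := ε) hX hY hx
  refine ⟨?_, ?_, ?_⟩
  · exact (((((d2_PC hX ht).div_const _).add hy).sub
      ((hg.const_mul 2).div_const ε)).congr_of_eventuallyEq (ev.mono fun _ h => h.1)).deriv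
  · exact (hy.congr_of_eventuallyEq (ev.mono fun _ h => h.2.1)).deriv
  · exact (((hg.div_const ε).sub hy).congr_of_eventuallyEq (ev.mono fun _ h => h.2.2)).deriv

lemma G0_PC (hε : ε ≠ 0) (t p₁ p₂ q₁ q₂ : ℝ) : (ndPC X Y ρ₁ ρ₂ m ε).G0 t p₁ p₂ q₁ q₂ =
    bf (X t + m * ε ^ 2) (Y (-t)) (gmPC t) (p₁ / ε) (p₂ - p₁) (q₁ / ε) (q₂ - q₁) :=
  bf_change _ _ _ _ _ _ _ _ hε

lemma G1_PC (hX : ContDiffOn ℝ ∞ X (Ioo (-3) 3)) (hY : ContDiffOn ℝ ∞ Y (Ioo (-3) 3))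
    (hε : ε ≠ 0) {t : ℝ} (ht : t ∈ Ioo (-3 : ℝ) 3) (p₁ p₂ q₁ q₂ : ℝ) :
    (ndPC X Y ρ₁ ρ₂ m ε).G1 t p₁ p₂ q₁ q₂ = bf (deriv X t) (-deriv Y (-t))
      (-(phPA t * (1 - phPA t)) / 100) (p₁ / ε) (p₂ - p₁) (q₁ / ε) (q₂ - q₁) := by
  obtain ⟨h1, h2, h3⟩ := derivs_PC (ρ₁ := ρ₁) (ρ₂ := ρ₂) (m := m) (ε := ε) hX hY ht
  rw [ND.G1, h1, h2, h3, bf_change _ _ _ _ _ _ _ _ hε]

lemma G2_PC (hX : ContDiffOn ℝ ∞ X (Ioo (-3) 3)) (hY : ContDiffOn ℝ ∞ Y (Ioo (-3) 3))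
    (hε : ε ≠ 0) {t : ℝ} (ht : t ∈ Ioo (-3 : ℝ) 3) (p₁ p₂ q₁ q₂ : ℝ) :
    (ndPC X Y ρ₁ ρ₂ m ε).G2 t p₁ p₂ q₁ q₂ = bf (deriv (deriv X) t) (deriv (deriv Y) (-t))
      (-(deriv phPA t * (1 - 2 * phPA t)) / 100) (p₁ / ε) (p₂ - p₁) (q₁ / ε) (q₂ - q₁) := by
  obtain ⟨h1, h2, h3⟩ := derivs2_PC (ρ₁ := ρ₁) (ρ₂ := ρ₂) (m := m) (ε := ε) hX hY ht
  rw [ND.G2, h1, h2, h3, bf_change _ _ _ _ _ _ _ _ hε]

end

theorem exists_prof : ∃ d : ND, d.Prof := by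
  set m := xtPB 1 with hm
  have m1 : 1 ≤ m := xt_ge (by norm_num)
  have m2 : m ≤ 1.2 := xt_le 1
  set ε := gmPC (-1) / m with hεd
  have e0 : 0 < ε := div_pos gm_pos (by linarith)
  have em : gmPC (-1) = m * ε := by rw [hεd]; field_simp
  have e1 : ε ≤ 1 / 200 := by nlinarith [gm_le]
  have e2 : m * ε ^ 2 ≤ 0.001 := by nlinarith
  have e3 : 0 ≤ m * ε ^ 2 := by positivity
  obtain ⟨X, ρ₁, X1, X2, X3, X4, X5, X6⟩ := side_PB e0 (by linarith)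
  obtain ⟨Y, ρ₂, Y1, Y2, Y3, Y4, Y5, Y6⟩ := side_PB one_pos le_rfl
  have hYs : ContDiffOn ℝ ∞ (fun t => Y (-t)) (Ioo (-3) 3) :=
    Y1.comp contDiff_neg.contDiffOn fun t ht => neg_mem_PC ht
  -- values in the three regions
  have vL : ∀ t, t < -1 → Y (-t) = m ∧ gmPC t = m * ε ∧ deriv Y (-t) = 0 ∧
      deriv (deriv Y) (-t) = 0 ∧ phPA t = 0 ∧ deriv phPA t = 0 := fun t ht => by
    obtain ⟨k1, k2, k3⟩ := Y5 (-t) (by linarith)
    refine ⟨by rw [k1, xt_right (by linarith)], by rw [gm_left ht.le, em], ?_, ?_, ph_zero ht.le,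
      ph_deriv_left ht⟩
    · rw [k2, ph_one (by linarith)]; simp
    · rw [k3, ph_deriv_right (by linarith)]; simp
  have vR : ∀ t, 1 < t → X t = m ∧ gmPC t = 0 ∧ deriv X t = 0 ∧
      deriv (deriv X) t = 0 ∧ phPA t = 1 ∧ deriv phPA t = 0 := fun t ht => by
    obtain ⟨k1, k2, k3⟩ := X5 t (by linarith)
    refine ⟨by rw [k1, xt_right ht.le], gm_right ht.le, ?_, ?_, ph_one ht.le, ph_deriv_right ht⟩
    · rw [k2, ph_one ht.le]; simp
    · rw [k3, ph_deriv_right ht]; simp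
  have vM : ∀ t ∈ Icc (-1 : ℝ) 1, X t = xtPB t ∧ Y (-t) = xtPB (-t) ∧
      deriv X t = (1 - phPA t) / 10 ∧ deriv Y (-t) = phPA t / 10 ∧
      deriv (deriv X) t = -deriv phPA t / 10 ∧ deriv (deriv Y) (-t) = -deriv phPA t / 10 :=
    fun t ht => by
    obtain ⟨k1, k2, k3⟩ := X5 t ht.1
    obtain ⟨l1, l2, l3⟩ := Y5 (-t) (by linarith [ht.2])
    exact ⟨k1, l1, k2, by rw [l2, ph_neg]; ring, k3, by rw [l3, ph_deriv_neg]⟩
  have tri : ∀ t : ℝ, t < -1 ∨ t ∈ Icc (-1 : ℝ) 1 ∨ 1 < t := fun t => by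
    rcases lt_or_ge t (-1) with h | h
    · exact Or.inl h
    · rcases le_or_gt t 1 with h' | h'
      · exact Or.inr (Or.inl ⟨h, h'⟩)
      · exact Or.inr (Or.inr h')
  have hdet : ∀ t ∈ Ioo (-3 : ℝ) 3, 0 < (X t + m * ε ^ 2) * Y (-t) - gmPC t ^ 2 := fun t ht => by
    rcases tri t with h | h | h
    · obtain ⟨k1, k2, -⟩ := vL t h
      rw [k1, k2]
      nlinarith [mul_pos (X2 t ht) (show 0 < m by linarith)]
    · obtain ⟨k1, k2, -⟩ := vM t h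
      obtain ⟨⟨g1, g2⟩, -⟩ := gm_mid h
      have a1 := xt_ge h.1
      have a2 := xt_ge (show -1 ≤ -t by linarith [h.2])
      have a3 := ph_nonneg t
      rw [k1, k2]
      have : 1 * 1 ≤ (xtPB t + m * ε ^ 2) * xtPB (-t) :=
        mul_le_mul (by linarith) a2 (by norm_num) (by linarith)
      nlinarith
    · obtain ⟨k1, k2, -⟩ := vR t h
      rw [k1, k2]
      have := Y2 _ (neg_mem_PC ht)
      nlinarith [mul_pos (show 0 < m + m * ε ^ 2 by linarith) this]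
  -- the first derivative of the potential in the three regions
  have fL : ∀ t ∈ Ioo (-3 : ℝ) 3, t < -1 → ∀ p₁ p₂,
      (ndPC X Y ρ₁ ρ₂ m ε).G1 t p₁ p₂ p₁ p₂ = deriv X t * (p₁ / ε) ^ 2 := fun t ht h p₁ p₂ => by
    obtain ⟨-, -, k3, -, k5, -⟩ := vL t h
    rw [G1_PC X1 Y1 e0.ne' ht, k3, k5, bf]; ring
  have fR : ∀ t ∈ Ioo (-3 : ℝ) 3, 1 < t → ∀ p₁ p₂,
      (ndPC X Y ρ₁ ρ₂ m ε).G1 t p₁ p₂ p₁ p₂ = -(deriv Y (-t) * (p₂ - p₁) ^ 2) :=
    fun t ht h p₁ p₂ => by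
    obtain ⟨-, -, k3, -, k5, -⟩ := vR t h
    rw [G1_PC X1 Y1 e0.ne' ht, k3, k5, bf]; ring
  have fM : ∀ t ∈ Icc (-1 : ℝ) 1, ∀ p₁ p₂ q₁ q₂, (ndPC X Y ρ₁ ρ₂ m ε).G1 t p₁ p₂ q₁ q₂ =
      bf ((1 - phPA t) / 10) (-(phPA t / 10)) (-(phPA t * (1 - phPA t)) / 100) (p₁ / ε) (p₂ - p₁)
        (q₁ / ε) (q₂ - q₁) := fun t h p₁ p₂ q₁ q₂ => by
    obtain ⟨-, -, k3, k4, -⟩ := vM t h
    rw [G1_PC X1 Y1 e0.ne' ⟨by linarith [h.1], by linarith [h.2]⟩, k3, k4]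
  have sM : ∀ t ∈ Icc (-1 : ℝ) 1, ∀ p₁ p₂, (ndPC X Y ρ₁ ρ₂ m ε).G2 t p₁ p₂ p₁ p₂ =
      bf (-deriv phPA t / 10) (-deriv phPA t / 10) (-(deriv phPA t * (1 - 2 * phPA t)) / 100)
        (p₁ / ε) (p₂ - p₁) (p₁ / ε) (p₂ - p₁) := fun t h p₁ p₂ => by
    obtain ⟨-, -, -, -, k5, k6⟩ := vM t h
    rw [G2_PC X1 Y1 e0.ne' ⟨by linarith [h.1], by linarith [h.2]⟩, k5, k6]
  have anti : ∀ t ∈ Icc (-1 : ℝ) 1, ∀ t' ∈ Icc (-1 : ℝ) 1, t ≤ t' → ∀ p₁ p₂,
      (ndPC X Y ρ₁ ρ₂ m ε).G1 t' p₁ p₂ p₁ p₂ ≤ (ndPC X Y ρ₁ ρ₂ m ε).G1 t p₁ p₂ p₁ p₂ :=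
    fun t h t' h' hle p₁ p₂ => by
    rw [fM t h, fM t' h']
    exact mono_alg_PC _ _ (ph_mono hle) (ph_nonneg t) (ph_le_one t')
  have pX : ∀ t ∈ Ioo (-3 : ℝ) 3, t < -1 → 0 < deriv X t := fun t ht h => (X6 t ⟨ht.1, h⟩).1
  have pY : ∀ t ∈ Ioo (-3 : ℝ) 3, 1 < t → 0 < deriv Y (-t) := fun t ht h =>
    (Y6 (-t) ⟨by linarith [ht.2], by linarith⟩).1
  have mem1 : (1 : ℝ) ∈ Icc (-1 : ℝ) 1 := ⟨by norm_num, le_rfl⟩
  have mem2 : (-1 : ℝ) ∈ Icc (-1 : ℝ) 1 := ⟨le_rfl, by norm_num⟩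
  refine ⟨ndPC X Y ρ₁ ρ₂ m ε, ?_, hYs, ?_, fun t ht => ?_, fun t ht => ?_, X3, Y3, ?_, ?_,
    fun t ht => ?_, fun t ht => ?_, ?_, ?_, ?_, ?_, ?_⟩
  · exact (((X1.add contDiffOn_const).div_const _).add hYs).sub
      ((contDiffOn_const.mul gm_smooth.contDiffOn).div_const _)
  · exact (gm_smooth.contDiffOn.div_const _).sub hYs
  · have h1 := hdet t ht
    have h2 := Y2 _ (neg_mem_PC ht)
    have : (ndPC X Y ρ₁ ρ₂ m ε).A t = (((X t + m * ε ^ 2) * Y (-t) - gmPC t ^ 2) +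
        (gmPC t - Y (-t) * ε) ^ 2) / (ε ^ 2 * Y (-t)) := by
      simp only [ndPC]; field_simp; ring
    rw [this]; positivity
  · have h1 := hdet t ht
    have : (ndPC X Y ρ₁ ρ₂ m ε).A t * (ndPC X Y ρ₁ ρ₂ m ε).B t - (ndPC X Y ρ₁ ρ₂ m ε).C t ^ 2 =
        ((X t + m * ε ^ 2) * Y (-t) - gmPC t ^ 2) / ε ^ 2 := by
      simp only [ndPC]; field_simp; ring
    rw [this]; positivity
  · exact inv_pos.2 (Real.sqrt_pos.2 (by linarith))
  · exact mul_pos e0 (inv_pos.2 (Real.sqrt_pos.2 (by linarith)))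
  · obtain ⟨k1, k2, -⟩ := vL t (by linarith [ht.2])
    simp only [ndPC]
    rw [k1, k2, X4 t ht.2, inv_pow, inv_inv, Real.sq_sqrt (by linarith)]
    refine ⟨?_, rfl, ?_⟩ <;> field_simp <;> ring
  · obtain ⟨k1, k2, -⟩ := vR t (by linarith [ht.1])
    simp only [ndPC]
    rw [k1, k2, Y4 (-t) (by linarith [ht.1]), mul_pow ε, inv_pow, Real.sq_sqrt (by linarith),
      sub_neg_eq_add]
    have : 0 < m + m * ε ^ 2 := by linarith
    refine ⟨?_, by simp, by simp⟩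
    rw [mul_inv (ε ^ 2), inv_inv]
    field_simp
    ring
  · intro p₁ p₂ t ht t' ht' hle hpos
    have hu : (t' < -1 ∨ t' ∈ Icc (-1 : ℝ) 1) ∧ p₁ / ε ≠ 0 := by
      rcases tri t' with h | h | h
      · refine ⟨Or.inl h, fun h0 => ?_⟩
        rw [fL t' ht' h, h0] at hpos; simp at hpos
      · refine ⟨Or.inr h, fun h0 => ?_⟩
        have := hpos.trans_le (anti _ mem2 _ h h.1 p₁ p₂)
        rw [fM _ mem2, h0, ph_zero le_rfl] at this
        simp [bf] at this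
      · rw [fR t' ht' h] at hpos
        nlinarith [mul_nonneg (pY t' ht' h).le (sq_nonneg (p₂ - p₁))]
    rcases lt_or_ge t (-1) with h | h
    · rw [fL t ht h]; exact mul_pos (pX t ht h) (pow_pos (abs_pos.2 hu.2) 2 |>.trans_eq (sq_abs _))
    · rcases hu.1 with h' | h'
      · linarith
      · exact hpos.trans_le (anti t ⟨h, hle.trans h'.2⟩ t' h' hle p₁ p₂)
  · intro p₁ p₂ t ht t' ht' hle hneg
    have hu : (1 < t ∨ t ∈ Icc (-1 : ℝ) 1) ∧ p₂ - p₁ ≠ 0 := by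
      rcases tri t with h | h | h
      · rw [fL t ht h] at hneg
        nlinarith [mul_nonneg (pX t ht h).le (sq_nonneg (p₁ / ε))]
      · refine ⟨Or.inr h, fun h0 => ?_⟩
        have := (anti _ h _ mem1 h.2 p₁ p₂).trans_lt hneg
        rw [fM _ mem1, h0, ph_one le_rfl] at this
        simp [bf] at this
      · refine ⟨Or.inl h, fun h0 => ?_⟩
        rw [fR t ht h, h0] at hneg; simp at hneg
    rcases lt_or_ge 1 t' with h | h
    · rw [fR t' ht' h]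
      exact neg_neg_of_pos (mul_pos (pY t' ht' h)
        (pow_pos (abs_pos.2 hu.2) 2 |>.trans_eq (sq_abs _)))
    · rcases hu.1 with h' | h'
      · linarith
      · exact (anti t h' t' ⟨h'.1.trans hle, h⟩ hle p₁ p₂).trans_lt hneg
  · intro p₁ p₂ t ht h0
    rcases tri t with h | h | h
    · obtain ⟨-, -, -, k4, -, k6⟩ := vL t h
      rw [fL t ht h] at h0
      have hu : p₁ / ε = 0 := pow_eq_zero_iff (two_ne_zero) |>.1
        ((mul_eq_zero.1 h0).resolve_left (pX t ht h).ne')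
      rw [G2_PC X1 Y1 e0.ne' ht, k4, k6, hu]; simp [bf]
    · rw [sM t h]
      exact conc_alg_PC _ _ ph_mono.deriv_nonneg (ph_nonneg t) (ph_le_one t)
    · obtain ⟨-, -, -, k4, -, k6⟩ := vR t h
      rw [fR t ht h, neg_eq_zero] at h0
      have hu : p₂ - p₁ = 0 := pow_eq_zero_iff (two_ne_zero) |>.1
        ((mul_eq_zero.1 h0).resolve_left (pY t ht h).ne')
      rw [G2_PC X1 Y1 e0.ne' ht, k4, k6, hu]; simp [bf]
  · intro p₁ p₂ t ht hpos
    rcases tri t with h | h | h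
    · obtain ⟨k1, k2, k3, k4, k5, k6⟩ := vL t h
      have hu : p₁ / ε ≠ 0 := fun h0 => by rw [fL t ht h, h0] at hpos; simp at hpos
      have hx := X2 t ht
      have hc := (X6 t ⟨ht.1, h⟩).2
      rw [ND.Phi]
      simp only [G0_PC e0.ne', G1_PC X1 Y1 e0.ne' ht, G2_PC X1 Y1 e0.ne' ht, k1, k2, k3, k4, k5, k6]
      generalize p₁ / ε = u at *
      generalize p₂ - p₁ = z
      have g : bf (X t + m * ε ^ 2) m (m * ε) u z (1 / ε) (0 - 1) = X t * u / ε := by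
        unfold bf; field_simp; ring
      have g' : bf (X t + m * ε ^ 2) m (m * ε) (1 / ε) (0 - 1) (1 / ε) (0 - 1) = X t / ε ^ 2 := by
        unfold bf; field_simp; ring
      rw [g, g']
      refine ⟨div_ne_zero (mul_ne_zero hx.ne' hu) e0.ne', ?_⟩
      have := mul_nonneg (sub_nonneg.2 hc) (show 0 ≤ X t * u ^ 4 / ε ^ 2 / 2 by positivity)
      refine this.trans_eq ?_
      unfold bf; field_simp; ring
    · obtain ⟨k1, k2, -⟩ := vM t h
      obtain ⟨⟨g1, g2⟩, g3, g4⟩ := gm_mid h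
      have a1 := xt_ge h.1
      have a2 := xt_le t
      have a3 := xt_gap (t := -t) ⟨by linarith [h.2], by linarith [h.1]⟩
      have a4 := xt_mono (show -t ≤ 1 by linarith [h.1])
      have a5 := ph_nonneg t
      have a6 := ph_le_one t
      rw [ph_neg, ← hm] at a3
      rw [← hm] at a4
      rw [em] at g3 g4
      rw [ND.Phi, sM t h]
      rw [fM t h] at hpos
      simp only [G0_PC e0.ne', fM t h, k1, k2]
      generalize p₁ / ε = u at *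
      generalize p₂ - p₁ = z at *
      have b1 : gmPC t * ε ≤ 0.001 := by nlinarith
      have b2 : 0 ≤ gmPC t * ε := by positivity
      have b3 : xtPB (-t) * ε ^ 2 ≤ m * ε ^ 2 := by gcongr
      have b4 : 0 ≤ ε * (m - xtPB (-t)) := mul_nonneg e0.le (by linarith)
      have b5 : ε * (m - xtPB (-t)) ≤ 1 / 200 * (phPA t / 5) :=
        mul_le_mul e1 (by linarith) (by linarith) (by norm_num)
      obtain ⟨r1, r2⟩ := alg_PA (1 - phPA t) (phPA t) (deriv phPA t)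
        (xtPB t + m * ε ^ 2 - gmPC t * ε) (gmPC t - ε * xtPB (-t))
        (xtPB t + m * ε ^ 2 - 2 * (gmPC t * ε) + xtPB (-t) * ε ^ 2) ε u z (by ring) (by linarith)
        a5 (ph_logistic t) (by linarith) (abs_le.2 ⟨by linarith, by linarith⟩) (by linarith)
        e0.le e1 (by unfold bf at hpos; linarith)
      refine ⟨fun h0 => r1 ?_, ?_⟩
      · rw [← mul_zero ε, ← h0]; unfold bf; field_simp; ring
      · refine (div_nonneg r2 (sq_nonneg ε)).trans_eq ?_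
        unfold bf; field_simp; ring
    · rw [fR t ht h] at hpos
      nlinarith [mul_nonneg (pY t ht h).le (sq_nonneg (p₂ - p₁))]
  · intro p₁ p₂ t ht hneg
    rcases tri t with h | h | h
    · rw [fL t ht h] at hneg
      nlinarith [mul_nonneg (pX t ht h).le (sq_nonneg (p₁ / ε))]
    · obtain ⟨k1, k2, -⟩ := vM t h
      obtain ⟨⟨g1, g2⟩, -⟩ := gm_mid h
      have a1 := xt_ge (show -1 ≤ -t by linarith [h.2])
      have a2 := xt_le (-t)
      have a5 := ph_nonneg t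
      have a6 := ph_le_one t
      rw [ND.Phi, sM t h]
      rw [fM t h] at hneg
      simp only [G0_PC e0.ne', fM t h, k1, k2]
      generalize p₁ / ε = u at *
      generalize p₂ - p₁ = z at *
      obtain ⟨r1, r2⟩ := alg_PA (phPA t) (1 - phPA t) (deriv phPA t) (xtPB (-t)) (-gmPC t)
        (xtPB (-t)) 0 z (-u) (by ring) a5 (by linarith) (by linarith [ph_logistic t])
        (by linarith) (abs_le.2 ⟨by linarith, by linarith⟩) (by linarith) le_rfl (by norm_num)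
        (by unfold bf at hneg; linarith)
      refine ⟨fun h0 => r1 ?_, ?_⟩
      · rw [← h0]; unfold bf; ring
      · refine r2.trans_eq ?_
        unfold bf; ring
    · obtain ⟨k1, k2, k3, k4, k5, k6⟩ := vR t h
      have hu : p₂ - p₁ ≠ 0 := fun h0 => by rw [fR t ht h, h0] at hneg; simp at hneg
      have hx := Y2 _ (neg_mem_PC ht)
      have hc := (Y6 (-t) ⟨by linarith [ht.2], by linarith⟩).2
      rw [ND.Phi]
      simp only [G0_PC e0.ne', G1_PC X1 Y1 e0.ne' ht, G2_PC X1 Y1 e0.ne' ht, k1, k2, k3, k4, k5, k6]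
      generalize p₁ / ε = u
      generalize p₂ - p₁ = z at *
      refine ⟨fun h0 => mul_ne_zero hx.ne' hu ?_, ?_⟩
      · rw [← h0]; unfold bf; ring
      · have := mul_nonneg (sub_nonneg.2 hc) (show 0 ≤ Y (-t) * z ^ 4 / 2 by positivity)
        refine this.trans_eq ?_
        unfold bf; ring

end Vale.Agent.P255
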