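import Vale.Agent.P255.Theta
import Vale.Agent.P255.Deck

open scoped Manifold ContDiff Topology
open Set Filter

set_option maxSynthPendingDepth 3

namespace Vale.Agent.P255

/-- the larger of the two coordinates of a unit vector -/
noncomputable def mxTop (θ : ℝ) : ℝ := max |Real.cos (2 * Real.pi * θ)| |Real.sin (2 * Real.pi * θ)|

theorem mx_pos_top (θ : ℝ) : 0 < mxTop θ := by
  by_contra h
  have h1 := abs_nonpos_iff.1 ((le_max_left _ _).trans (not_lt.1 h))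
  have h2 := abs_nonpos_iff.1 ((le_max_right _ _).trans (not_lt.1 h))
  have := Real.cos_sq_add_sin_sq (2 * Real.pi * θ)
  rw [h1, h2] at this
  norm_num at this

theorem mx_le_top (θ : ℝ) : mxTop θ ≤ 1 := max_le (Real.abs_cos_le_one _) (Real.abs_sin_le_one _)

theorem mx_eq_top {φ : ℝ} (h : φ ∈ Icc (-1 / 8 : ℝ) (1 / 8)) :
    mxTop φ = Real.cos (2 * Real.pi * φ) := by
  have hπ := Real.pi_pos
  have h0 : |2 * Real.pi * φ| ≤ Real.pi / 4 := abs_le.2 ⟨by nlinarith [h.1], by nlinarith [h.2]⟩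
  have h1 := abs_nonneg (2 * Real.pi * φ)
  have h2 : Real.sin |2 * Real.pi * φ| ≤ Real.cos |2 * Real.pi * φ| := by
    rw [← Real.sin_pi_div_two_sub]
    exact Real.sin_le_sin_of_le_of_le_pi_div_two (by linarith) (by linarith) (by linarith)
  have h3 : 0 ≤ Real.cos |2 * Real.pi * φ| := Real.cos_nonneg_of_mem_Icc ⟨by linarith, by linarith⟩
  rw [Real.cos_abs] at h2 h3
  rw [mxTop, Real.abs_sin_eq_sin_abs_of_abs_le_pi (by linarith), abs_of_nonneg h3, max_eq_left h2]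

/-- the radius function -/
noncomputable def radTop (r θ l : ℝ) : ℝ :=
  (1 - max 0 (min 1 l)) * r + max 0 (min 1 l) / (2 * mxTop θ)

theorem rad_mem_top {R r : ℝ} (hR : 0 ≤ R) (h1 : R < r) (h2 : r ≤ 1 / 2) (θ l z : ℝ) :
    ![radTop r θ l * Real.cos (2 * Real.pi * θ), radTop r θ l * Real.sin (2 * Real.pi * θ), z] ∈
      UF R := by
  have m0 := mx_pos_top θ
  have l0 : 0 ≤ max 0 (min 1 l) := le_max_left _ _
  have l1 : max 0 (min 1 l) ≤ 1 := max_le zero_le_one (min_le_left _ _)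
  have h3 : r ≤ 1 / (2 * mxTop θ) :=
    h2.trans (one_div_le_one_div_of_le (by positivity) (by linarith [mx_le_top θ]))
  have e : radTop r θ l = r + max 0 (min 1 l) * (1 / (2 * mxTop θ) - r) := by rw [radTop]; ring
  have h4 : r ≤ radTop r θ l := by rw [e]; nlinarith
  have h5 : radTop r θ l ≤ 1 / (2 * mxTop θ) := by rw [e]; nlinarith
  have key (c : ℝ) (hc : |c| ≤ mxTop θ) :
      ‖((radTop r θ l * c : ℝ) : UnitAddCircle)‖ ^ 2 = (radTop r θ l * c) ^ 2 := by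
    rw [(AddCircle.norm_coe_eq_abs_iff 1 one_ne_zero).2, sq_abs]
    rw [abs_mul, abs_of_nonneg (by linarith), abs_one]
    refine (mul_le_mul h5 hc (abs_nonneg _) (by positivity)).trans (le_of_eq ?_)
    field_simp
  change R ^ 2 < ‖((_ * _ : ℝ) : UnitAddCircle)‖ ^ 2 + ‖((_ * _ : ℝ) : UnitAddCircle)‖ ^ 2
  rw [key _ (le_max_left _ _), key _ (le_max_right _ _), mul_pow, mul_pow, ← mul_add,
    Real.cos_sq_add_sin_sq, mul_one]
  nlinarith

theorem flat_top (d : ND) (b : Bool) {ρ : ℝ} (hρ : 0 < ρ + 2)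
    (hU : d.U (some b) = UF ((ρ + 2) / (4 * (ρ + 3)))) :
    ∃ F : ℝ × ℝ × ℝ → d.MM, Continuous F ∧
      (∀ θ z, (F (θ, 0, z)).1 = d.Ψ (some b)
        ![(ρ + 5 / 2) / (4 * (ρ + 3)) * Real.cos (2 * Real.pi * θ),
          (ρ + 5 / 2) / (4 * (ρ + 3)) * Real.sin (2 * Real.pi * θ), z]) ∧
      (∀ θ l z, F (θ + 1, l, z) = F (θ, l, z)) ∧ (∀ θ l z, F (θ, l, z + 1) = F (θ, l, z)) ∧
      (∀ φ ∈ Icc (-1 / 8 : ℝ) (1 / 8), ∀ z, F (φ, 1, z) = F (1 / 2 - φ, 1, z)) ∧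
      ∀ φ ∈ Icc (-1 / 8 : ℝ) (1 / 8), ∀ z, F (1 / 4 - φ, 1, z) = F (-1 / 4 + φ, 1, z) := by
  have h0 : 0 < 4 * (ρ + 3) := by linarith
  set r := (ρ + 5 / 2) / (4 * (ρ + 3))
  have hm (θ l z) := rad_mem_top (r := r) (div_pos hρ h0).le
    (div_lt_div_of_pos_right (by linarith) h0) ((div_le_iff₀ h0).2 (by linarith)) θ l z
  have r1 (θ) : radTop r θ 1 = 1 / (2 * mxTop θ) := by simp [radTop]
  refine ⟨fun w => ⟨_, some b, _, hU ▸ hm w.1 w.2.1 w.2.2, rfl⟩, Continuous.subtype_mk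
    ((d.continuous_psi _).comp ?_) _, fun θ z => by simp [radTop], fun θ l z => Subtype.ext ?_,
    fun θ l z => Subtype.ext ((d.psi_flat b _ _).2 ⟨0, 0, -1, by simp⟩),
    fun φ hφ z => Subtype.ext ((d.psi_flat b _ _).2 ⟨-1, 0, 0, ?_⟩),
    fun φ hφ z => Subtype.ext ((d.psi_flat b _ _).2 ⟨0, -1, 0, ?_⟩)⟩
  · have : Continuous fun w : ℝ × ℝ × ℝ => radTop r w.1 w.2.1 :=
      Continuous.add (by fun_prop) (Continuous.div (by fun_prop) (by unfold mxTop; fun_prop)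
        fun w => (mul_pos two_pos (mx_pos_top _)).ne')
    fun_prop
  · simp only [radTop, mxTop, mul_add, mul_one, Real.cos_add_two_pi, Real.sin_add_two_pi]
  · have e : 2 * Real.pi * (1 / 2 - φ) = Real.pi - 2 * Real.pi * φ := by ring
    have e1 : mxTop (1 / 2 - φ) = mxTop φ := by
      rw [mxTop, e, Real.cos_pi_sub, Real.sin_pi_sub, abs_neg, mxTop]
    have := (mx_pos_top φ).ne'
    simp only [r1, e1, e, Real.cos_pi_sub, Real.sin_pi_sub, ← mx_eq_top hφ]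
    simp
    field_simp
    ring
  · have e : 2 * Real.pi * (1 / 4 - φ) = Real.pi / 2 - 2 * Real.pi * φ := by ring
    have e' : 2 * Real.pi * (-1 / 4 + φ) = 2 * Real.pi * φ - Real.pi / 2 := by ring
    have e1 : mxTop (1 / 4 - φ) = mxTop φ := by
      rw [mxTop, e, Real.cos_pi_div_two_sub, Real.sin_pi_div_two_sub, max_comm, mxTop]
    have e2 : mxTop (-1 / 4 + φ) = mxTop φ := by
      rw [mxTop, e', Real.cos_sub_pi_div_two, Real.sin_sub_pi_div_two, abs_neg, max_comm, mxTop]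
    have := (mx_pos_top φ).ne'
    simp only [r1, e1, e2, e, e', Real.cos_pi_div_two_sub, Real.sin_pi_div_two_sub,
      Real.cos_sub_pi_div_two, Real.sin_sub_pi_div_two, ← mx_eq_top hφ]
    simp
    field_simp
    ring

theorem ND.Prof.not_obstruct {d : ND} (h : d.Prof) (p : E3 → d.MM) (hp : IsCoveringMap p)
    (hs : Function.Surjective p) : ¬ Obstruct p := by
  intro ho
  have hm (w : ℝ × ℝ × ℝ) : ![max (-5 / 2) (min (5 / 2) w.1), w.2.1, w.2.2] ∈ UN :=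
    ⟨lt_max_of_lt_left (by norm_num), max_lt (by norm_num) (min_lt_of_left_lt (by norm_num))⟩
  let N : C(ℝ × ℝ × ℝ, d.MM) := ⟨fun w => ⟨_, none, _, hm w, rfl⟩,
    Continuous.subtype_mk ((d.continuous_psi _).comp (by fun_prop)) _⟩
  obtain ⟨x0, hx0⟩ := hs (N 0)
  obtain ⟨G, ⟨-, hG⟩, -⟩ := hp.existsUnique_continuousMap_lifts N 0 x0 hx0
  have G1 (w) : p (G w) = N w := congrFun hG w
  obtain ⟨u, hu, hu'⟩ := deck_of_lifts hp isPreconnected_univ (f := G)
    (f' := fun w => G (w.1, w.2.1 + 1, w.2.2)) (by fun_prop) (by fun_prop) fun w _ => by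
      rw [G1, G1]
      exact Subtype.ext ((h.psi_neck (hm _) (hm _)).2 ⟨rfl, 1, 0, by simp⟩)
  obtain ⟨v, hv, hv'⟩ := deck_of_lifts hp isPreconnected_univ (f := G)
    (f' := fun w => G (w.1, w.2.1, w.2.2 + 1)) (by fun_prop) (by fun_prop) fun w _ => by
      rw [G1, G1]
      exact Subtype.ext ((h.psi_neck (hm _) (hm _)).2 ⟨rfl, 0, 1, by simp⟩)
  have u1 (t x y) : G (t, x + 1, y) = u (G (t, x, y)) := (hu' (t, x, y) trivial).symm
  have v1 (t x y) : G (t, x, y + 1) = v (G (t, x, y)) := (hv' (t, x, y) trivial).symm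
  have c1 : max (-5 / 2) (min (5 / 2) (-5 / 2)) = (-5 / 2 : ℝ) := by norm_num
  have c2 : max (-5 / 2) (min (5 / 2) (5 / 2)) = (5 / 2 : ℝ) := by norm_num
  obtain ⟨F, F1, F2, F3, F4, F5, F6⟩ := flat_top d false h.hρ₁ rfl
  obtain ⟨a₁, b₁, A1, A2, A3, A4, A5⟩ := half hp (fun w => G (-5 / 2, w)) (by fun_prop) u v hu hv
    (u1 _) (v1 _) F F1 (fun θ z => Subtype.ext (by
      rw [F2, G1]
      refine Eq.trans ?_ (h.psi_left (by simp only [Matrix.cons_val_zero, c1]; norm_num)).symm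
      simp only [Matrix.cons_val, c1]
      rw [show d.ρ₁ - -5 / 2 = d.ρ₁ + 5 / 2 by ring])) F3 F4 F5 F6
  obtain ⟨F, F1, F2, F3, F4, F5, F6⟩ := flat_top d true h.hρ₂ rfl
  have huv : p ∘ ⇑(u⁻¹ * v) = p := funext fun x =>
    (congrFun hu _).symm.trans ((congrArg p (u.apply_symm_apply _)).trans (congrFun hv x))
  obtain ⟨a₂, b₂, B1, B2, B3, B4, B5⟩ := half hp (fun w => G (5 / 2, w.2 - w.1, w.1)) (by fun_prop)
    (u⁻¹ * v) u huv hu (fun θ z => by
      refine u.injective (Eq.trans ?_ (u.apply_symm_apply _).symm)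
      refine Eq.trans ?_ (v1 _ _ _)
      rw [← u1]
      congr 3
      ring)
    (fun θ z => by
      rw [← u1]
      congr 3
      ring) F F1 (fun θ z => Subtype.ext (by
      rw [F2, G1]
      refine Eq.trans ?_ (h.psi_right (by simp only [Matrix.cons_val_zero, c2]; norm_num)).symm
      simp only [Matrix.cons_val, c2, sub_add_cancel])) F3 F4 F5 F6
  have h1 := ho u v a₁ b₁ a₂ b₂ hu hv A1 A2 B1 B2 A3 A4 A5 B3 B4 B5
  refine h.theta p hp.continuous (fun x => G (5 / 2, x, 0)) (by fun_prop) (fun x => ?_) ?_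
  · rw [G1]
    change d.Ψ none ![max (-5 / 2) (min (5 / 2) (5 / 2)), x, 0] = _
    rw [c2]
  · have := u1 (5 / 2) 0 0
    rwa [h1, zero_add] at this

end Vale.Agent.P255
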