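import Vale.Agent.P255.Deck
import Vale.Agent.P255.Cat

open scoped Manifold ContDiff Topology
open Set Filter

set_option maxSynthPendingDepth 3

namespace Vale.Agent.P255

variable {E : Type} [NormedAddCommGroup E] [NormedSpace ℝ E] [FiniteDimensional ℝ E]
  {M : Type} [TopologicalSpace M] {ex : M → E → M} {nm : M → E → ℝ}

omit [FiniteDimensional ℝ E] in
theorem ExpData.surjective_Univ [ConnectedSpace M] (h : ExpData ex nm) (m : M) :
    Function.Surjective (ex m) := by
  have hc : IsClosed (range (ex m)) := by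
    rw [← isOpen_compl_iff, isOpen_iff_mem_nhds]
    intro x hx
    obtain ⟨-, U, hxU, hU, -, H, -⟩ := h.cover m x
    refine mem_of_superset (hU.mem_nhds hxU) ?_
    rintro y hy ⟨v, rfl⟩
    exact hx ⟨_, (H ⟨v, hy⟩).2.2⟩
  have h1 := IsClopen.eq_univ ⟨hc, (h.cover m).isOpenMap.isOpen_range⟩ ⟨_, mem_range_self 0⟩
  exact range_eq_univ.1 h1

theorem ExpData.surjective [ConnectedSpace M] (h : ExpData ex nm) (m : M) :
    Function.Surjective (ex m) := h.surjective_Univ m

/-- The charts of the universal cover centred at its points, and their inverses. -/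
structure LKUniv (ex : M → E → M) (m : M) (L K : E → E → E) : Prop where
  Lc : ∀ a, Continuous (L a)
  Kc : ∀ a, Continuous (K a)
  L0 : ∀ a, L a 0 = a
  K0 : ∀ a, K a a = 0
  pL : ∀ a w, ex m (L a w) = ex (ex m a) w
  pK : ∀ a b, ex (ex m a) (K a b) = ex m b
  KL : ∀ a w, K a (L a w) = w
  LK : ∀ a b, L a (K a b) = b

omit [FiniteDimensional ℝ E] in
theorem ExpData.exists_LKUniv (h : ExpData ex nm) (m : M) : ∃ L K, LKUniv ex m L K := by
  have h1 := fun a => ((h.cover m).existsUnique_continuousMap_lifts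
    ⟨ex (ex m a), (h.cover _).continuous⟩ 0 a (h.zero _).symm).exists
  have h2 := fun a => ((h.cover (ex m a)).existsUnique_continuousMap_lifts
    ⟨ex m, (h.cover _).continuous⟩ a 0 (h.zero _)).exists
  choose L L0 pL using h1
  choose K K0 pK using h2
  have pL' : ∀ a w, ex m (L a w) = ex (ex m a) w := fun a w => congrFun (pL a) w
  have pK' : ∀ a b, ex (ex m a) (K a b) = ex m b := fun a b => congrFun (pK a) b
  refine ⟨fun a => L a, fun a => K a, fun a => (L a).continuous, fun a => (K a).continuous, L0,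
    K0, pL', pK', fun a => ?_, fun a => ?_⟩
  · refine congrFun ((h.cover (ex m a)).eq_of_comp_eq (g₁ := fun w => K a (L a w)) (g₂ := id)
      ((K a).continuous.comp (L a).continuous) continuous_id (funext fun w => ?_) 0 ?_)
    · exact (pK' a _).trans (pL' a w)
    · simp only [L0, K0, id]
  · refine congrFun ((h.cover m).eq_of_comp_eq (g₁ := fun b => L a (K a b)) (g₂ := id)
      ((L a).continuous.comp (K a).continuous) continuous_id (funext fun b => ?_) a ?_)
    · exact (pL' a _).trans (pK' a b)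
    · simp only [L0, K0, id]

/-- The group of deck transformations. -/
def deckUniv {X : Type} [TopologicalSpace X] (p : X → M) : Subgroup (X ≃ₜ X) where
  carrier := {φ | p ∘ φ = p}
  one_mem' := rfl
  mul_mem' := by
    intro φ ψ hφ hψ
    funext x
    exact (congrFun hφ (ψ x)).trans (congrFun hψ x)
  inv_mem' := by
    intro φ hφ
    funext x
    have h1 := congrFun hφ (φ.symm x)
    simp only [Function.comp_apply, Homeomorph.apply_symm_apply] at h1
    exact h1.symm

/-- The action of the deck group. -/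
@[reducible] def actUniv {X : Type} [TopologicalSpace X] (p : X → M) :
    MulAction (deckUniv p) X where
  smul φ x := φ.1 x
  one_smul _ := rfl
  mul_smul _ _ _ := rfl

section

variable {m : M} {L K : E → E → E}

omit [FiniteDimensional ℝ E] in
theorem LKUniv.symm (k : LKUniv ex m L K) (h : ExpData ex nm) (a b : E) :
    nm (ex m a) (K a b) = nm (ex m b) (K b a) := by
  obtain ⟨v', h1, h2⟩ := h.rev (ex m a) (K a b)
  rw [k.pK] at h1 h2
  have h3 := (h.cover m).eq_of_comp_eq (g₁ := fun r : ℝ => L b (r • v'))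
    (g₂ := fun r : ℝ => L a ((1 - r) • K a b))
    ((k.Lc b).comp (continuous_id.smul continuous_const))
    ((k.Lc a).comp ((continuous_const.sub continuous_id).smul continuous_const))
    (funext fun r => by simp only [Function.comp_apply, k.pL, h2]) 0
    (by simp only [zero_smul, sub_zero, one_smul, k.L0, k.LK])
  have h4 := congrFun h3 1
  simp only [one_smul, sub_self, zero_smul, k.L0] at h4
  rw [← h1]
  conv_rhs => rw [← h4, k.KL]

omit [FiniteDimensional ℝ E] in
theorem LKUniv.tri (k : LKUniv ex m L K) (h : ExpData ex nm) (x y z : E) :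
    nm (ex m x) (K x z) ≤ nm (ex m x) (K x y) + nm (ex m y) (K y z) := by
  have h1 := h.tri (ex m x) (ex m y) (K y z) (fun s => K x (L y (s • K y z)))
    ((k.Kc x).comp ((k.Lc y).comp (continuous_id.smul continuous_const)))
    (fun s => (k.pK _ _).trans (k.pL _ _))
  simpa only [one_smul, zero_smul, k.L0, k.LK] using h1

omit [FiniteDimensional ℝ E] in
theorem LKUniv.cn (k : LKUniv ex m L K) (h : ExpData ex nm) (y z : E) : ∃ c, ∀ x,
    nm (ex m x) (K x c) ^ 2 ≤
      nm (ex m x) (K x y) ^ 2 / 2 + nm (ex m x) (K x z) ^ 2 / 2 - nm (ex m y) (K y z) ^ 2 / 4 := by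
  refine ⟨L y ((1 / 2 : ℝ) • K y z), fun x => ?_⟩
  have h1 := h.cn (ex m x) (ex m y) (K y z) (fun s => K x (L y (s • K y z)))
    ((k.Kc x).comp ((k.Lc y).comp (continuous_id.smul continuous_const)))
    (fun s => (k.pK _ _).trans (k.pL _ _))
  simpa only [one_smul, zero_smul, k.L0, k.LK] using h1

omit [FiniteDimensional ℝ E] in
theorem LKUniv.iso (k : LKUniv ex m L K) (h : ExpData ex nm) {φ : E ≃ₜ E}
    (hφ : ex m ∘ φ = ex m) (a b : E) :
    nm (ex m (φ a)) (K (φ a) (φ b)) = nm (ex m a) (K a b) := by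
  have h0 : ∀ x, ex m (φ x) = ex m x := congrFun hφ
  have h1 := (h.cover (ex m a)).eq_of_comp_eq (g₁ := fun x => K (φ a) (φ x)) (g₂ := K a)
    ((k.Kc _).comp φ.continuous) (k.Kc a)
    (funext fun x => by
      have h2 := k.pK (φ a) (φ x)
      rw [h0, h0] at h2
      exact h2.trans (k.pK a x).symm) a (by simp only [k.K0])
  rw [h0, congrFun h1 b]

theorem ExpData.finite_Univ [T2Space M] (h : ExpData ex nm) (q : M) (R : ℝ) :
    (ex q ⁻¹' {q} ∩ {v | nm q v ≤ R}).Finite := by
  have h1 : IsClosed (ex q ⁻¹' {q} ∩ {v | nm q v ≤ R}) :=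
    (isClosed_singleton.preimage (h.cover q).continuous).inter
      (isClosed_le (h.cont q) continuous_const)
  have h2 : IsCompact (ex q ⁻¹' {q} ∩ {v | nm q v ≤ R}) :=
    Metric.isCompact_of_isClosed_isBounded h1 ((h.bdd q R).subset inter_subset_right)
  have h3 : IsDiscrete (ex q ⁻¹' {q}) := ⟨(h.cover q q).1⟩
  exact h2.finite (h3.mono inter_subset_left)

theorem LKUniv.hmin [CompactSpace M] [T2Space M] (k : LKUniv ex m L K) (h : ExpData ex nm)
    {φ : E ≃ₜ E} (hφ : ex m ∘ φ = ex m) :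
    ∃ x, ∀ y, nm (ex m x) (K x (φ x)) ≤ nm (ex m y) (K y (φ y)) := by
  have h0 : ∀ x, ex m (φ x) = ex m x := congrFun hφ
  obtain ⟨δ, hδ⟩ : ∃ δ : E → ℝ, ∀ x, δ x = nm (ex m x) (K x (φ x)) := ⟨_, fun _ => rfl⟩
  simp only [← hδ]
  have hb : BddBelow (range δ) := ⟨0, by rintro _ ⟨x, rfl⟩; rw [hδ]; exact h.nonneg _ _⟩
  have hI : sInf (range δ) ∈ closure (range δ) := csInf_mem_closure (range_nonempty δ) hb
  have hne : (comap δ (𝓝 (sInf (range δ)))).NeBot := by
    refine comap_neBot fun t ht => ?_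
    obtain ⟨_, h1, x, rfl⟩ := mem_closure_iff_nhds.1 hI t ht
    exact ⟨x, h1⟩
  obtain ⟨q, hq⟩ := exists_clusterPt_of_compactSpace (map (ex m) (comap δ (𝓝 (sInf (range δ)))))
  have key : ∀ η > 0, ∃ x, ex m x = q ∧ δ x ≤ sInf (range δ) + 3 * η := by
    intro η hη
    have h1 : ex q '' {w | nm q w < η} ∈ 𝓝 q := by
      refine ((h.cover q).isOpenMap _ (isOpen_lt (h.cont q) continuous_const)).mem_nhds
        ⟨0, ?_, h.zero q⟩
      show nm q 0 < η
      rw [(h.eq_zero q 0).2 rfl]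
      exact hη
    have h2 : ex m '' (δ ⁻¹' Iio (sInf (range δ) + η)) ∈
        map (ex m) (comap δ (𝓝 (sInf (range δ)))) :=
      image_mem_map (preimage_mem_comap (Iio_mem_nhds (by linarith)))
    obtain ⟨_, ⟨w, hw, rfl⟩, x, hx, hxw⟩ := clusterPt_iff_nonempty.1 hq h1 h2
    obtain ⟨v', h3, h4⟩ := h.rev q w
    have h5 := h4 1
    rw [one_smul, sub_self, zero_smul, h.zero, ← hxw] at h5
    rw [← hxw] at h3
    have h6 : nm (ex m x) (K x (L x v')) < η := by
      rw [k.KL, h3]
      exact hw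
    refine ⟨L x v', (k.pL _ _).trans h5, ?_⟩
    have h7 := k.tri h (L x v') x (φ (L x v'))
    have h8 := k.tri h x (φ x) (φ (L x v'))
    have h9 := k.iso h hφ x (L x v')
    have h10 := k.symm h x (L x v')
    have h11 : δ x < sInf (range δ) + η := hx
    rw [hδ] at h11 ⊢
    linarith
  have hfin : (δ '' {x | ex m x = q ∧ δ x ≤ sInf (range δ) + 3}).Finite := by
    refine ((h.finite_Univ q (sInf (range δ) + 3)).image (nm q)).subset ?_
    rintro _ ⟨x, ⟨hx1, hx2⟩, rfl⟩
    refine ⟨K x (φ x), ⟨?_, ?_⟩, ?_⟩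
    · have h1 := k.pK x (φ x)
      rw [h0, hx1] at h1
      exact h1
    · show nm q (K x (φ x)) ≤ _
      rw [← hx1, ← hδ]
      exact hx2
    · rw [hδ, hx1]
  obtain ⟨x₁, hx₁⟩ := key 1 one_pos
  rw [mul_one] at hx₁
  obtain ⟨_, ⟨x₀, hx₀, rfl⟩, hmin⟩ := hfin.exists_minimal ⟨_, x₁, hx₁, rfl⟩
  refine ⟨x₀, fun y => le_trans ?_ (csInf_le hb (mem_range_self y))⟩
  refine le_of_forall_pos_le_add fun η hη => ?_
  obtain ⟨x, hx1, hx2⟩ := key (min 1 (η / 3)) (lt_min one_pos (by linarith))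
  have h1 := min_le_left 1 (η / 3)
  have h2 := min_le_right 1 (η / 3)
  rcases le_total (δ x₀) (δ x) with h3 | h3
  · linarith
  · have h4 := hmin ⟨x, ⟨hx1, by linarith⟩, rfl⟩ h3
    linarith

end

theorem ExpData.obstruct [CompactSpace M] [ConnectedSpace M] [T2Space M] (h : ExpData ex nm)
    (m : M) : Obstruct (ex m) := by
  intro u v a₁ b₁ a₂ b₂ hu hv ha₁ hb₁ ha₂ hb₂ h₁ h₂ h₃ h₄ h₅ h₆
  obtain ⟨L, K, k⟩ := h.exists_LKUniv m
  letI := actUniv (ex m)
  have key := cat_obstruct (X := E) (Γ := deckUniv (ex m)) (fun a b => nm (ex m a) (K a b))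
    (fun _ _ => h.nonneg _ _) (fun x => (h.eq_zero _ _).2 (k.K0 x)) (k.symm h) (k.tri h)
    (fun f x y => k.iso h f.2 x y) (k.cn h) (fun f => k.hmin h f.2)
    (fun f x hx => by
      have h1 : K x (f.1 x) = 0 := (h.eq_zero _ _).1 hx
      have h2 := k.LK x (f.1 x)
      rw [h1, k.L0] at h2
      exact Subtype.ext (deck_ext (h.cover m) f.2 rfl h2.symm))
    ⟨u, hu⟩ ⟨v, hv⟩ ⟨a₁, ha₁⟩ ⟨b₁, hb₁⟩ ⟨a₂, ha₂⟩ ⟨b₂, hb₂⟩ (Subtype.ext h₁) (Subtype.ext h₂)
    (Subtype.ext h₃) (Subtype.ext h₄) (Subtype.ext h₅) (Subtype.ext h₆)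
  exact congrArg Subtype.val key

end Vale.Agent.P255
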