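import Vale.Agent.P255.Bridge
import Vale.Agent.P255.Key3
import Vale.Agent.P255.Univ
import Vale.Agent.P255.Pres
import Vale.Agent.P255.Profile
import Vale.Agent.P255.ModelP
import Vale.Agent.P255.Conn
import Vale.Agent.P255.Top
import Vale.Agent.P255.ModelC

open scoped Manifold ContDiff Topology
open Set Filter

set_option maxSynthPendingDepth 3

namespace Vale.Agent.P255

theorem main : ∃ (M : Type) (_ : TopologicalSpace M) (_ : ChartedSpace (Fin 3 → ℝ) M)
    (_ : IsManifold 𝓘(ℝ, Fin 3 → ℝ) ∞ M), CompactSpace M ∧ T2Space M ∧ ConnectedSpace M ∧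
    AdmitsNoConj (Fin 3 → ℝ) M ∧ ¬ AdmitsNonpos (Fin 3 → ℝ) M := by
  obtain ⟨d, hd⟩ := exists_prof
  obtain ⟨i1, i2, g, hc, hg, hs⟩ := hd.pres.exists_manifold
  have hconn : ConnectedSpace d.MM := hd.connected
  refine ⟨d.MM, inferInstance, i1, i2, hc, inferInstance, hconn, ?_, ?_⟩
  · obtain ⟨g', hg'⟩ := hg.exists_metric
    exact ⟨g', hg' ▸ hd.noConj hg hs⟩
  · rintro ⟨g', hg'⟩
    have h1 := isRM_of_metric g'
    have h2 : NPC (E := E3) (M := d.MM) g'.inner := fun e he y hy u v =>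
      (h1.cm he).nonpos hy (hg' e he y hy) u v
    obtain ⟨ex, nm, hex⟩ := h1.exists_expData h2
    obtain ⟨m⟩ : Nonempty d.MM := inferInstance
    exact hd.not_obstruct (ex m) (hex.cover m) (hex.surjective m) (hex.obstruct m)

end Vale.Agent.P255
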