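import Vale.Agent.P255.Base

/-! The concrete model: two flat three-tori with a tube removed, joined by a neck. -/

open scoped Manifold ContDiff Topology Real
open Set

set_option maxSynthPendingDepth 3

namespace Vale.Agent.P255

/-- The model space. -/
abbrev E3 : Type := Fin 3 → ℝ

/-- The symmetric bilinear form with matrix `[[a, c], [c, b]]`. -/
def bf (a b c p₁ p₂ q₁ q₂ : ℝ) : ℝ := a * p₁ * q₁ + c * (p₁ * q₂ + p₂ * q₁) + b * p₂ * q₂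

/-- Data of the neck: the dual metric `[[A, C], [C, B]]` on the tori, and the collar constants. -/
structure ND where
  A : ℝ → ℝ
  B : ℝ → ℝ
  C : ℝ → ℝ
  ρ₁ : ℝ
  ρ₂ : ℝ
  l₁ : ℝ
  l₂ : ℝ

namespace ND

variable (d : ND)

/-- The dual metric `G_t(p,q)`. -/
noncomputable def G0 (t p₁ p₂ q₁ q₂ : ℝ) : ℝ := bf (d.A t) (d.B t) (d.C t) p₁ p₂ q₁ q₂
/-- `G_t'(p,q)`. -/
noncomputable def G1 (t p₁ p₂ q₁ q₂ : ℝ) : ℝ :=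
  bf (deriv d.A t) (deriv d.B t) (deriv d.C t) p₁ p₂ q₁ q₂
/-- `G_t''(p,q)`. -/
noncomputable def G2 (t p₁ p₂ q₁ q₂ : ℝ) : ℝ :=
  bf (deriv (deriv d.A) t) (deriv (deriv d.B) t) (deriv (deriv d.C) t) p₁ p₂ q₁ q₂

/-- The quantity `Φ_e · G(p,e)²`. -/
noncomputable def Phi (t p₁ p₂ e₁ e₂ : ℝ) : ℝ :=
  -d.G2 t p₁ p₂ p₁ p₂ * d.G0 t p₁ p₂ e₁ e₂ ^ 2 +
    2 * d.G1 t p₁ p₂ p₁ p₂ * d.G1 t p₁ p₂ e₁ e₂ * d.G0 t p₁ p₂ e₁ e₂ -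
    d.G1 t p₁ p₂ p₁ p₂ ^ 2 * d.G0 t e₁ e₂ e₁ e₂ / 2

/-- The properties of the neck profile. -/
structure Prof : Prop where
  smA : ContDiffOn ℝ ∞ d.A (Ioo (-3) 3)
  smB : ContDiffOn ℝ ∞ d.B (Ioo (-3) 3)
  smC : ContDiffOn ℝ ∞ d.C (Ioo (-3) 3)
  posA : ∀ t ∈ Ioo (-3 : ℝ) 3, 0 < d.A t
  posD : ∀ t ∈ Ioo (-3 : ℝ) 3, 0 < d.A t * d.B t - d.C t ^ 2
  hρ₁ : 0 < d.ρ₁ + 2
  hρ₂ : 0 < d.ρ₂ + 2
  hl₁ : 0 < d.l₁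
  hl₂ : 0 < d.l₂
  left : ∀ t ∈ Ioc (-3 : ℝ) (-2),
    d.A t = ((2 * π * (d.ρ₁ - t)) ^ 2)⁻¹ ∧ d.B t = (d.l₁ ^ 2)⁻¹ ∧ d.C t = 0
  right : ∀ t ∈ Ico (2 : ℝ) 3, d.A t = (d.l₂ ^ 2)⁻¹ + ((2 * π * (d.ρ₂ + t)) ^ 2)⁻¹ ∧
    d.B t = ((2 * π * (d.ρ₂ + t)) ^ 2)⁻¹ ∧ d.C t = -((2 * π * (d.ρ₂ + t)) ^ 2)⁻¹
  uniL : ∀ p₁ p₂, ∀ t ∈ Ioo (-3 : ℝ) 3, ∀ t' ∈ Ioo (-3 : ℝ) 3, t ≤ t' →
    0 < d.G1 t' p₁ p₂ p₁ p₂ → 0 < d.G1 t p₁ p₂ p₁ p₂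
  uniR : ∀ p₁ p₂, ∀ t ∈ Ioo (-3 : ℝ) 3, ∀ t' ∈ Ioo (-3 : ℝ) 3, t ≤ t' →
    d.G1 t p₁ p₂ p₁ p₂ < 0 → d.G1 t' p₁ p₂ p₁ p₂ < 0
  crit : ∀ p₁ p₂, ∀ t ∈ Ioo (-3 : ℝ) 3, d.G1 t p₁ p₂ p₁ p₂ = 0 → d.G2 t p₁ p₂ p₁ p₂ ≤ 0
  phiL : ∀ p₁ p₂, ∀ t ∈ Ioo (-3 : ℝ) 3, 0 < d.G1 t p₁ p₂ p₁ p₂ →
    d.G0 t p₁ p₂ 1 0 ≠ 0 ∧ 0 ≤ d.Phi t p₁ p₂ 1 0
  phiR : ∀ p₁ p₂, ∀ t ∈ Ioo (-3 : ℝ) 3, d.G1 t p₁ p₂ p₁ p₂ < 0 →
    d.G0 t p₁ p₂ 0 1 ≠ 0 ∧ 0 ≤ d.Phi t p₁ p₂ 0 1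

/-- Entries of the metric `h_t = G_t⁻¹` on the tori. -/
noncomputable def h11 (t : ℝ) : ℝ := d.B t / (d.A t * d.B t - d.C t ^ 2)
noncomputable def h22 (t : ℝ) : ℝ := d.A t / (d.A t * d.B t - d.C t ^ 2)
noncomputable def h12 (t : ℝ) : ℝ := -d.C t / (d.A t * d.B t - d.C t ^ 2)

/-- `h_t'(v,w)`. -/
noncomputable def H1 (t v₁ v₂ w₁ w₂ : ℝ) : ℝ :=
  bf (deriv d.h11 t) (deriv d.h22 t) (deriv d.h12 t) v₁ v₂ w₁ w₂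

end ND

/-- The form ` (v,w) ↦ v i * w j`. -/
noncomputable def qf (i j : Fin 3) : E3 →L[ℝ] E3 →L[ℝ] ℝ :=
  (ContinuousLinearMap.proj (R := ℝ) (φ := fun _ : Fin 3 => ℝ) i).smulRight
    (ContinuousLinearMap.proj (R := ℝ) (φ := fun _ : Fin 3 => ℝ) j)

@[simp] lemma qf_apply (i j : Fin 3) (v w : E3) : qf i j v w = v i * w j := by simp [qf]

/-- The neck metric `dt² + h_t`. -/
noncomputable def ND.GN (d : ND) (y : E3) : E3 →L[ℝ] E3 →L[ℝ] ℝ :=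
  qf 0 0 + d.h11 (y 0) • qf 1 1 + d.h12 (y 0) • (qf 1 2 + qf 2 1) + d.h22 (y 0) • qf 2 2

/-- The neck domain. -/
def UN : Set E3 := {y | y 0 ∈ Ioo (-3 : ℝ) 3}

/-- The flat metric `D²(dX² + dY²) + l² dZ²`. -/
noncomputable def GF (D l : ℝ) : E3 →L[ℝ] E3 →L[ℝ] ℝ :=
  D ^ 2 • (qf 0 0 + qf 1 1) + l ^ 2 • qf 2 2

/-- The flat domain: points at distance more than `R` from the lattice lines. -/
def UF (R : ℝ) : Set E3 :=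
  {y | R ^ 2 < ‖(y 0 : UnitAddCircle)‖ ^ 2 + ‖(y 1 : UnitAddCircle)‖ ^ 2}

/-- `exp (2 π i s)`. -/
noncomputable def ec (s : ℝ) : ℂ := Complex.exp (2 * π * s * Complex.I)

/-- One half of the ambient space. -/
abbrev ZH : Type := UnitAddCircle × UnitAddCircle × ℂ

/-- Cut-off: `1` for `t ≤ -2`, `0` for `2 ≤ t`, linear between. -/
noncomputable def mu (t : ℝ) : ℝ := max 0 (min 1 ((2 - t) / 4))

/-- Model radius: ` (ρ - t) / (4 (ρ + 3))` for `t ≤ -2`, and `0` for `2 ≤ t`. -/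
noncomputable def lam (ρ t : ℝ) : ℝ := mu t * ((ρ - min t (-2)) / (4 * (ρ + 3)))

/-- Polar half point. -/
noncomputable def pol (ρ t θ ζ : ℝ) : ZH :=
  (((lam ρ t * Real.cos (2 * π * θ) : ℝ) : UnitAddCircle),
    ((lam ρ t * Real.sin (2 * π * θ) : ℝ) : UnitAddCircle), (mu t : ℂ) * ec ζ)

/-- Flat half point. -/
noncomputable def fl (y : E3) : ZH := ((y 0 : UnitAddCircle), (y 1 : UnitAddCircle), ec (y 2))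

/-- Sheets: `none` is the neck, `some false` the left and `some true` the right flat piece. -/
noncomputable def ND.U (d : ND) : Option Bool → Set E3
  | none => UN
  | some false => UF ((d.ρ₁ + 2) / (4 * (d.ρ₁ + 3)))
  | some true => UF ((d.ρ₂ + 2) / (4 * (d.ρ₂ + 3)))

noncomputable def ND.Ψ (d : ND) : Option Bool → E3 → ZH × ZH
  | none => fun y => (pol d.ρ₁ (y 0) (y 1) (y 2), pol d.ρ₂ (-y 0) (y 2) (y 1 + y 2))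
  | some false => fun y => (fl y, 0)
  | some true => fun y => (0, fl y)

noncomputable def ND.G (d : ND) : Option Bool → E3 → E3 →L[ℝ] E3 →L[ℝ] ℝ
  | none => d.GN
  | some false => fun _ => GF (4 * (d.ρ₁ + 3)) d.l₁
  | some true => fun _ => GF (4 * (d.ρ₂ + 3)) d.l₂

/-- The graph manifold. -/
abbrev ND.MM (d : ND) : Type := PM d.U d.Ψ

/-! ### The monotone quadratic form on the neck -/

namespace ND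

variable (d : ND)

/-- `Q₀` evaluated on `δ + c X`, `X` the Hamiltonian field. -/
noncomputable def Qc (c t τ p₁ p₂ dt dτ dx dy q₁ q₂ : ℝ) : ℝ :=
  (dτ - c * d.G1 t p₁ p₂ p₁ p₂ / 2) * (dt + c * τ) +
    q₁ * (dx + c * d.G0 t p₁ p₂ 1 0) + q₂ * (dy + c * d.G0 t p₁ p₂ 0 1)

/-- The geometric form `⟨J, J'⟩`. -/
noncomputable def Qg (t τ p₁ p₂ dt dτ dx dy q₁ q₂ : ℝ) : ℝ :=
  dτ * dt + q₁ * dx + q₂ * dy + τ * d.H1 t dx dy dx dy / 2 -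
    dt * d.H1 t (d.G0 t p₁ p₂ 1 0) (d.G0 t p₁ p₂ 0 1) dx dy

/-- Cut-off: `0` for `|t| ≤ 2`, `1` for `5/2 ≤ |t|`. -/
noncomputable def om (t : ℝ) : ℝ :=
  Real.smoothTransition (2 * t - 4) + Real.smoothTransition (-2 * t - 4)

open Classical in
/-- The monotone form, chosen according to the type of the trajectory. -/
noncomputable def NQ (t τ p₁ p₂ dt dτ dx dy q₁ q₂ : ℝ) : ℝ :=
  if ∃ t' ∈ Ioo (-3 : ℝ) 3, τ ^ 2 + d.G0 t p₁ p₂ p₁ p₂ < d.G0 t' p₁ p₂ p₁ p₂ then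
    if 0 < d.G1 t p₁ p₂ p₁ p₂ then d.Qc (-dx / d.G0 t p₁ p₂ 1 0) t τ p₁ p₂ dt dτ dx dy q₁ q₂
    else d.Qc (-dy / d.G0 t p₁ p₂ 0 1) t τ p₁ p₂ dt dτ dx dy q₁ q₂
  else if τ = 0 then d.Qc 0 t τ p₁ p₂ dt dτ dx dy q₁ q₂
  else (1 - om t) * d.Qc (-dt / τ) t τ p₁ p₂ dt dτ dx dy q₁ q₂ +
    om t * d.Qg t τ p₁ p₂ dt dτ dx dy q₁ q₂

/-- The Hamiltonian form of the geodesic and Jacobi equations at time `r`. -/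
structure Ham (t τ p₁ p₂ dt dτ dx dy q₁ q₂ : ℝ → ℝ) (r : ℝ) : Prop where
  mem : t r ∈ Ioo (-3 : ℝ) 3
  ht : HasDerivAt t (τ r) r
  hτ : HasDerivAt τ (-d.G1 (t r) (p₁ r) (p₂ r) (p₁ r) (p₂ r) / 2) r
  hp₁ : HasDerivAt p₁ 0 r
  hp₂ : HasDerivAt p₂ 0 r
  hdt : HasDerivAt dt (dτ r) r
  hdτ : HasDerivAt dτ (-d.G2 (t r) (p₁ r) (p₂ r) (p₁ r) (p₂ r) * dt r / 2 -
    d.G1 (t r) (p₁ r) (p₂ r) (q₁ r) (q₂ r)) r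
  hdx : HasDerivAt dx (d.G0 (t r) (q₁ r) (q₂ r) 1 0 + d.G1 (t r) (p₁ r) (p₂ r) 1 0 * dt r) r
  hdy : HasDerivAt dy (d.G0 (t r) (q₁ r) (q₂ r) 0 1 + d.G1 (t r) (p₁ r) (p₂ r) 0 1 * dt r) r
  hq₁ : HasDerivAt q₁ 0 r
  hq₂ : HasDerivAt q₂ 0 r

/-- The variation of the energy. -/
noncomputable def dH (t τ p₁ p₂ dt dτ q₁ q₂ : ℝ) : ℝ :=
  τ * dτ + d.G1 t p₁ p₂ p₁ p₂ * dt / 2 + d.G0 t p₁ p₂ q₁ q₂

/-- Momenta of the velocity `w`. -/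
noncomputable def P1 (t : ℝ) (w : E3) : ℝ := d.h11 t * w 1 + d.h12 t * w 2
noncomputable def P2 (t : ℝ) (w : E3) : ℝ := d.h12 t * w 1 + d.h22 t * w 2
/-- Variations of the momenta, `j` the field and `k` its derivative. -/
noncomputable def R1 (t : ℝ) (w j k : E3) : ℝ := d.P1 t k + j 0 * d.H1 t (w 1) (w 2) 1 0
noncomputable def R2 (t : ℝ) (w j k : E3) : ℝ := d.P2 t k + j 0 * d.H1 t (w 1) (w 2) 0 1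

/-- The monotone form in terms of position, velocity, field and its derivative. -/
noncomputable def NQv (t : ℝ) (w j k : E3) : ℝ :=
  d.NQ t (w 0) (d.P1 t w) (d.P2 t w) (j 0) (k 0) (j 1) (j 2) (d.R1 t w j k) (d.R2 t w j k)

end ND

end Vale.Agent.P255
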