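import Vale.Agent.P255.Model

open scoped Manifold ContDiff Topology
open Set Filter

set_option maxSynthPendingDepth 3

namespace Vale.Agent.P255

/-! ### The circle and the exponential -/

theorem circ_iff_MA (a b : ℝ) :
    (a : UnitAddCircle) = (b : UnitAddCircle) ↔ ∃ k : ℤ, b = a + k := by
  rw [eq_comm, ← sub_eq_zero, ← AddCircle.coe_sub, AddCircle.coe_eq_zero_iff]
  constructor
  · rintro ⟨k, hk⟩
    refine ⟨k, ?_⟩
    rw [zsmul_eq_mul, mul_one] at hk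
    linarith
  · rintro ⟨k, hk⟩
    refine ⟨k, ?_⟩
    rw [zsmul_eq_mul, mul_one]
    linarith

theorem circ_inj_MA {a b : ℝ} (ha : |a| < 1 / 4) (hb : |b| < 1 / 4)
    (h : (a : UnitAddCircle) = (b : UnitAddCircle)) : a = b := by
  obtain ⟨k, hk⟩ := (circ_iff_MA a b).1 h
  obtain ⟨h1, h2⟩ := abs_lt.1 ha
  obtain ⟨h3, h4⟩ := abs_lt.1 hb
  have h5 : (k : ℝ) < 1 := by linarith
  have h6 : (-1 : ℝ) < k := by linarith
  have h7 : k < 1 := by exact_mod_cast h5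
  have h8 : -1 < k := by exact_mod_cast h6
  have h9 : k = 0 := by omega
  rw [h9] at hk
  simpa using hk.symm

theorem circ_norm_MA (a : ℝ) : ‖(a : UnitAddCircle)‖ ^ 2 ≤ a ^ 2 := by
  have h : ‖(a : UnitAddCircle)‖ ≤ ‖a‖ := QuotientAddGroup.norm_mk_le_norm
  rw [Real.norm_eq_abs] at h
  calc ‖(a : UnitAddCircle)‖ ^ 2 ≤ |a| ^ 2 := by gcongr
    _ = a ^ 2 := sq_abs a

theorem ec_iff_MA (a b : ℝ) : ec a = ec b ↔ ∃ k : ℤ, b = a + k := by
  rw [eq_comm, ec, ec, Complex.exp_eq_exp_iff_exists_int]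
  have hp : (2 * Real.pi * Complex.I : ℂ) ≠ 0 := Complex.two_pi_I_ne_zero
  constructor
  · rintro ⟨k, hk⟩
    refine ⟨k, ?_⟩
    have h1 : (b : ℂ) = a + k := by
      apply mul_right_cancel₀ hp
      linear_combination hk
    exact_mod_cast h1
  · rintro ⟨k, hk⟩
    refine ⟨k, ?_⟩
    rw [hk]
    push_cast
    ring

theorem norm_ec_MA (a : ℝ) : ‖ec a‖ = 1 := by
  have h : ec a = Complex.exp (((2 * Real.pi * a : ℝ) : ℂ) * Complex.I) := by
    rw [ec]
    push_cast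
    rfl
  rw [h, Complex.norm_exp_ofReal_mul_I]

theorem ec_ne_MA (a : ℝ) : ec a ≠ 0 := Complex.exp_ne_zero _

theorem ec_eq_MA (a : ℝ) :
    ec a = (Real.cos (2 * Real.pi * a) : ℂ) + (Real.sin (2 * Real.pi * a) : ℂ) * Complex.I := by
  rw [ec, Complex.ofReal_cos, Complex.ofReal_sin, ← Complex.exp_mul_I]
  push_cast
  rfl

theorem cos_int_MA (a : ℝ) (k : ℤ) :
    Real.cos (2 * Real.pi * (a + k)) = Real.cos (2 * Real.pi * a) := by
  rw [show 2 * Real.pi * (a + k) = 2 * Real.pi * a + k * (2 * Real.pi) by ring,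
    Real.cos_add_int_mul_two_pi]

theorem sin_int_MA (a : ℝ) (k : ℤ) :
    Real.sin (2 * Real.pi * (a + k)) = Real.sin (2 * Real.pi * a) := by
  rw [show 2 * Real.pi * (a + k) = 2 * Real.pi * a + k * (2 * Real.pi) by ring,
    Real.sin_add_int_mul_two_pi]

theorem continuous_ec_MA : Continuous ec := by
  unfold ec
  fun_prop

/-! ### The cut-off and the radius -/

theorem mu_nonneg_MA (t : ℝ) : 0 ≤ mu t := le_max_left _ _

theorem mu_le_MA (t : ℝ) : mu t ≤ 1 := max_le zero_le_one (min_le_left _ _)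

theorem mu_left_MA {t : ℝ} (ht : t ≤ -2) : mu t = 1 := by
  rw [mu, min_eq_left (by linarith), max_eq_right zero_le_one]

theorem mu_right_MA {t : ℝ} (ht : 2 ≤ t) : mu t = 0 := by
  rw [mu, max_eq_left (min_le_of_right_le (by linarith))]

theorem mu_mid_MA {t : ℝ} (h1 : -2 ≤ t) (h2 : t ≤ 2) : mu t = (2 - t) / 4 := by
  rw [mu, min_eq_right (by linarith), max_eq_right (by linarith)]

theorem mu_pos_MA {t : ℝ} (ht : t < 2) : 0 < mu t :=
  lt_max_of_lt_right (lt_min one_pos (by linarith))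

theorem le_of_mu_MA {t : ℝ} (ht : mu t = 1) : t ≤ -2 := by
  by_contra h
  rw [not_le] at h
  rcases le_total t 2 with h2 | h2
  · rw [mu_mid_MA h.le h2] at ht
    linarith
  · rw [mu_right_MA h2] at ht
    linarith

theorem lam_left_MA (ρ : ℝ) {t : ℝ} (ht : t ≤ -2) : lam ρ t = (ρ - t) / (4 * (ρ + 3)) := by
  rw [lam, mu_left_MA ht, min_eq_left ht, one_mul]

theorem lam_right_MA (ρ : ℝ) {t : ℝ} (ht : 2 ≤ t) : lam ρ t = 0 := by
  rw [lam, mu_right_MA ht, zero_mul]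

theorem rad_pos_MA {ρ : ℝ} (hρ : 0 < ρ + 2) (t : ℝ) : 0 < (ρ - min t (-2)) / (4 * (ρ + 3)) :=
  div_pos (by linarith [min_le_right t (-2)]) (by linarith)

theorem lam_nonneg_MA {ρ : ℝ} (hρ : 0 < ρ + 2) (t : ℝ) : 0 ≤ lam ρ t :=
  mul_nonneg (mu_nonneg_MA t) (rad_pos_MA hρ t).le

theorem lam_pos_MA {ρ : ℝ} (hρ : 0 < ρ + 2) {t : ℝ} (ht : t < 2) : 0 < lam ρ t :=
  mul_pos (mu_pos_MA ht) (rad_pos_MA hρ t)

theorem lam_lt_MA {ρ : ℝ} (hρ : 0 < ρ + 2) {t : ℝ} (ht : -3 < t) : lam ρ t < 1 / 4 := by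
  have h1 : (ρ - min t (-2)) / (4 * (ρ + 3)) < 1 / 4 := by
    rw [div_lt_div_iff₀ (by linarith) (by norm_num)]
    have : -3 < min t (-2) := lt_min ht (by norm_num)
    linarith
  calc lam ρ t ≤ 1 * ((ρ - min t (-2)) / (4 * (ρ + 3))) :=
        mul_le_mul_of_nonneg_right (mu_le_MA t) (rad_pos_MA hρ t).le
    _ < 1 / 4 := by rwa [one_mul]

theorem continuous_mu_MA : Continuous mu := by
  unfold mu
  fun_prop

theorem continuous_lam_MA (ρ : ℝ) : Continuous (lam ρ) := by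
  unfold lam
  exact continuous_mu_MA.mul (by fun_prop)

/-! ### Polar and flat half points -/

theorem pol_right_MA (ρ : ℝ) {t : ℝ} (ht : 2 ≤ t) (θ ζ : ℝ) : pol ρ t θ ζ = 0 := by
  rw [pol, lam_right_MA ρ ht, mu_right_MA ht]
  simp

theorem pol_left_MA (ρ : ℝ) {t : ℝ} (ht : t ≤ -2) (θ ζ : ℝ) :
    pol ρ t θ ζ = fl ![(ρ - t) / (4 * (ρ + 3)) * Real.cos (2 * Real.pi * θ),
      (ρ - t) / (4 * (ρ + 3)) * Real.sin (2 * Real.pi * θ), ζ] := by
  rw [pol, lam_left_MA ρ ht, mu_left_MA ht, fl]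
  simp

theorem pol_int_MA (ρ t θ ζ : ℝ) (k l : ℤ) : pol ρ t (θ + k) (ζ + l) = pol ρ t θ ζ := by
  rw [pol, pol, cos_int_MA, sin_int_MA, ← (ec_iff_MA ζ (ζ + l)).2 ⟨l, rfl⟩]

theorem small_MA {r c : ℝ} (h0 : 0 ≤ r) (h1 : r < 1 / 4) (hc : |c| ≤ 1) : |r * c| < 1 / 4 := by
  rw [abs_mul, abs_of_nonneg h0]
  nlinarith [abs_nonneg c]

theorem pol_eq_MA {ρ t t' θ θ' ζ ζ' : ℝ} (hρ : 0 < ρ + 2) (ht : -3 < t) (ht' : -3 < t')
    (h : pol ρ t θ ζ = pol ρ t' θ' ζ') : mu t = mu t' ∧ lam ρ t = lam ρ t' ∧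
      (t < 2 → (∃ k : ℤ, θ' = θ + k) ∧ ∃ l : ℤ, ζ' = ζ + l) := by
  simp only [pol, Prod.mk.injEq] at h
  obtain ⟨h1, h2, h3⟩ := h
  have a0 := lam_nonneg_MA hρ t
  have b0 := lam_nonneg_MA hρ t'
  have a1 := lam_lt_MA hρ ht
  have b1 := lam_lt_MA hρ ht'
  have k1 := circ_inj_MA (small_MA a0 a1 (Real.abs_cos_le_one _))
    (small_MA b0 b1 (Real.abs_cos_le_one _)) h1
  have k2 := circ_inj_MA (small_MA a0 a1 (Real.abs_sin_le_one _))
    (small_MA b0 b1 (Real.abs_sin_le_one _)) h2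
  have k3 : mu t = mu t' := by
    have := congrArg norm h3
    rwa [norm_mul, norm_mul, norm_ec_MA, norm_ec_MA, mul_one, mul_one, Complex.norm_real,
      Complex.norm_real, Real.norm_of_nonneg (mu_nonneg_MA _),
      Real.norm_of_nonneg (mu_nonneg_MA _)] at this
  have k4 : lam ρ t = lam ρ t' := by
    rw [← sq_eq_sq₀ a0 b0]
    have e1 := Real.sin_sq_add_cos_sq (2 * Real.pi * θ)
    have e2 := Real.sin_sq_add_cos_sq (2 * Real.pi * θ')
    calc lam ρ t ^ 2 = (lam ρ t * Real.sin (2 * Real.pi * θ)) ^ 2 +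
          (lam ρ t * Real.cos (2 * Real.pi * θ)) ^ 2 := by
          rw [mul_pow, mul_pow, ← mul_add, e1, mul_one]
      _ = lam ρ t' ^ 2 := by
          rw [k1, k2, mul_pow, mul_pow, ← mul_add, e2, mul_one]
  refine ⟨k3, k4, fun h2 => ⟨?_, ?_⟩⟩
  · have hp := (lam_pos_MA hρ h2).ne'
    rw [← k4] at k1 k2
    rw [← ec_iff_MA, ec_eq_MA, ec_eq_MA, mul_left_cancel₀ hp k1, mul_left_cancel₀ hp k2]
  · rw [← k3] at h3
    rw [← ec_iff_MA]
    exact mul_left_cancel₀ (Complex.ofReal_ne_zero.2 (mu_pos_MA h2).ne') h3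

theorem pol_fl_MA {ρ t θ ζ : ℝ} {y : E3} (hy : y ∈ UF ((ρ + 2) / (4 * (ρ + 3))))
    (h : pol ρ t θ ζ = fl y) : t < -2 := by
  simp only [pol, fl, Prod.mk.injEq] at h
  obtain ⟨h1, h2, h3⟩ := h
  have k3 : mu t = 1 := by
    have := congrArg norm h3
    rwa [norm_mul, norm_ec_MA, norm_ec_MA, mul_one, Complex.norm_real,
      Real.norm_of_nonneg (mu_nonneg_MA _)] at this
  refine lt_of_le_of_ne (le_of_mu_MA k3) ?_
  rintro rfl
  have h4 : ((ρ + 2) / (4 * (ρ + 3))) ^ 2 <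
    ‖(y 0 : UnitAddCircle)‖ ^ 2 + ‖(y 1 : UnitAddCircle)‖ ^ 2 := hy
  rw [← h1, ← h2, lam_left_MA ρ le_rfl, sub_neg_eq_add] at h4
  have e1 := Real.sin_sq_add_cos_sq (2 * Real.pi * θ)
  have e2 := circ_norm_MA ((ρ + 2) / (4 * (ρ + 3)) * Real.cos (2 * Real.pi * θ))
  have e3 := circ_norm_MA ((ρ + 2) / (4 * (ρ + 3)) * Real.sin (2 * Real.pi * θ))
  have e4 : ((ρ + 2) / (4 * (ρ + 3)) * Real.sin (2 * Real.pi * θ)) ^ 2 +
      ((ρ + 2) / (4 * (ρ + 3)) * Real.cos (2 * Real.pi * θ)) ^ 2 =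
      ((ρ + 2) / (4 * (ρ + 3))) ^ 2 := by
    rw [mul_pow, mul_pow, ← mul_add, e1, mul_one]
  linarith

theorem continuous_pol_MA (ρ : ℝ) {a b c : E3 → ℝ} (ha : Continuous a) (hb : Continuous b)
    (hc : Continuous c) : Continuous fun y => pol ρ (a y) (b y) (c y) := by
  have h1 := (continuous_lam_MA ρ).comp ha
  have h0 : Continuous ((↑) : ℝ → UnitAddCircle) := AddCircle.continuous_mk' 1
  refine (h0.comp (h1.mul ?_)).prodMk ((h0.comp (h1.mul ?_)).prodMk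
    ((Complex.continuous_ofReal.comp (continuous_mu_MA.comp ha)).mul (continuous_ec_MA.comp hc)))
  · fun_prop
  · fun_prop

theorem continuous_fl_MA : Continuous fl := by
  have h0 : Continuous ((↑) : ℝ → UnitAddCircle) := AddCircle.continuous_mk' 1
  exact (h0.comp (continuous_apply 0)).prodMk ((h0.comp (continuous_apply 1)).prodMk
    (continuous_ec_MA.comp (continuous_apply 2)))

theorem fl_iff_MA (x y : E3) :
    fl x = fl y ↔ ∃ k l n : ℤ, y 0 = x 0 + k ∧ y 1 = x 1 + l ∧ y 2 = x 2 + n := by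
  simp only [fl, Prod.mk.injEq, circ_iff_MA, ec_iff_MA]
  constructor
  · rintro ⟨⟨k, hk⟩, ⟨l, hl⟩, n, hn⟩
    exact ⟨k, l, n, hk, hl, hn⟩
  · rintro ⟨k, l, n, hk, hl, hn⟩
    exact ⟨⟨k, hk⟩, ⟨l, hl⟩, n, hn⟩

/-! ### The metrics -/

theorem sq3_pos_MA {v : E3} (hv : v ≠ 0) {a b c : ℝ} (ha : 0 < a) (hb : 0 < b) (hc : 0 < c) :
    0 < a * v 0 ^ 2 + b * v 1 ^ 2 + c * v 2 ^ 2 := by
  by_contra h
  rw [not_lt] at h
  have h0 : 0 ≤ a * v 0 ^ 2 := by positivity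
  have h1 : 0 ≤ b * v 1 ^ 2 := by positivity
  have h2 : 0 ≤ c * v 2 ^ 2 := by positivity
  have k0 : v 0 = 0 := by
    have : a * v 0 ^ 2 = 0 := by linarith
    simpa [ha.ne'] using this
  have k1 : v 1 = 0 := by
    have : b * v 1 ^ 2 = 0 := by linarith
    simpa [hb.ne'] using this
  have k2 : v 2 = 0 := by
    have : c * v 2 ^ 2 = 0 := by linarith
    simpa [hc.ne'] using this
  apply hv
  funext i
  fin_cases i
  exacts [k0, k1, k2]

theorem quad_MA {A B C D : ℝ} (hA : A ≠ 0) (hD : D ≠ 0) (h : A * B - C ^ 2 = D) (x y z : ℝ) :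
    x * x + B / D * (y * y) + -C / D * (y * z + z * y) + A / D * (z * z) =
      1 * x ^ 2 + A⁻¹ * y ^ 2 + (A * D)⁻¹ * (A * z - C * y) ^ 2 := by
  have hB : B = (D + C ^ 2) / A := by
    rw [eq_div_iff hA]
    linarith
  rw [hB]
  field_simp
  ring

theorem cm_flat_MA (R : ℝ) {D l : ℝ} (hD : 0 < D) (hl : 0 < l) :
    CM (fun _ => GF D l) (UF R) := by
  have h0 : Continuous ((↑) : ℝ → UnitAddCircle) := AddCircle.continuous_mk' 1
  refine ⟨?_, contDiffOn_const, fun y _ v w => ?_, fun y _ v hv => ?_⟩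
  · exact isOpen_lt continuous_const (((h0.comp (continuous_apply 0)).norm.pow 2).add
      ((h0.comp (continuous_apply 1)).norm.pow 2))
  · simp only [GF, add_apply, smul_apply, qf_apply, smul_eq_mul]
    ring
  · have := sq3_pos_MA hv (pow_pos hD 2) (pow_pos hD 2) (pow_pos hl 2)
    simp only [GF, add_apply, smul_apply, qf_apply, smul_eq_mul]
    linarith

namespace ND

variable {d : ND}

theorem Prof.cm_neck_MA (h : d.Prof) : CM d.GN UN := by
  have hp : ContDiffOn ℝ ∞ (fun y : E3 => y 0) UN := (contDiff_apply ℝ ℝ (0 : Fin 3)).contDiffOn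
  have hA : ContDiffOn ℝ ∞ (fun y : E3 => d.A (y 0)) UN := h.smA.comp hp fun y hy => hy
  have hB : ContDiffOn ℝ ∞ (fun y : E3 => d.B (y 0)) UN := h.smB.comp hp fun y hy => hy
  have hC : ContDiffOn ℝ ∞ (fun y : E3 => d.C (y 0)) UN := h.smC.comp hp fun y hy => hy
  have hD : ContDiffOn ℝ ∞ (fun y : E3 => d.A (y 0) * d.B (y 0) - d.C (y 0) ^ 2) UN :=
    (hA.mul hB).sub (hC.pow 2)
  have hD0 : ∀ y ∈ UN, d.A (y 0) * d.B (y 0) - d.C (y 0) ^ 2 ≠ 0 :=
    fun y hy => (h.posD _ hy).ne'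
  have h11 : ContDiffOn ℝ ∞ (fun y : E3 => d.h11 (y 0)) UN := hB.div hD hD0
  have h22 : ContDiffOn ℝ ∞ (fun y : E3 => d.h22 (y 0)) UN := hA.div hD hD0
  have h12 : ContDiffOn ℝ ∞ (fun y : E3 => d.h12 (y 0)) UN := hC.neg.div hD hD0
  refine ⟨isOpen_Ioo.preimage (continuous_apply 0), ?_, fun y _ v w => ?_, fun y hy v hv => ?_⟩
  · exact ((contDiffOn_const.add (h11.smul contDiffOn_const)).add
      (h12.smul contDiffOn_const)).add (h22.smul contDiffOn_const)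
  · simp only [GN, add_apply, smul_apply, qf_apply, smul_eq_mul]
    ring
  · have a0 := h.posA _ hy
    have d0 := h.posD _ hy
    have hw : (![v 0, v 1, d.A (y 0) * v 2 - d.C (y 0) * v 1] : E3) ≠ 0 := by
      intro hw
      apply hv
      have k0 : v 0 = 0 := congrFun hw 0
      have k1 : v 1 = 0 := congrFun hw 1
      have k2 : d.A (y 0) * v 2 - d.C (y 0) * v 1 = 0 := congrFun hw 2
      rw [k1, mul_zero, sub_zero] at k2
      have k3 : v 2 = 0 := (mul_eq_zero.1 k2).resolve_left a0.ne'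
      funext i
      fin_cases i
      exacts [k0, k1, k3]
    have h1 := sq3_pos_MA hw one_pos (inv_pos.2 a0) (inv_pos.2 (mul_pos a0 d0))
    have h2 : d.GN y v v = 1 * v 0 ^ 2 + (d.A (y 0))⁻¹ * v 1 ^ 2 +
        (d.A (y 0) * (d.A (y 0) * d.B (y 0) - d.C (y 0) ^ 2))⁻¹ *
          (d.A (y 0) * v 2 - d.C (y 0) * v 1) ^ 2 := by
      simp only [GN, add_apply, smul_apply, qf_apply, smul_eq_mul, ND.h11, ND.h12, ND.h22]
      exact quad_MA a0.ne' d0.ne' rfl _ _ _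
    rw [h2]
    exact h1

theorem Prof.cm (h : d.Prof) (i : Option Bool) : CM (d.G i) (d.U i) := by
  have h1 := h.hρ₁
  have h2 := h.hρ₂
  rcases i with _ | _ | _
  · exact h.cm_neck_MA
  · exact cm_flat_MA _ (by linarith) h.hl₁
  · exact cm_flat_MA _ (by linarith) h.hl₂

theorem continuous_psi (d : ND) (i : Option Bool) : Continuous (d.Ψ i) := by
  rcases i with _ | _ | _
  · exact (continuous_pol_MA _ (continuous_apply 0) (continuous_apply 1)
      (continuous_apply 2)).prodMk (continuous_pol_MA _ (continuous_apply 0).neg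
        (continuous_apply 2) ((continuous_apply 1).add (continuous_apply 2)))
  · exact continuous_fl_MA.prodMk continuous_const
  · exact continuous_const.prodMk continuous_fl_MA

/-- Fibres of the neck sheet. -/
theorem Prof.psi_neck (h : d.Prof) {x y : E3} (hx : x ∈ UN) (hy : y ∈ UN) :
    d.Ψ none x = d.Ψ none y ↔ x 0 = y 0 ∧ ∃ k l : ℤ, y 1 = x 1 + k ∧ y 2 = x 2 + l := by
  have hx' : -3 < x 0 ∧ x 0 < 3 := hx
  have hy' : -3 < y 0 ∧ y 0 < 3 := hy
  have h1 := h.hρ₁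
  have h2 := h.hρ₂
  simp only [Ψ, Prod.mk.injEq]
  constructor
  · rintro ⟨e1, e2⟩
    obtain ⟨a1, a2, a3⟩ := pol_eq_MA h1 hx'.1 hy'.1 e1
    obtain ⟨b1, b2, b3⟩ := pol_eq_MA h2 (by linarith [hx'.2]) (by linarith [hy'.2]) e2
    constructor
    · rcases le_or_gt (x 0) (-2) with c1 | c1
      · have c2 : y 0 ≤ -2 := le_of_mu_MA (a1 ▸ mu_left_MA c1)
        rw [lam_left_MA _ c1, lam_left_MA _ c2, div_left_inj' (by linarith)] at a2
        linarith
      rcases le_or_gt (-x 0) (-2) with c3 | c3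
      · have c2 : -y 0 ≤ -2 := le_of_mu_MA (b1 ▸ mu_left_MA c3)
        rw [lam_left_MA _ c3, lam_left_MA _ c2, div_left_inj' (by linarith)] at b2
        linarith
      · have c4 : -2 < y 0 := by
          by_contra c4
          exact absurd (le_of_mu_MA (a1.trans (mu_left_MA (not_lt.1 c4)))) (not_le.2 c1)
        have c5 : -2 < -y 0 := by
          by_contra c5
          exact absurd (le_of_mu_MA (b1.trans (mu_left_MA (not_lt.1 c5)))) (not_le.2 c3)
        rw [mu_mid_MA c1.le (by linarith), mu_mid_MA c4.le (by linarith)] at a1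
        linarith
    · rcases lt_or_ge (x 0) 2 with c1 | c1
      · obtain ⟨⟨k, hk⟩, l, hl⟩ := a3 c1
        exact ⟨k, l, hk, hl⟩
      · obtain ⟨⟨l, hl⟩, k, hk⟩ := b3 (by linarith)
        refine ⟨k - l, l, ?_, hl⟩
        push_cast
        linarith
  · rintro ⟨e0, k, l, e1, e2⟩
    have e3 : y 1 + y 2 = x 1 + x 2 + ((k + l : ℤ) : ℝ) := by
      push_cast
      linarith
    rw [e3, e1, e2, ← e0, pol_int_MA, pol_int_MA]
    exact ⟨rfl, rfl⟩

/-- Fibres of the flat sheets. -/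
theorem psi_flat (d : ND) (b : Bool) (x y : E3) :
    d.Ψ (some b) x = d.Ψ (some b) y ↔
      ∃ k l n : ℤ, y 0 = x 0 + k ∧ y 1 = x 1 + l ∧ y 2 = x 2 + n := by
  rw [← fl_iff_MA]
  cases b <;> simp only [Ψ, Prod.mk.injEq, and_true, true_and]

theorem psi_ne (d : ND) (x y : E3) : d.Ψ (some false) x ≠ d.Ψ (some true) y := by
  intro h
  exact ec_ne_MA (x 2) (congrArg (fun z : ZH × ZH => z.1.2.2) h)

/-- On the left collar the neck sheet is the flat sheet in polar coordinates. -/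
theorem Prof.psi_left (h : d.Prof) {x : E3} (hx : x 0 ≤ -2) :
    d.Ψ none x = d.Ψ (some false) ![(d.ρ₁ - x 0) / (4 * (d.ρ₁ + 3)) * Real.cos (2 * Real.pi * x 1),
      (d.ρ₁ - x 0) / (4 * (d.ρ₁ + 3)) * Real.sin (2 * Real.pi * x 1), x 2] := by
  simp only [Ψ]
  rw [pol_left_MA _ hx, pol_right_MA _ (by linarith)]

theorem Prof.psi_right (h : d.Prof) {x : E3} (hx : 2 ≤ x 0) :
    d.Ψ none x = d.Ψ (some true) ![(d.ρ₂ + x 0) / (4 * (d.ρ₂ + 3)) * Real.cos (2 * Real.pi * x 2),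
      (d.ρ₂ + x 0) / (4 * (d.ρ₂ + 3)) * Real.sin (2 * Real.pi * x 2), x 1 + x 2] := by
  simp only [Ψ]
  rw [pol_right_MA _ hx, pol_left_MA _ (by linarith), sub_neg_eq_add]

theorem Prof.lt_of_left (h : d.Prof) {x y : E3} (hx : x ∈ UN) (hy : y ∈ d.U (some false))
    (hxy : d.Ψ none x = d.Ψ (some false) y) : x 0 < -2 :=
  pol_fl_MA hy (congrArg Prod.fst hxy)

theorem Prof.lt_of_right (h : d.Prof) {x y : E3} (hx : x ∈ UN) (hy : y ∈ d.U (some true))
    (hxy : d.Ψ none x = d.Ψ (some true) y) : 2 < x 0 := by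
  have := pol_fl_MA hy (congrArg Prod.snd hxy)
  linarith

end ND

end Vale.Agent.P255
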