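import Vale.Agent.P255.Calc2
import Vale.Agent.P255.ModelA

open scoped Manifold ContDiff Topology
open Set Filter

set_option maxSynthPendingDepth 3

namespace Vale.Agent.P255

namespace Neck1

/-! ### One variable calculus on the interval -/

lemma sm_deriv {f : ℝ → ℝ} (hf : ContDiffOn ℝ ∞ f (Ioo (-3) 3)) :
    ContDiffOn ℝ ∞ (deriv f) (Ioo (-3) 3) :=
  hf.deriv_of_isOpen isOpen_Ioo (by simp)

lemma sm_d {f : ℝ → ℝ} (hf : ContDiffOn ℝ ∞ f (Ioo (-3) 3)) {t : ℝ} (ht : t ∈ Ioo (-3 : ℝ) 3) :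
    HasDerivAt f (deriv f t) t :=
  ((hf.contDiffAt (isOpen_Ioo.mem_nhds ht)).differentiableAt (by simp)).hasDerivAt

lemma rel1 {f₁ g₁ f₂ g₂ : ℝ → ℝ} {k : ℝ} (h₁ : ContDiffOn ℝ ∞ f₁ (Ioo (-3) 3))
    (h₂ : ContDiffOn ℝ ∞ g₁ (Ioo (-3) 3)) (h₃ : ContDiffOn ℝ ∞ f₂ (Ioo (-3) 3))
    (h₄ : ContDiffOn ℝ ∞ g₂ (Ioo (-3) 3))
    (h : ∀ t ∈ Ioo (-3 : ℝ) 3, f₁ t * g₁ t + f₂ t * g₂ t = k) {t : ℝ} (ht : t ∈ Ioo (-3 : ℝ) 3) :
    deriv f₁ t * g₁ t + f₁ t * deriv g₁ t + (deriv f₂ t * g₂ t + f₂ t * deriv g₂ t) = 0 := by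
  have e := ((sm_d h₁ ht).mul (sm_d h₂ ht)).add ((sm_d h₃ ht).mul (sm_d h₄ ht))
  refine e.unique ((hasDerivAt_const t k).congr_of_eventuallyEq ?_)
  filter_upwards [isOpen_Ioo.mem_nhds ht] with x hx using h x hx

lemma rel2 {f₁ g₁ f₂ g₂ : ℝ → ℝ} {k : ℝ} (h₁ : ContDiffOn ℝ ∞ f₁ (Ioo (-3) 3))
    (h₂ : ContDiffOn ℝ ∞ g₁ (Ioo (-3) 3)) (h₃ : ContDiffOn ℝ ∞ f₂ (Ioo (-3) 3))
    (h₄ : ContDiffOn ℝ ∞ g₂ (Ioo (-3) 3))
    (h : ∀ t ∈ Ioo (-3 : ℝ) 3, f₁ t * g₁ t + f₂ t * g₂ t = k) {t : ℝ} (ht : t ∈ Ioo (-3 : ℝ) 3) :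
    deriv (deriv f₁) t * g₁ t + 2 * (deriv f₁ t * deriv g₁ t) + f₁ t * deriv (deriv g₁) t +
      (deriv (deriv f₂) t * g₂ t + 2 * (deriv f₂ t * deriv g₂ t) + f₂ t * deriv (deriv g₂) t) =
      0 := by
  have e := (((sm_d (sm_deriv h₁) ht).mul (sm_d h₂ ht)).add
    ((sm_d h₁ ht).mul (sm_d (sm_deriv h₂) ht))).add
    (((sm_d (sm_deriv h₃) ht).mul (sm_d h₄ ht)).add ((sm_d h₃ ht).mul (sm_d (sm_deriv h₄) ht)))
  have e0 := e.unique ((hasDerivAt_const t (0 : ℝ)).congr_of_eventuallyEq (by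
    filter_upwards [isOpen_Ioo.mem_nhds ht] with x hx using rel1 h₁ h₂ h₃ h₄ h hx))
  linarith

variable {d : ND}

lemma smD (h : d.Prof) : ContDiffOn ℝ ∞ (fun t => d.A t * d.B t - d.C t ^ 2) (Ioo (-3) 3) :=
  (h.smA.mul h.smB).sub (h.smC.pow 2)

lemma sm11 (h : d.Prof) : ContDiffOn ℝ ∞ d.h11 (Ioo (-3) 3) :=
  h.smB.div (smD h) fun t ht => (h.posD t ht).ne'

lemma sm22 (h : d.Prof) : ContDiffOn ℝ ∞ d.h22 (Ioo (-3) 3) :=
  h.smA.div (smD h) fun t ht => (h.posD t ht).ne'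

lemma sm12 (h : d.Prof) : ContDiffOn ℝ ∞ d.h12 (Ioo (-3) 3) :=
  h.smC.neg.div (smD h) fun t ht => (h.posD t ht).ne'

lemma e1 (h : d.Prof) : ∀ t ∈ Ioo (-3 : ℝ) 3, d.A t * d.h11 t + d.C t * d.h12 t = 1 := by
  intro t ht
  have := (h.posD t ht).ne'
  simp only [ND.h11, ND.h12]
  field_simp
  ring

lemma e2 (h : d.Prof) : ∀ t ∈ Ioo (-3 : ℝ) 3, d.A t * d.h12 t + d.C t * d.h22 t = 0 := by
  intro t ht
  have := (h.posD t ht).ne'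
  simp only [ND.h22, ND.h12]
  field_simp
  ring

lemma e3 (h : d.Prof) : ∀ t ∈ Ioo (-3 : ℝ) 3, d.C t * d.h11 t + d.B t * d.h12 t = 0 := by
  intro t ht
  have := (h.posD t ht).ne'
  simp only [ND.h11, ND.h12]
  field_simp
  ring

lemma e4 (h : d.Prof) : ∀ t ∈ Ioo (-3 : ℝ) 3, d.C t * d.h12 t + d.B t * d.h22 t = 1 := by
  intro t ht
  have := (h.posD t ht).ne'
  simp only [ND.h22, ND.h12]
  field_simp
  ring

/-- `h_t''(v,w)`. -/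
noncomputable def H2 (d : ND) (t v₁ v₂ w₁ w₂ : ℝ) : ℝ :=
  bf (deriv (deriv d.h11) t) (deriv (deriv d.h22) t) (deriv (deriv d.h12) t) v₁ v₂ w₁ w₂

/-! ### Algebraic identities -/

lemma G0_P (h : d.Prof) {t : ℝ} (ht : t ∈ Ioo (-3 : ℝ) 3) (w : E3) (q₁ q₂ : ℝ) :
    d.G0 t (d.P1 t w) (d.P2 t w) q₁ q₂ = w 1 * q₁ + w 2 * q₂ := by
  simp only [ND.G0, ND.P1, ND.P2, bf]
  linear_combination q₁ * w 1 * e1 h t ht + q₁ * w 2 * e2 h t ht + q₂ * w 1 * e3 h t ht +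
    q₂ * w 2 * e4 h t ht

lemma G1_P (h : d.Prof) {t : ℝ} (ht : t ∈ Ioo (-3 : ℝ) 3) (w : E3) (q₁ q₂ : ℝ) :
    d.G1 t (d.P1 t w) (d.P2 t w) q₁ q₂ +
      d.G0 t (d.H1 t (w 1) (w 2) 1 0) (d.H1 t (w 1) (w 2) 0 1) q₁ q₂ = 0 := by
  simp only [ND.G0, ND.G1, ND.H1, ND.P1, ND.P2, bf]
  linear_combination q₁ * w 1 * rel1 h.smA (sm11 h) h.smC (sm12 h) (e1 h) ht +
    q₁ * w 2 * rel1 h.smA (sm12 h) h.smC (sm22 h) (e2 h) ht +
    q₂ * w 1 * rel1 h.smC (sm11 h) h.smB (sm12 h) (e3 h) ht +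
    q₂ * w 2 * rel1 h.smC (sm12 h) h.smB (sm22 h) (e4 h) ht

lemma G2_P (h : d.Prof) {t : ℝ} (ht : t ∈ Ioo (-3 : ℝ) 3) (w : E3) (q₁ q₂ : ℝ) :
    d.G2 t (d.P1 t w) (d.P2 t w) q₁ q₂ +
      2 * d.G1 t (d.H1 t (w 1) (w 2) 1 0) (d.H1 t (w 1) (w 2) 0 1) q₁ q₂ +
      d.G0 t (H2 d t (w 1) (w 2) 1 0) (H2 d t (w 1) (w 2) 0 1) q₁ q₂ = 0 := by
  simp only [ND.G0, ND.G1, ND.G2, ND.H1, H2, ND.P1, ND.P2, bf]
  linear_combination q₁ * w 1 * rel2 h.smA (sm11 h) h.smC (sm12 h) (e1 h) ht +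
    q₁ * w 2 * rel2 h.smA (sm12 h) h.smC (sm22 h) (e2 h) ht +
    q₂ * w 1 * rel2 h.smC (sm11 h) h.smB (sm12 h) (e3 h) ht +
    q₂ * w 2 * rel2 h.smC (sm12 h) h.smB (sm22 h) (e4 h) ht

lemma G0_comm (d : ND) (t p₁ p₂ q₁ q₂ : ℝ) : d.G0 t p₁ p₂ q₁ q₂ = d.G0 t q₁ q₂ p₁ p₂ := by
  simp only [ND.G0, bf]; ring

lemma G1_PP (h : d.Prof) {t : ℝ} (ht : t ∈ Ioo (-3 : ℝ) 3) (w k : E3) :
    d.G1 t (d.P1 t w) (d.P2 t w) (d.P1 t k) (d.P2 t k) = -d.H1 t (w 1) (w 2) (k 1) (k 2) := by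
  have a := G1_P h ht w (d.P1 t k) (d.P2 t k)
  rw [G0_comm, G0_P h ht] at a
  simp only [ND.H1, bf] at a ⊢
  linear_combination a

lemma id_tau (h : d.Prof) {t : ℝ} (ht : t ∈ Ioo (-3 : ℝ) 3) (w j k : E3) :
    -d.G2 t (d.P1 t w) (d.P2 t w) (d.P1 t w) (d.P2 t w) * j 0 / 2 -
      d.G1 t (d.P1 t w) (d.P2 t w) (d.R1 t w j k) (d.R2 t w j k) =
      j 0 * H2 d t (w 1) (w 2) (w 1) (w 2) / 2 + d.H1 t (w 1) (w 2) (k 1) (k 2) := by
  have a := G2_P h ht w (d.P1 t w) (d.P2 t w)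
  rw [G0_comm, G0_P h ht] at a
  have b := G1_PP h ht w k
  simp only [ND.R1, ND.R2]
  generalize d.P1 t w = p₁ at *
  generalize d.P2 t w = p₂ at *
  generalize d.P1 t k = r₁ at *
  generalize d.P2 t k = r₂ at *
  generalize d.H1 t (w 1) (w 2) 1 0 = u₁ at *
  generalize d.H1 t (w 1) (w 2) 0 1 = u₂ at *
  simp only [ND.G1, H2, bf] at a b ⊢
  linear_combination (-j 0 / 2) * a - b

lemma id_x (h : d.Prof) {t : ℝ} (ht : t ∈ Ioo (-3 : ℝ) 3) (w j k : E3) (q₁ q₂ : ℝ) :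
    d.G0 t (d.R1 t w j k) (d.R2 t w j k) q₁ q₂ + d.G1 t (d.P1 t w) (d.P2 t w) q₁ q₂ * j 0 =
      k 1 * q₁ + k 2 * q₂ := by
  have a := G1_P h ht w q₁ q₂
  have b := G0_P h ht k q₁ q₂
  simp only [ND.R1, ND.R2]
  simp only [ND.G0, bf] at a b ⊢
  linear_combination j 0 * a + b

/-! ### Derivatives of the neck metric -/

/-- The form on the torus directions with entries `a, b, c`. -/
noncomputable def KF (a b c : ℝ) : E3 →L[ℝ] E3 →L[ℝ] ℝ :=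
  a • qf 1 1 + c • (qf 1 2 + qf 2 1) + b • qf 2 2

lemma KF_apply (a b c : ℝ) (v w : E3) : KF a b c v w = bf a b c (v 1) (v 2) (w 1) (w 2) := by
  simp [KF, bf]; ring

lemma KF_deriv {a b c : ℝ → ℝ} {a' b' c' t : ℝ} (ha : HasDerivAt a a' t) (hb : HasDerivAt b b' t)
    (hc : HasDerivAt c c' t) : HasDerivAt (fun r => KF (a r) (b r) (c r)) (KF a' b' c') t :=
  ((ha.smul_const _).add (hc.smul_const _)).add (hb.smul_const _)

lemma GN_eq (d : ND) (y : E3) :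
    d.GN y = qf 0 0 + KF (d.h11 (y 0)) (d.h22 (y 0)) (d.h12 (y 0)) := by
  simp only [ND.GN, KF, add_assoc]

lemma GN_apply (d : ND) (y v w : E3) :
    d.GN y v w = v 0 * w 0 + d.P1 (y 0) v * w 1 + d.P2 (y 0) v * w 2 := by
  simp [GN_eq, KF_apply, bf, ND.P1, ND.P2]; ring

/-- The first coordinate. -/
noncomputable def pr0 : E3 →L[ℝ] ℝ := ContinuousLinearMap.proj (R := ℝ) (φ := fun _ : Fin 3 => ℝ) 0

lemma pr0_apply (v : E3) : pr0 v = v 0 := rfl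

lemma comp0 {F : Type} [NormedAddCommGroup F] [NormedSpace ℝ F] {f : ℝ → F} {f' : F} {y : E3}
    (hf : HasDerivAt f f' (y 0)) : HasFDerivAt (fun x : E3 => f (x 0)) (pr0.smulRight f') y := by
  have := HasFDerivAt.comp (f := pr0) y hf.hasFDerivAt pr0.hasFDerivAt
  refine this.congr_fderiv ?_
  ext v
  simp

lemma fderiv_GN (h : d.Prof) {y : E3} (hy : y ∈ UN) :
    fderiv ℝ d.GN y =
      pr0.smulRight (KF (deriv d.h11 (y 0)) (deriv d.h22 (y 0)) (deriv d.h12 (y 0))) := by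
  have e : d.GN = fun x => qf 0 0 + KF (d.h11 (x 0)) (d.h22 (x 0)) (d.h12 (x 0)) :=
    funext (GN_eq d)
  rw [e]
  exact ((comp0 (KF_deriv (sm_d (sm11 h) hy) (sm_d (sm22 h) hy)
    (sm_d (sm12 h) hy))).const_add _).fderiv

lemma dGN (h : d.Prof) {y : E3} (hy : y ∈ UN) (u v w : E3) :
    fderiv ℝ d.GN y u v w = u 0 * d.H1 (y 0) (v 1) (v 2) (w 1) (w 2) := by
  simp [fderiv_GN h hy, KF_apply, pr0_apply, ND.H1]

lemma isOpen_UN : IsOpen UN := isOpen_Ioo.preimage (continuous_apply 0)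

lemma d2GN (h : d.Prof) {y : E3} (hy : y ∈ UN) (z u v w : E3) :
    fderiv ℝ (fderiv ℝ d.GN) y z u v w = z 0 * u 0 * H2 d (y 0) (v 1) (v 2) (w 1) (w 2) := by
  have e : fderiv ℝ d.GN =ᶠ[𝓝 y] fun x => ContinuousLinearMap.smulRightL ℝ E3 _ pr0
      (KF (deriv d.h11 (x 0)) (deriv d.h22 (x 0)) (deriv d.h12 (x 0))) := by
    filter_upwards [isOpen_UN.mem_nhds hy] with x hx using fderiv_GN h hx
  have a := comp0 (KF_deriv (sm_d (sm_deriv (sm11 h)) hy) (sm_d (sm_deriv (sm22 h)) hy)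
    (sm_d (sm_deriv (sm12 h)) hy))
  have b := (ContinuousLinearMap.smulRightL ℝ E3 (E3 →L[ℝ] E3 →L[ℝ] ℝ) pr0).hasFDerivAt.comp y a
  rw [(b.congr_of_eventuallyEq e).fderiv]
  simp [KF_apply, pr0_apply, H2]
  ring

lemma coord {c : ℝ → E3} {c' : E3} {s : ℝ} (hc : HasDerivAt c c' s) (i : Fin 3) :
    HasDerivAt (fun r => c r i) (c' i) s := hasDerivAt_pi.1 hc i

end Neck1

open Neck1 Calc2

namespace ND

variable {d : ND} {c j : ℝ → E3} {s : ℝ}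

/-- Hamiltonian form of the geodesic and Jacobi equations of the neck metric. -/
theorem Prof.ham (h : d.Prof) (hj : GJ d.GN UN c j s) :
    d.Ham (fun r => c r 0) (fun r => deriv c r 0) (fun r => d.P1 (c r 0) (deriv c r))
      (fun r => d.P2 (c r 0) (deriv c r)) (fun r => j r 0) (fun r => deriv j r 0)
      (fun r => j r 1) (fun r => j r 2)
      (fun r => d.R1 (c r 0) (deriv c r) (j r) (deriv j r))
      (fun r => d.R2 (c r 0) (deriv c r) (j r) (deriv j r)) s := by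
  have hm : CM d.GN UN := h.cm none
  have hs : c s ∈ UN := hj.1
  have ht : c s 0 ∈ Ioo (-3 : ℝ) 3 := hs
  have hU := evU hm hs hj.2.1
  have el := hm.el hs hj.2.1 hj.2.2.2.1
  have lel := hm.lel hj
  simp only [dGN h hs, d2GN h hs, GN_apply] at el lel
  refine ⟨ht, coord (d1 hj.2.1) 0, ?_, ?_, ?_, coord (d1 hj.2.2.1) 0, ?_, ?_, ?_, ?_, ?_⟩
  · rw [G1_PP h ht]
    simpa using el (Pi.single 0 1)
  · simpa using el (Pi.single 1 1)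
  · simpa using el (Pi.single 2 1)
  · rw [id_tau h ht]
    refine ((lel (Pi.single 0 1)).congr_of_eventuallyEq ?_).congr_deriv (by simp)
    filter_upwards [hU] with r hr
    simp [dGN h hr, ND.H1, bf]
  · rw [id_x h ht]
    simpa using coord (d1 hj.2.2.1) 1
  · rw [id_x h ht]
    simpa using coord (d1 hj.2.2.1) 2
  · refine ((lel (Pi.single 1 1)).congr_of_eventuallyEq ?_).congr_deriv (by simp)
    filter_upwards [hU] with r hr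
    simp [dGN h hr, ND.R1]
  · refine ((lel (Pi.single 2 1)).congr_of_eventuallyEq ?_).congr_deriv (by simp)
    filter_upwards [hU] with r hr
    simp [dGN h hr, ND.R2]

theorem Prof.deriv_N (h : d.Prof) (hj : GJ d.GN UN c j s) :
    deriv (fun r => d.GN (c r) (j r) (deriv c r)) s =
      d.dH (c s 0) (deriv c s 0) (d.P1 (c s 0) (deriv c s)) (d.P2 (c s 0) (deriv c s)) (j s 0)
        (deriv j s 0) (d.R1 (c s 0) (deriv c s) (j s) (deriv j s))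
        (d.R2 (c s 0) (deriv c s) (j s) (deriv j s)) := by
  have hm : CM d.GN UN := h.cm none
  have hs : c s ∈ UN := hj.1
  have ht : c s 0 ∈ Ioo (-3 : ℝ) 3 := hs
  rw [(aff1 hm hs hj.2.1 hj.2.2.1 hj.2.2.2.1).deriv, dGN h hs, GN_apply, ND.dH, G1_PP h ht,
    G0_P h ht]
  simp only [ND.R1, ND.R2, ND.H1, bf]
  ring

theorem Prof.deriv_Q (h : d.Prof) (hj : GJ d.GN UN c j s) :
    deriv (fun r => d.GN (c r) (j r) (j r)) s / 2 =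
      d.Qg (c s 0) (deriv c s 0) (d.P1 (c s 0) (deriv c s)) (d.P2 (c s 0) (deriv c s)) (j s 0)
        (deriv j s 0) (j s 1) (j s 2) (d.R1 (c s 0) (deriv c s) (j s) (deriv j s))
        (d.R2 (c s 0) (deriv c s) (j s) (deriv j s)) := by
  have hm : CM d.GN UN := h.cm none
  have hs : c s ∈ UN := hj.1
  have ht : c s 0 ∈ Ioo (-3 : ℝ) 3 := hs
  have h1 : HasDerivAt (fun r => d.GN (c r)) (fderiv ℝ d.GN (c s) (deriv c s)) s :=
    (dG hm hs).comp_hasDerivAt s (d1 hj.2.1)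
  rw [((h1.clm_apply (d1 hj.2.2.1)).clm_apply (d1 hj.2.2.1)).deriv, add_apply, dGN h hs,
    GN_apply, GN_apply, ND.Qg, G0_P h ht, G0_P h ht]
  simp only [ND.R1, ND.R2, ND.H1, ND.P1, ND.P2, bf]
  ring

theorem Prof.eq_zero_of_R (h : d.Prof) {t : ℝ} (ht : t ∈ Ioo (-3 : ℝ) 3) {w k : E3}
    (h0 : k 0 = 0) (h1 : d.R1 t w 0 k = 0) (h2 : d.R2 t w 0 k = 0) : k = 0 := by
  simp only [ND.R1, ND.R2, Pi.zero_apply, zero_mul, add_zero] at h1 h2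
  have a := G0_P h ht k 1 0
  have b := G0_P h ht k 0 1
  rw [h1, h2] at a b
  simp [ND.G0, bf] at a b
  funext i
  fin_cases i
  · exact h0
  · exact a.symm
  · exact b.symm

end ND

end Vale.Agent.P255
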