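import Vale.Agent.P255.Model
import Vale.Agent.P255.Neck1

open scoped Manifold ContDiff Topology
open Set Filter

set_option maxSynthPendingDepth 3

namespace Vale.Agent.P255

namespace Neck2

open Neck1

lemma hd_bf {a b c p₁ p₂ q₁ q₂ : ℝ → ℝ} {a' b' c' p₁' p₂' q₁' q₂' s : ℝ}
    (ha : HasDerivAt a a' s) (hb : HasDerivAt b b' s) (hc : HasDerivAt c c' s)
    (h₁ : HasDerivAt p₁ p₁' s) (h₂ : HasDerivAt p₂ p₂' s) (h₃ : HasDerivAt q₁ q₁' s)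
    (h₄ : HasDerivAt q₂ q₂' s) :
    HasDerivAt (fun r => bf (a r) (b r) (c r) (p₁ r) (p₂ r) (q₁ r) (q₂ r))
      (bf a' b' c' (p₁ s) (p₂ s) (q₁ s) (q₂ s) + bf (a s) (b s) (c s) p₁' p₂' (q₁ s) (q₂ s) +
        bf (a s) (b s) (c s) (p₁ s) (p₂ s) q₁' q₂') s := by
  refine ((((ha.mul h₁).mul h₃).add (hc.mul ((h₁.mul h₄).add (h₂.mul h₃)))).add
    ((hb.mul h₂).mul h₄)).congr_deriv ?_
  simp only [bf, Pi.mul_apply, Pi.add_apply]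
  ring

lemma hd_comp {f t : ℝ → ℝ} {τ s : ℝ} (hf : ContDiffOn ℝ ∞ f (Ioo (-3) 3))
    (hm : t s ∈ Ioo (-3 : ℝ) 3) (ht : HasDerivAt t τ s) :
    HasDerivAt (fun r => f (t r)) (deriv f (t s) * τ) s :=
  (sm_d hf hm).comp s ht

variable {d : ND}

section
variable {t p₁ p₂ q₁ q₂ : ℝ → ℝ} {τ p₁' p₂' q₁' q₂' s : ℝ}

lemma hd_G0 (h : d.Prof) (hm : t s ∈ Ioo (-3 : ℝ) 3) (ht : HasDerivAt t τ s)
    (h₁ : HasDerivAt p₁ p₁' s) (h₂ : HasDerivAt p₂ p₂' s) (h₃ : HasDerivAt q₁ q₁' s)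
    (h₄ : HasDerivAt q₂ q₂' s) :
    HasDerivAt (fun r => d.G0 (t r) (p₁ r) (p₂ r) (q₁ r) (q₂ r))
      (τ * d.G1 (t s) (p₁ s) (p₂ s) (q₁ s) (q₂ s) + d.G0 (t s) p₁' p₂' (q₁ s) (q₂ s) +
        d.G0 (t s) (p₁ s) (p₂ s) q₁' q₂') s := by
  refine (hd_bf (hd_comp h.smA hm ht) (hd_comp h.smB hm ht) (hd_comp h.smC hm ht)
    h₁ h₂ h₃ h₄).congr_deriv ?_
  simp only [ND.G0, ND.G1, bf]
  ring

lemma hd_G1 (h : d.Prof) (hm : t s ∈ Ioo (-3 : ℝ) 3) (ht : HasDerivAt t τ s)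
    (h₁ : HasDerivAt p₁ p₁' s) (h₂ : HasDerivAt p₂ p₂' s) (h₃ : HasDerivAt q₁ q₁' s)
    (h₄ : HasDerivAt q₂ q₂' s) :
    HasDerivAt (fun r => d.G1 (t r) (p₁ r) (p₂ r) (q₁ r) (q₂ r))
      (τ * d.G2 (t s) (p₁ s) (p₂ s) (q₁ s) (q₂ s) + d.G1 (t s) p₁' p₂' (q₁ s) (q₂ s) +
        d.G1 (t s) (p₁ s) (p₂ s) q₁' q₂') s := by
  refine (hd_bf (hd_comp (sm_deriv h.smA) hm ht) (hd_comp (sm_deriv h.smB) hm ht)
    (hd_comp (sm_deriv h.smC) hm ht) h₁ h₂ h₃ h₄).congr_deriv ?_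
  simp only [ND.G2, ND.G1, bf]
  ring

lemma hd_H1 (h : d.Prof) (hm : t s ∈ Ioo (-3 : ℝ) 3) (ht : HasDerivAt t τ s)
    (h₁ : HasDerivAt p₁ p₁' s) (h₂ : HasDerivAt p₂ p₂' s) (h₃ : HasDerivAt q₁ q₁' s)
    (h₄ : HasDerivAt q₂ q₂' s) :
    HasDerivAt (fun r => d.H1 (t r) (p₁ r) (p₂ r) (q₁ r) (q₂ r))
      (τ * H2 d (t s) (p₁ s) (p₂ s) (q₁ s) (q₂ s) + d.H1 (t s) p₁' p₂' (q₁ s) (q₂ s) +
        d.H1 (t s) (p₁ s) (p₂ s) q₁' q₂') s := by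
  refine (hd_bf (hd_comp (sm_deriv (sm11 h)) hm ht) (hd_comp (sm_deriv (sm22 h)) hm ht)
    (hd_comp (sm_deriv (sm12 h)) hm ht) h₁ h₂ h₃ h₄).congr_deriv ?_
  simp only [H2, ND.H1, bf]
  ring

end

/-! ### Explicit values on the collars -/

lemma deriv_on {f g g' : ℝ → ℝ} {I : Set ℝ} (hI : IsOpen I) (hfg : ∀ x ∈ I, f x = g x)
    (hg : ∀ x ∈ I, HasDerivAt g (g' x) x) : ∀ x ∈ I, deriv f x = g' x := fun x hx => by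
  refine ((hg x hx).congr_of_eventuallyEq ?_).deriv
  filter_upwards [hI.mem_nhds hx] with y hy using hfg y hy

lemma deriv_on_const {f : ℝ → ℝ} {k : ℝ} {I : Set ℝ} (hI : IsOpen I) (hf : ∀ x ∈ I, f x = k) :
    ∀ x ∈ I, deriv f x = 0 :=
  deriv_on (g := fun _ => k) (g' := fun _ => 0) hI hf fun x _ => hasDerivAt_const x k

section
variable {u f : ℝ → ℝ} {m k ε : ℝ} {I : Set ℝ}

lemma inv1 (hI : IsOpen I) (hu : ∀ x, HasDerivAt u m x) (h0 : ∀ x ∈ I, u x ≠ 0)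
    (hf : ∀ x ∈ I, f x = k + ε * (u x ^ 2)⁻¹) : ∀ x ∈ I, deriv f x = ε * (-2 * m / u x ^ 3) := by
  refine deriv_on hI hf fun x hx => ?_
  have := h0 x hx
  refine (((((hu x).pow 2).inv (pow_ne_zero 2 this)).const_mul ε).const_add k).congr_deriv ?_
  simp only [Pi.pow_apply]
  field_simp
  ring

lemma inv2 (hI : IsOpen I) (hu : ∀ x, HasDerivAt u m x) (h0 : ∀ x ∈ I, u x ≠ 0)
    (hf : ∀ x ∈ I, f x = k + ε * (u x ^ 2)⁻¹) :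
    ∀ x ∈ I, deriv (deriv f) x = ε * (6 * m ^ 2 / u x ^ 4) := by
  refine deriv_on hI (inv1 hI hu h0 hf) fun x hx => ?_
  have := h0 x hx
  refine (((hasDerivAt_const x (-2 * m)).div ((hu x).pow 3)
    (pow_ne_zero 3 this)).const_mul ε).congr_deriv ?_
  simp only [Pi.pow_apply]
  field_simp
  ring

lemma sq1 (hI : IsOpen I) (hu : ∀ x, HasDerivAt u m x) (hf : ∀ x ∈ I, f x = k + u x ^ 2) :
    ∀ x ∈ I, deriv f x = 2 * m * u x := by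
  refine deriv_on hI hf fun x _ => ?_
  refine (((hu x).pow 2).const_add k).congr_deriv ?_
  simp only [Nat.cast_ofNat, Nat.add_one_sub_one, pow_one]
  ring

lemma sq2 (hI : IsOpen I) (hu : ∀ x, HasDerivAt u m x) (hf : ∀ x ∈ I, f x = k + u x ^ 2) :
    ∀ x ∈ I, deriv (deriv f) x = 2 * m * m :=
  deriv_on hI (sq1 hI hu hf) fun x _ => (hu x).const_mul (2 * m)

end

/-- The forms on the left collar. -/
structure ColL (d : ND) (t a m l : ℝ) : Prop where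
  ha : 0 < a
  hm : m < 0
  hl : 0 < l
  g0 : ∀ p₁ p₂ q₁ q₂, d.G0 t p₁ p₂ q₁ q₂ = p₁ * q₁ / a ^ 2 + p₂ * q₂ / l ^ 2
  g1 : ∀ p₁ p₂ q₁ q₂, d.G1 t p₁ p₂ q₁ q₂ = -2 * m / a ^ 3 * (p₁ * q₁)
  g2 : ∀ p₁ p₂ q₁ q₂, d.G2 t p₁ p₂ q₁ q₂ = 6 * m ^ 2 / a ^ 4 * (p₁ * q₁)
  h1 : ∀ p₁ p₂ q₁ q₂, d.H1 t p₁ p₂ q₁ q₂ = 2 * m * a * (p₁ * q₁)
  h2 : ∀ p₁ p₂ q₁ q₂, H2 d t p₁ p₂ q₁ q₂ = 2 * m * m * (p₁ * q₁)

/-- The forms on the right collar. -/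
structure ColR (d : ND) (t a m l : ℝ) : Prop where
  ha : 0 < a
  hm : 0 < m
  hl : 0 < l
  g0 : ∀ p₁ p₂ q₁ q₂, d.G0 t p₁ p₂ q₁ q₂ = (p₂ - p₁) * (q₂ - q₁) / a ^ 2 + p₁ * q₁ / l ^ 2
  g1 : ∀ p₁ p₂ q₁ q₂, d.G1 t p₁ p₂ q₁ q₂ = -2 * m / a ^ 3 * ((p₂ - p₁) * (q₂ - q₁))
  g2 : ∀ p₁ p₂ q₁ q₂, d.G2 t p₁ p₂ q₁ q₂ = 6 * m ^ 2 / a ^ 4 * ((p₂ - p₁) * (q₂ - q₁))
  h1 : ∀ p₁ p₂ q₁ q₂, d.H1 t p₁ p₂ q₁ q₂ = 2 * m * a * (p₂ * q₂)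
  h2 : ∀ p₁ p₂ q₁ q₂, H2 d t p₁ p₂ q₁ q₂ = 2 * m * m * (p₂ * q₂)

lemma colL (h : d.Prof) {t : ℝ} (ht : t ∈ Ioo (-3 : ℝ) (-2)) :
    ColL d t (2 * Real.pi * (d.ρ₁ - t)) (-(2 * Real.pi)) d.l₁ := by
  have hI : IsOpen (Ioo (-3 : ℝ) (-2)) := isOpen_Ioo
  have hu : ∀ x, HasDerivAt (fun x => 2 * Real.pi * (d.ρ₁ - x)) (-(2 * Real.pi)) x := fun x => by
    simpa using ((hasDerivAt_id x).const_sub d.ρ₁).const_mul (2 * Real.pi)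
  have hpos : ∀ x ∈ Ioo (-3 : ℝ) (-2), 0 < 2 * Real.pi * (d.ρ₁ - x) := fun x hx =>
    mul_pos Real.two_pi_pos (by linarith [h.hρ₁, hx.2])
  have h0 := fun x hx => (hpos x hx).ne'
  have hl := h.hl₁.ne'
  have hv := fun x (hx : x ∈ Ioo (-3 : ℝ) (-2)) => h.left x ⟨hx.1, hx.2.le⟩
  have hA : ∀ x ∈ Ioo (-3 : ℝ) (-2), d.A x = 0 + 1 * ((2 * Real.pi * (d.ρ₁ - x)) ^ 2)⁻¹ :=
    fun x hx => by rw [(hv x hx).1]; ring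
  have hB := fun x hx => (hv x hx).2.1
  have hC := fun x hx => (hv x hx).2.2
  have h11 : ∀ x ∈ Ioo (-3 : ℝ) (-2), d.h11 x = 0 + (2 * Real.pi * (d.ρ₁ - x)) ^ 2 :=
    fun x hx => by
      have := h0 x hx
      rw [ND.h11, hA x hx, hB x hx, hC x hx]
      generalize 2 * Real.pi * (d.ρ₁ - x) = a at *
      field_simp
      ring
  have h22 : ∀ x ∈ Ioo (-3 : ℝ) (-2), d.h22 x = d.l₁ ^ 2 := fun x hx => by
    have := h0 x hx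
    rw [ND.h22, hA x hx, hB x hx, hC x hx]
    generalize 2 * Real.pi * (d.ρ₁ - x) = a at *
    field_simp
    ring
  have h12 : ∀ x ∈ Ioo (-3 : ℝ) (-2), d.h12 x = 0 := fun x hx => by
    rw [ND.h12, hC x hx]; simp
  refine ⟨hpos t ht, by linarith [Real.two_pi_pos], h.hl₁, ?_, ?_, ?_, ?_, ?_⟩ <;>
    intro p₁ p₂ q₁ q₂
  · rw [ND.G0, bf, hA t ht, hB t ht, hC t ht]; ring
  · rw [ND.G1, bf, inv1 hI hu h0 hA t ht, deriv_on_const hI hB t ht, deriv_on_const hI hC t ht]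
    ring
  · rw [ND.G2, bf, inv2 hI hu h0 hA t ht, deriv_on_const hI (deriv_on_const hI hB) t ht,
      deriv_on_const hI (deriv_on_const hI hC) t ht]
    ring
  · rw [ND.H1, bf, sq1 hI hu h11 t ht, deriv_on_const hI h22 t ht, deriv_on_const hI h12 t ht]
    ring
  · rw [H2, bf, sq2 hI hu h11 t ht, deriv_on_const hI (deriv_on_const hI h22) t ht,
      deriv_on_const hI (deriv_on_const hI h12) t ht]
    ring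

lemma colR (h : d.Prof) {t : ℝ} (ht : t ∈ Ioo (2 : ℝ) 3) :
    ColR d t (2 * Real.pi * (d.ρ₂ + t)) (2 * Real.pi) d.l₂ := by
  have hI : IsOpen (Ioo (2 : ℝ) 3) := isOpen_Ioo
  have hu : ∀ x, HasDerivAt (fun x => 2 * Real.pi * (d.ρ₂ + x)) (2 * Real.pi) x := fun x => by
    simpa using ((hasDerivAt_id x).const_add d.ρ₂).const_mul (2 * Real.pi)
  have hpos : ∀ x ∈ Ioo (2 : ℝ) 3, 0 < 2 * Real.pi * (d.ρ₂ + x) := fun x hx =>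
    mul_pos Real.two_pi_pos (by linarith [h.hρ₂, hx.1])
  have h0 := fun x hx => (hpos x hx).ne'
  have hl := h.hl₂.ne'
  have hv := fun x (hx : x ∈ Ioo (2 : ℝ) 3) => h.right x ⟨hx.1.le, hx.2⟩
  have hA : ∀ x ∈ Ioo (2 : ℝ) 3,
      d.A x = (d.l₂ ^ 2)⁻¹ + 1 * ((2 * Real.pi * (d.ρ₂ + x)) ^ 2)⁻¹ :=
    fun x hx => by rw [(hv x hx).1]; ring
  have hB : ∀ x ∈ Ioo (2 : ℝ) 3, d.B x = 0 + 1 * ((2 * Real.pi * (d.ρ₂ + x)) ^ 2)⁻¹ :=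
    fun x hx => by rw [(hv x hx).2.1]; ring
  have hC : ∀ x ∈ Ioo (2 : ℝ) 3, d.C x = 0 + -1 * ((2 * Real.pi * (d.ρ₂ + x)) ^ 2)⁻¹ :=
    fun x hx => by rw [(hv x hx).2.2]; ring
  have hD : ∀ x ∈ Ioo (2 : ℝ) 3, d.A x * d.B x - d.C x ^ 2 =
      (d.l₂ ^ 2)⁻¹ * ((2 * Real.pi * (d.ρ₂ + x)) ^ 2)⁻¹ := fun x hx => by
    rw [hA x hx, hB x hx, hC x hx]; ring
  have h11 : ∀ x ∈ Ioo (2 : ℝ) 3, d.h11 x = d.l₂ ^ 2 := fun x hx => by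
    have := h0 x hx
    rw [ND.h11, hD x hx, hB x hx]
    generalize 2 * Real.pi * (d.ρ₂ + x) = a at *
    field_simp
    ring
  have h22 : ∀ x ∈ Ioo (2 : ℝ) 3, d.h22 x = d.l₂ ^ 2 + (2 * Real.pi * (d.ρ₂ + x)) ^ 2 :=
    fun x hx => by
      have := h0 x hx
      rw [ND.h22, hD x hx, hA x hx]
      generalize 2 * Real.pi * (d.ρ₂ + x) = a at *
      field_simp
      ring
  have h12 : ∀ x ∈ Ioo (2 : ℝ) 3, d.h12 x = d.l₂ ^ 2 := fun x hx => by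
    have := h0 x hx
    rw [ND.h12, hD x hx, hC x hx]
    generalize 2 * Real.pi * (d.ρ₂ + x) = a at *
    field_simp
    ring
  refine ⟨hpos t ht, Real.two_pi_pos, h.hl₂, ?_, ?_, ?_, ?_, ?_⟩ <;> intro p₁ p₂ q₁ q₂
  · rw [ND.G0, bf, hA t ht, hB t ht, hC t ht]; ring
  · rw [ND.G1, bf, inv1 hI hu h0 hA t ht, inv1 hI hu h0 hB t ht, inv1 hI hu h0 hC t ht]
    ring
  · rw [ND.G2, bf, inv2 hI hu h0 hA t ht, inv2 hI hu h0 hB t ht, inv2 hI hu h0 hC t ht]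
    ring
  · rw [ND.H1, bf, sq1 hI hu h22 t ht, deriv_on_const hI h11 t ht, deriv_on_const hI h12 t ht]
    ring
  · rw [H2, bf, sq2 hI hu h22 t ht, deriv_on_const hI (deriv_on_const hI h11) t ht,
      deriv_on_const hI (deriv_on_const hI h12) t ht]
    ring

lemma collar (h : d.Prof) {t : ℝ} (ht : t ∈ Ioo (-3 : ℝ) 3) (h2 : 2 < |t|) :
    (∃ a m l, ColL d t a m l) ∨ ∃ a m l, ColR d t a m l := by
  rcases lt_abs.1 h2 with h3 | h3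
  · exact Or.inr ⟨_, _, _, colR h ⟨h3, ht.2⟩⟩
  · exact Or.inl ⟨_, _, _, colL h ⟨ht.1, by linarith⟩⟩

/-- The derivative of the geometric form. -/
noncomputable def dQg (d : ND) (t τ p₁ p₂ dt dτ dx dy q₁ q₂ : ℝ) : ℝ :=
  (-d.G2 t p₁ p₂ p₁ p₂ * dt / 2 - d.G1 t p₁ p₂ q₁ q₂) * dt + dτ * dτ +
    q₁ * (d.G0 t q₁ q₂ 1 0 + d.G1 t p₁ p₂ 1 0 * dt) +
    q₂ * (d.G0 t q₁ q₂ 0 1 + d.G1 t p₁ p₂ 0 1 * dt) +
    (-d.G1 t p₁ p₂ p₁ p₂ / 2 * d.H1 t dx dy dx dy +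
      τ * (τ * H2 d t dx dy dx dy +
        2 * d.H1 t dx dy (d.G0 t q₁ q₂ 1 0 + d.G1 t p₁ p₂ 1 0 * dt)
          (d.G0 t q₁ q₂ 0 1 + d.G1 t p₁ p₂ 0 1 * dt))) / 2 -
    (dτ * d.H1 t (d.G0 t p₁ p₂ 1 0) (d.G0 t p₁ p₂ 0 1) dx dy +
      dt * (τ * H2 d t (d.G0 t p₁ p₂ 1 0) (d.G0 t p₁ p₂ 0 1) dx dy +
        d.H1 t (τ * d.G1 t p₁ p₂ 1 0) (τ * d.G1 t p₁ p₂ 0 1) dx dy +
        d.H1 t (d.G0 t p₁ p₂ 1 0) (d.G0 t p₁ p₂ 0 1) (d.G0 t q₁ q₂ 1 0 + d.G1 t p₁ p₂ 1 0 * dt)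
          (d.G0 t q₁ q₂ 0 1 + d.G1 t p₁ p₂ 0 1 * dt)))

lemma hd_Qg {t τ p₁ p₂ dt dτ dx dy q₁ q₂ : ℝ → ℝ} {s : ℝ} (h : d.Prof)
    (hH : d.Ham t τ p₁ p₂ dt dτ dx dy q₁ q₂ s) :
    HasDerivAt (fun r => d.Qg (t r) (τ r) (p₁ r) (p₂ r) (dt r) (dτ r) (dx r) (dy r)
      (q₁ r) (q₂ r))
      (dQg d (t s) (τ s) (p₁ s) (p₂ s) (dt s) (dτ s) (dx s) (dy s) (q₁ s) (q₂ s)) s := by
  have v₁ := hd_G0 h hH.mem hH.ht hH.hp₁ hH.hp₂ (hasDerivAt_const s 1) (hasDerivAt_const s 0)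
  have v₂ := hd_G0 h hH.mem hH.ht hH.hp₁ hH.hp₂ (hasDerivAt_const s 0) (hasDerivAt_const s 1)
  have a := hd_H1 h hH.mem hH.ht hH.hdx hH.hdy hH.hdx hH.hdy
  have b := hd_H1 h hH.mem hH.ht v₁ v₂ hH.hdx hH.hdy
  refine (((((hH.hdτ.mul hH.hdt).add (hH.hq₁.mul hH.hdx)).add (hH.hq₂.mul hH.hdy)).add
    ((hH.hτ.mul a).div_const 2)).sub (hH.hdt.mul b)).congr_deriv ?_
  simp only [dQg, ND.G0, ND.H1, bf]
  ring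

lemma dQg_L {t a m l : ℝ} (hc : ColL d t a m l) (τ p₁ p₂ dt dτ dx dy q₁ q₂ : ℝ) :
    dQg d t τ p₁ p₂ dt dτ dx dy q₁ q₂ = (dτ - m * p₁ * dx / a) ^ 2 +
      (q₁ / a - m * p₁ * dt / a ^ 2 + τ * m * dx) ^ 2 + (q₂ / l) ^ 2 := by
  have := hc.ha.ne'
  have := hc.hl.ne'
  simp only [dQg, hc.g0, hc.g1, hc.g2, hc.h1, hc.h2]
  field_simp
  ring

lemma dQg_R {t a m l : ℝ} (hc : ColR d t a m l) (τ p₁ p₂ dt dτ dx dy q₁ q₂ : ℝ) :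
    dQg d t τ p₁ p₂ dt dτ dx dy q₁ q₂ = (dτ - m * (p₂ - p₁) * dy / a) ^ 2 +
      ((q₂ - q₁) / a - m * (p₂ - p₁) * dt / a ^ 2 + τ * m * dy) ^ 2 + (q₁ / l) ^ 2 := by
  have := hc.ha.ne'
  have := hc.hl.ne'
  simp only [dQg, hc.g0, hc.g1, hc.g2, hc.h1, hc.h2]
  field_simp
  ring

lemma three_sq {x y z : ℝ} (h : x ^ 2 + y ^ 2 + z ^ 2 = 0) : x = 0 ∧ y = 0 ∧ z = 0 := by
  refine ⟨?_, ?_, ?_⟩ <;> apply pow_eq_zero_iff two_ne_zero |>.1 <;>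
    nlinarith [sq_nonneg x, sq_nonneg y, sq_nonneg z]

lemma hd_V (h : d.Prof) (p₁ p₂ : ℝ) {t : ℝ} (ht : t ∈ Ioo (-3 : ℝ) 3) :
    HasDerivAt (fun x => d.G0 x p₁ p₂ p₁ p₂) (d.G1 t p₁ p₂ p₁ p₂) t := by
  refine (hd_G0 (t := fun x => x) h ht (hasDerivAt_id t) (hasDerivAt_const t p₁)
    (hasDerivAt_const t p₂) (hasDerivAt_const t p₁) (hasDerivAt_const t p₂)).congr_deriv ?_
  simp [ND.G0, bf]

/-- A critical point of the potential is a global maximum. -/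
lemma max_of_crit (h : d.Prof) {p₁ p₂ t : ℝ} (ht : t ∈ Ioo (-3 : ℝ) 3)
    (h0 : d.G1 t p₁ p₂ p₁ p₂ = 0) {t' : ℝ} (ht' : t' ∈ Ioo (-3 : ℝ) 3) :
    d.G0 t' p₁ p₂ p₁ p₂ ≤ d.G0 t p₁ p₂ p₁ p₂ := by
  rcases lt_trichotomy t t' with hlt | rfl | hlt
  · obtain ⟨x, hx, e⟩ := exists_hasDerivAt_eq_slope (fun x => d.G0 x p₁ p₂ p₁ p₂)
      (fun x => d.G1 x p₁ p₂ p₁ p₂) hlt
      (fun x hx => (hd_V h p₁ p₂ ⟨ht.1.trans_le hx.1, hx.2.trans_lt ht'.2⟩).continuousAt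
        |>.continuousWithinAt)
      (fun x hx => hd_V h p₁ p₂ ⟨ht.1.trans hx.1, hx.2.trans ht'.2⟩)
    by_contra hcon
    have : 0 < d.G1 x p₁ p₂ p₁ p₂ := by
      rw [e]; exact div_pos (by linarith) (by linarith)
    have := h.uniL p₁ p₂ t ht x ⟨ht.1.trans hx.1, hx.2.trans ht'.2⟩ hx.1.le this
    linarith
  · exact le_rfl
  · obtain ⟨x, hx, e⟩ := exists_hasDerivAt_eq_slope (fun x => d.G0 x p₁ p₂ p₁ p₂)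
      (fun x => d.G1 x p₁ p₂ p₁ p₂) hlt
      (fun x hx => (hd_V h p₁ p₂ ⟨ht'.1.trans_le hx.1, hx.2.trans_lt ht.2⟩).continuousAt
        |>.continuousWithinAt)
      (fun x hx => hd_V h p₁ p₂ ⟨ht'.1.trans hx.1, hx.2.trans ht.2⟩)
    by_contra hcon
    have : d.G1 x p₁ p₂ p₁ p₂ < 0 := by
      rw [e]; exact div_neg_of_neg_of_pos (by linarith) (by linarith)
    have := h.uniR p₁ p₂ x ⟨ht'.1.trans hx.1, hx.2.trans ht.2⟩ t ht hx.2.le this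
    linarith

/-- A global maximum of the potential is a critical point. -/
lemma crit_of_max (h : d.Prof) {p₁ p₂ t : ℝ} (ht : t ∈ Ioo (-3 : ℝ) 3)
    (hm : ∀ t' ∈ Ioo (-3 : ℝ) 3, d.G0 t' p₁ p₂ p₁ p₂ ≤ d.G0 t p₁ p₂ p₁ p₂) :
    d.G1 t p₁ p₂ p₁ p₂ = 0 := by
  refine IsLocalMax.hasDerivAt_eq_zero ?_ (hd_V h p₁ p₂ ht)
  filter_upwards [isOpen_Ioo.mem_nhds ht] with x hx using hm x hx

lemma om_one {t : ℝ} (ht : 5 / 2 < |t|) : ND.om t = 1 := by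
  rcases lt_abs.1 ht with h | h
  · rw [ND.om, Real.smoothTransition.one_of_one_le (by linarith),
      Real.smoothTransition.zero_of_nonpos (by linarith), add_zero]
  · rw [ND.om, Real.smoothTransition.zero_of_nonpos (by linarith),
      Real.smoothTransition.one_of_one_le (by linarith), zero_add]

lemma ColL.nonneg {t a m l : ℝ} (hc : ColL d t a m l) (p₁ p₂ : ℝ) : 0 ≤ d.G1 t p₁ p₂ p₁ p₂ := by
  rw [hc.g1]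
  exact mul_nonneg (div_nonneg (by linarith [hc.hm]) (pow_pos hc.ha 3).le) (mul_self_nonneg _)

lemma ColR.nonpos {t a m l : ℝ} (hc : ColR d t a m l) (p₁ p₂ : ℝ) : d.G1 t p₁ p₂ p₁ p₂ ≤ 0 := by
  rw [hc.g1]
  exact mul_nonpos_of_nonpos_of_nonneg
    (div_nonpos_of_nonpos_of_nonneg (by linarith [hc.hm]) (pow_pos hc.ha 3).le) (mul_self_nonneg _)

lemma ColL.zero_iff {t a m l : ℝ} (hc : ColL d t a m l) {p₁ p₂ : ℝ} :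
    d.G1 t p₁ p₂ p₁ p₂ = 0 ↔ p₁ = 0 := by
  simp [hc.g1, hc.ha.ne', hc.hm.ne]

lemma ColR.zero_iff {t a m l : ℝ} (hc : ColR d t a m l) {p₁ p₂ : ℝ} :
    d.G1 t p₁ p₂ p₁ p₂ = 0 ↔ p₂ - p₁ = 0 := by
  simp [hc.g1, hc.ha.ne', hc.hm.ne']

lemma ColL.Qc_eq {t a m l : ℝ} (hc : ColL d t a m l) {τ p₁ p₂ dt dτ dx dy q₁ q₂ : ℝ}
    (hp : p₁ ≠ 0) (h0 : d.dH t τ p₁ p₂ dt dτ q₁ q₂ = 0) :
    d.Qc (-dx / d.G0 t p₁ p₂ 1 0) t τ p₁ p₂ dt dτ dx dy q₁ q₂ =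
      d.Qg t τ p₁ p₂ dt dτ dx dy q₁ q₂ := by
  have := hc.ha.ne'
  have := hc.hl.ne'
  have e : d.Qc (-dx / d.G0 t p₁ p₂ 1 0) t τ p₁ p₂ dt dτ dx dy q₁ q₂ =
      d.Qg t τ p₁ p₂ dt dτ dx dy q₁ q₂ +
        (-dx / d.G0 t p₁ p₂ 1 0) * d.dH t τ p₁ p₂ dt dτ q₁ q₂ := by
    simp only [ND.Qc, ND.Qg, ND.dH, hc.g0, hc.g1, hc.h1, mul_zero, zero_div, add_zero, mul_one]
    field_simp
    ring
  rw [e, h0, mul_zero, add_zero]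

lemma ColR.Qc_eq {t a m l : ℝ} (hc : ColR d t a m l) {τ p₁ p₂ dt dτ dx dy q₁ q₂ : ℝ}
    (hp : p₂ - p₁ ≠ 0) (h0 : d.dH t τ p₁ p₂ dt dτ q₁ q₂ = 0) :
    d.Qc (-dy / d.G0 t p₁ p₂ 0 1) t τ p₁ p₂ dt dτ dx dy q₁ q₂ =
      d.Qg t τ p₁ p₂ dt dτ dx dy q₁ q₂ := by
  have := hc.ha.ne'
  have := hc.hl.ne'
  have e : d.Qc (-dy / d.G0 t p₁ p₂ 0 1) t τ p₁ p₂ dt dτ dx dy q₁ q₂ =
      d.Qg t τ p₁ p₂ dt dτ dx dy q₁ q₂ +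
        (-dy / d.G0 t p₁ p₂ 0 1) * d.dH t τ p₁ p₂ dt dτ q₁ q₂ := by
    simp only [ND.Qc, ND.Qg, ND.dH, hc.g0, hc.g1, hc.h1, mul_zero, zero_div, add_zero, mul_one,
      sub_zero]
    field_simp
    ring
  rw [e, h0, mul_zero, add_zero]

end Neck2

open Neck1 Neck2

namespace ND

variable {d : ND} {t τ p₁ p₂ dt dτ dx dy q₁ q₂ : ℝ → ℝ} {s : ℝ}

/-- Derivative of `Qc` for a differentiable coefficient `c`. -/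
theorem Prof.hasDerivAt_Qc (h : d.Prof) (hH : d.Ham t τ p₁ p₂ dt dτ dx dy q₁ q₂ s)
    (h0 : d.dH (t s) (τ s) (p₁ s) (p₂ s) (dt s) (dτ s) (q₁ s) (q₂ s) = 0)
    {c : ℝ → ℝ} {c' : ℝ} (hc : HasDerivAt c c' s) :
    HasDerivAt (fun r => d.Qc (c r) (t r) (τ r) (p₁ r) (p₂ r) (dt r) (dτ r) (dx r) (dy r)
      (q₁ r) (q₂ r))
      ((dτ s - c s * d.G1 (t s) (p₁ s) (p₂ s) (p₁ s) (p₂ s) / 2) ^ 2 +
        d.G0 (t s) (q₁ s) (q₂ s) (q₁ s) (q₂ s) -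
        d.G2 (t s) (p₁ s) (p₂ s) (p₁ s) (p₂ s) * (dt s + c s * τ s) ^ 2 / 2 -
        c' * d.G1 (t s) (p₁ s) (p₂ s) (p₁ s) (p₂ s) * (dt s + c s * τ s)) s := by
  have v₁ := hd_G0 h hH.mem hH.ht hH.hp₁ hH.hp₂ (hasDerivAt_const s 1) (hasDerivAt_const s 0)
  have v₂ := hd_G0 h hH.mem hH.ht hH.hp₁ hH.hp₂ (hasDerivAt_const s 0) (hasDerivAt_const s 1)
  have a := hd_G1 h hH.mem hH.ht hH.hp₁ hH.hp₂ hH.hp₁ hH.hp₂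
  refine ((((hH.hdτ.sub ((hc.mul a).div_const 2)).mul (hH.hdt.add (hc.mul hH.hτ))).add
    (hH.hq₁.mul (hH.hdx.add (hc.mul v₁)))).add
    (hH.hq₂.mul (hH.hdy.add (hc.mul v₂)))).congr_deriv ?_
  simp only [ND.dH, ND.G0, ND.G1, bf, Pi.mul_apply, Pi.add_apply, Pi.sub_apply] at h0 ⊢
  linear_combination c' * h0

/-- The geometric form is differentiable, and monotone on the flat collars. -/
theorem Prof.hasDerivAt_Qg (h : d.Prof) (hH : d.Ham t τ p₁ p₂ dt dτ dx dy q₁ q₂ s) :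
    ∃ q, HasDerivAt (fun r => d.Qg (t r) (τ r) (p₁ r) (p₂ r) (dt r) (dτ r) (dx r) (dy r)
      (q₁ r) (q₂ r)) q s ∧ (2 < |t s| → 0 ≤ q ∧ (q = 0 → dt s = 0 → dx s = 0 → dy s = 0 →
        dτ s = 0 ∧ q₁ s = 0 ∧ q₂ s = 0)) := by
  refine ⟨_, hd_Qg h hH, fun h2 => ?_⟩
  rcases collar h hH.mem h2 with ⟨a, m, l, hc⟩ | ⟨a, m, l, hc⟩
  · rw [dQg_L hc]
    refine ⟨by positivity, fun hq h₁ h₂ _ => ?_⟩
    have := three_sq hq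
    simpa [h₁, h₂, hc.ha.ne', hc.hl.ne'] using this
  · rw [dQg_R hc]
    refine ⟨by positivity, fun hq h₁ _ h₂ => ?_⟩
    have := three_sq hq
    simp only [h₁, h₂, mul_zero, zero_div, sub_zero, add_zero, div_eq_zero_iff, hc.ha.ne',
      hc.hl.ne', or_false] at this
    exact ⟨this.1, this.2.2, by linarith [this.2.1, this.2.2]⟩

/-- On the outer collars the monotone form is the geometric form. -/
theorem Prof.NQ_eq (h : d.Prof) {t τ p₁ p₂ dt dτ dx dy q₁ q₂ : ℝ} (ht : t ∈ Ioo (-3 : ℝ) 3)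
    (ht' : 5 / 2 < |t|) (h0 : d.dH t τ p₁ p₂ dt dτ q₁ q₂ = 0) :
    d.NQ t τ p₁ p₂ dt dτ dx dy q₁ q₂ = d.Qg t τ p₁ p₂ dt dτ dx dy q₁ q₂ := by
  have hcol := collar h ht (by linarith)
  rw [ND.NQ]
  split_ifs with h1 h2 h3
  · rcases hcol with ⟨a, m, l, hc⟩ | ⟨a, m, l, hc⟩
    · exact hc.Qc_eq (fun e => h2.ne' (hc.zero_iff.2 e)) h0
    · exact absurd h2 (not_lt.2 (hc.nonpos _ _))
  · have hne : d.G1 t p₁ p₂ p₁ p₂ ≠ 0 := fun e => by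
      obtain ⟨t', ht'', hlt⟩ := h1
      have := max_of_crit h ht e ht''
      nlinarith [sq_nonneg τ]
    rcases hcol with ⟨a, m, l, hc⟩ | ⟨a, m, l, hc⟩
    · exact absurd (lt_of_le_of_ne (hc.nonneg _ _) hne.symm) h2
    · exact hc.Qc_eq (fun e => hne (hc.zero_iff.2 e)) h0
  · have hz : d.G1 t p₁ p₂ p₁ p₂ = 0 := crit_of_max h ht fun t' ht'' => by
      by_contra hcon
      exact h1 ⟨t', ht'', by rw [h3]; linarith⟩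
    rcases hcol with ⟨a, m, l, hc⟩ | ⟨a, m, l, hc⟩
    · simp [ND.Qc, ND.Qg, h3, hc.g0, hc.h1, hc.zero_iff.1 hz]
    · simp [ND.Qc, ND.Qg, h3, hc.g0, hc.h1, hc.zero_iff.1 hz]
  · rw [om_one ht']
    ring

theorem NQ_zero (d : ND) (t τ p₁ p₂ dτ q₁ q₂ : ℝ) : d.NQ t τ p₁ p₂ 0 dτ 0 0 q₁ q₂ = 0 := by
  simp [ND.NQ, ND.Qc, ND.Qg, ND.H1, bf]

end ND

end Vale.Agent.P255
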