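import Vale.Agent.P255.Neck2

open scoped Manifold ContDiff Topology
open Set Filter

set_option maxSynthPendingDepth 3

namespace Vale.Agent.P255

theorem locconst_Neck3 {f : ℝ → ℝ} {s : ℝ} (h : ∀ᶠ r in 𝓝 s, HasDerivAt f 0 r) :
    ∀ᶠ r in 𝓝 s, f r = f s := by
  obtain ⟨ε, hε, h1⟩ := Metric.eventually_nhds_iff_ball.1 h
  filter_upwards [Metric.ball_mem_nhds s hε] with r hr
  exact Metric.isOpen_ball.is_const_of_deriv_eq_zero (convex_ball s ε).isPreconnected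
    (fun x hx => (h1 x hx).differentiableAt.differentiableWithinAt)
    (fun x hx => (h1 x hx).deriv) hr (Metric.mem_ball_self hε)

theorem hd_Neck3 {f : ℝ → ℝ} (h : ContDiffOn ℝ ∞ f (Ioo (-3) 3)) {t : ℝ}
    (ht : t ∈ Ioo (-3 : ℝ) 3) : HasDerivAt f (deriv f t) t :=
  ((h.contDiffAt (isOpen_Ioo.mem_nhds ht)).differentiableAt (by simp)).hasDerivAt

theorem cd_Neck3 {f : ℝ → ℝ} (h : ContDiffOn ℝ ∞ f (Ioo (-3) 3)) {t : ℝ}
    (ht : t ∈ Ioo (-3 : ℝ) 3) : ContDiffAt ℝ 1 (deriv f) t := by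
  have h2 : (1 + 1 : WithTop ℕ∞) ≤ ∞ := by
    have h3 : (2 : WithTop ℕ∞) ≤ ∞ := ENat.LEInfty.out
    have h4 : (1 + 1 : WithTop ℕ∞) = 2 := by norm_num
    rw [h4]
    exact h3
  exact ((h.contDiffAt (isOpen_Ioo.mem_nhds ht)).fderiv_right h2).clm_apply contDiffAt_const

theorem st_deriv_Neck3 (x : ℝ) :
    HasDerivAt Real.smoothTransition (deriv Real.smoothTransition x) x :=
  ((Real.smoothTransition.contDiffAt (n := 1)).differentiableAt (by simp)).hasDerivAt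

theorem st_zero_Neck3 {x : ℝ} (hx : x ≤ 0) : deriv Real.smoothTransition x = 0 := by
  refine IsLocalMin.deriv_eq_zero (Eventually.of_forall fun y => ?_)
  rw [Real.smoothTransition.zero_of_nonpos hx]
  exact Real.smoothTransition.nonneg y

namespace ND

theorem om_deriv_Neck3 (t : ℝ) : HasDerivAt om (deriv Real.smoothTransition (2 * t - 4) * 2 +
    deriv Real.smoothTransition (-2 * t - 4) * (-2)) t := by
  have h1 : HasDerivAt (fun t : ℝ => 2 * t - 4) 2 t := by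
    simpa using ((hasDerivAt_id t).const_mul 2).sub_const 4
  have h2 : HasDerivAt (fun t : ℝ => -2 * t - 4) (-2) t := by
    simpa using ((hasDerivAt_id t).const_mul (-2)).sub_const 4
  exact ((st_deriv_Neck3 _).comp t h1).add ((st_deriv_Neck3 _).comp t h2)

theorem om_mem_Neck3 (t : ℝ) : 0 ≤ om t ∧ om t ≤ 1 := by
  have h1 := Real.smoothTransition.nonneg (2 * t - 4)
  have h2 := Real.smoothTransition.nonneg (-2 * t - 4)
  have h3 := Real.smoothTransition.le_one (2 * t - 4)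
  have h4 := Real.smoothTransition.le_one (-2 * t - 4)
  unfold om
  refine ⟨by linarith, ?_⟩
  rcases le_total t 0 with h | h
  · rw [Real.smoothTransition.zero_of_nonpos (x := 2 * t - 4) (by linarith)]
    linarith
  · rw [Real.smoothTransition.zero_of_nonpos (x := -2 * t - 4) (by linarith)]
    linarith

variable {d : ND} {t τ p₁ p₂ dt dτ dx dy q₁ q₂ : ℝ → ℝ} {s : ℝ}

theorem Prof.hdG0_Neck3 (h : d.Prof) {t : ℝ} (ht : t ∈ Ioo (-3 : ℝ) 3) (a b c e : ℝ) :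
    HasDerivAt (fun x => d.G0 x a b c e) (d.G1 t a b c e) t :=
  ((((hd_Neck3 h.smA ht).mul_const a).mul_const c).add
    ((hd_Neck3 h.smC ht).mul_const _)).add (((hd_Neck3 h.smB ht).mul_const b).mul_const e)

theorem Prof.cdG1_Neck3 (h : d.Prof) {t : ℝ} (ht : t ∈ Ioo (-3 : ℝ) 3) (a b c e : ℝ) :
    ContDiffAt ℝ 1 (fun x => d.G1 x a b c e) t :=
  ((((cd_Neck3 h.smA ht).mul contDiffAt_const).mul contDiffAt_const).add
    ((cd_Neck3 h.smC ht).mul contDiffAt_const)).add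
      (((cd_Neck3 h.smB ht).mul contDiffAt_const).mul contDiffAt_const)

theorem Prof.G0_nonneg_Neck3 (h : d.Prof) {t : ℝ} (ht : t ∈ Ioo (-3 : ℝ) 3) (a b : ℝ) :
    0 ≤ d.G0 t a b a b := by
  have h1 := h.posA t ht
  have h2 := h.posD t ht
  have h3 : d.A t * d.G0 t a b a b =
      (d.A t * a + d.C t * b) ^ 2 + (d.A t * d.B t - d.C t ^ 2) * b ^ 2 := by
    unfold G0 bf
    ring
  have h4 : 0 ≤ d.A t * d.G0 t a b a b := by rw [h3]; positivity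
  exact nonneg_of_mul_nonneg_right h4 h1

theorem Prof.G0_zero_Neck3 (h : d.Prof) {t : ℝ} (ht : t ∈ Ioo (-3 : ℝ) 3) {x a b : ℝ}
    (h0 : x ^ 2 + d.G0 t a b a b = 0) : x = 0 ∧ a = 0 ∧ b = 0 := by
  have h1 := h.posA t ht
  have h2 := h.posD t ht
  have h3 : d.A t * d.G0 t a b a b =
      (d.A t * a + d.C t * b) ^ 2 + (d.A t * d.B t - d.C t ^ 2) * b ^ 2 := by
    unfold G0 bf
    ring
  have h4 := h.G0_nonneg_Neck3 ht a b
  have h5 : x ^ 2 = 0 := by nlinarith [sq_nonneg x]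
  have h6 : d.G0 t a b a b = 0 := by linarith
  rw [h6, mul_zero] at h3
  have h7 : 0 ≤ (d.A t * d.B t - d.C t ^ 2) * b ^ 2 := by positivity
  have h8 : (d.A t * d.B t - d.C t ^ 2) * b ^ 2 = 0 := by
    nlinarith [sq_nonneg (d.A t * a + d.C t * b)]
  have h9 : b = 0 := by simpa [h2.ne'] using h8
  rw [h9] at h3
  have h10 : a = 0 := by simpa [h1.ne'] using h3.symm
  exact ⟨by simpa using h5, h10, h9⟩

theorem Prof.max_Neck3 (h : d.Prof) {t a b : ℝ} (ht : t ∈ Ioo (-3 : ℝ) 3)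
    (h0 : d.G1 t a b a b = 0) {t' : ℝ} (ht' : t' ∈ Ioo (-3 : ℝ) 3) :
    d.G0 t' a b a b ≤ d.G0 t a b a b := by
  rcases le_total t t' with h1 | h1
  · have hs : Icc t t' ⊆ Ioo (-3 : ℝ) 3 := fun x hx => ⟨ht.1.trans_le hx.1, hx.2.trans_lt ht'.2⟩
    refine antitoneOn_of_deriv_nonpos (f := fun x => d.G0 x a b a b) (convex_Icc t t')
      (fun x hx => (h.hdG0_Neck3 (hs hx) a b a b).continuousAt.continuousWithinAt)
      (fun x hx => (h.hdG0_Neck3 (hs (interior_subset hx)) a b a b).differentiableAt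
        |>.differentiableWithinAt) (fun x hx => ?_) (left_mem_Icc.2 h1) (right_mem_Icc.2 h1) h1
    rw [(h.hdG0_Neck3 (hs (interior_subset hx)) a b a b).deriv]
    by_contra h2
    have h3 := h.uniL a b t ht x (hs (interior_subset hx)) (interior_subset hx).1 (not_le.1 h2)
    linarith
  · have hs : Icc t' t ⊆ Ioo (-3 : ℝ) 3 := fun x hx => ⟨ht'.1.trans_le hx.1, hx.2.trans_lt ht.2⟩
    refine monotoneOn_of_deriv_nonneg (f := fun x => d.G0 x a b a b) (convex_Icc t' t)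
      (fun x hx => (h.hdG0_Neck3 (hs hx) a b a b).continuousAt.continuousWithinAt)
      (fun x hx => (h.hdG0_Neck3 (hs (interior_subset hx)) a b a b).differentiableAt
        |>.differentiableWithinAt) (fun x hx => ?_) (left_mem_Icc.2 h1) (right_mem_Icc.2 h1) h1
    rw [(h.hdG0_Neck3 (hs (interior_subset hx)) a b a b).deriv]
    by_contra h2
    have h3 := h.uniR a b x (hs (interior_subset hx)) t ht (interior_subset hx).2 (not_le.1 h2)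
    linarith

theorem Prof.H1_vel_Neck3 (h : d.Prof) {t : ℝ} (ht : t ∈ Ioo (-3 : ℝ) 3) (a b : ℝ) :
    d.H1 t (d.G0 t a b 1 0) (d.G0 t a b 0 1) (d.G0 t a b 1 0) (d.G0 t a b 0 1) =
      -d.G1 t a b a b := by
  have hA := hd_Neck3 h.smA ht
  have hB := hd_Neck3 h.smB ht
  have hC := hd_Neck3 h.smC ht
  have hD := (h.posD t ht).ne'
  have h0 := (hA.mul hB).sub (hC.pow 2)
  have h1 : HasDerivAt d.h11 _ t := hB.div h0 hD
  have h2 : HasDerivAt d.h22 _ t := hA.div h0 hD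
  have h3 : HasDerivAt d.h12 _ t := hC.neg.div h0 hD
  unfold H1
  rw [h1.deriv, h2.deriv, h3.deriv]
  simp only [G0, G1, bf, Pi.neg_apply]
  field_simp
  ring

theorem Prof.H1_right_Neck3 (h : d.Prof) {t : ℝ} (ht : t ∈ Ioo (2 : ℝ) 3) (a b : ℝ) :
    0 ≤ d.H1 t a b a b := by
  have hl := h.hl₂
  have key : ∀ᶠ x in 𝓝 t, d.h11 x = d.l₂ ^ 2 ∧ d.h12 x = d.l₂ ^ 2 ∧
      d.h22 x = (2 * Real.pi * (d.ρ₂ + x)) ^ 2 + d.l₂ ^ 2 := by
    filter_upwards [isOpen_Ioo.mem_nhds ht] with x hx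
    obtain ⟨h1, h2, h3⟩ := h.right x ⟨hx.1.le, hx.2⟩
    have h4 : 0 < d.ρ₂ + x := by linarith [h.hρ₂, hx.1]
    have h5 : 0 < 2 * Real.pi * (d.ρ₂ + x) := by positivity
    have h6 : d.A x * d.B x - d.C x ^ 2 = (d.l₂ ^ 2)⁻¹ * ((2 * Real.pi * (d.ρ₂ + x)) ^ 2)⁻¹ := by
      rw [h1, h2, h3]
      ring
    unfold h11 h12 h22
    rw [h6, h1, h2, h3]
    generalize 2 * Real.pi * (d.ρ₂ + x) = y at h5
    refine ⟨?_, ?_, ?_⟩ <;> field_simp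
  have h1 : deriv d.h11 t = 0 := by
    rw [EventuallyEq.deriv_eq (key.mono fun x hx => hx.1), deriv_const]
  have h2 : deriv d.h12 t = 0 := by
    rw [EventuallyEq.deriv_eq (key.mono fun x hx => hx.2.1), deriv_const]
  have h3 : HasDerivAt (fun x => (2 * Real.pi * (d.ρ₂ + x)) ^ 2 + d.l₂ ^ 2) _ t :=
    ((((hasDerivAt_id t).const_add d.ρ₂).const_mul (2 * Real.pi)).pow 2).add_const _
  have h4 : 0 < d.ρ₂ + t := by linarith [h.hρ₂, ht.1]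
  unfold H1 bf
  rw [h1, h2, EventuallyEq.deriv_eq (key.mono fun x hx => hx.2.2), h3.deriv]
  simp only [id, zero_mul, zero_add, mul_assoc, ← sq]
  positivity

theorem Prof.H1_left_Neck3 (h : d.Prof) {t : ℝ} (ht : t ∈ Ioo (-3 : ℝ) (-2)) (a b : ℝ) :
    d.H1 t a b a b ≤ 0 := by
  have hl := h.hl₁
  have key : ∀ᶠ x in 𝓝 t, d.h11 x = (2 * Real.pi * (d.ρ₁ - x)) ^ 2 ∧ d.h12 x = 0 ∧
      d.h22 x = d.l₁ ^ 2 := by
    filter_upwards [isOpen_Ioo.mem_nhds ht] with x hx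
    obtain ⟨h1, h2, h3⟩ := h.left x ⟨hx.1, hx.2.le⟩
    have h4 : 0 < d.ρ₁ - x := by linarith [h.hρ₁, hx.2]
    have h5 : 0 < 2 * Real.pi * (d.ρ₁ - x) := by positivity
    unfold h11 h12 h22
    rw [h1, h2, h3]
    generalize 2 * Real.pi * (d.ρ₁ - x) = y at h5
    refine ⟨?_, ?_, ?_⟩ <;> field_simp <;> ring
  have h1 : deriv d.h22 t = 0 := by
    rw [EventuallyEq.deriv_eq (key.mono fun x hx => hx.2.2), deriv_const]
  have h2 : deriv d.h12 t = 0 := by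
    rw [EventuallyEq.deriv_eq (key.mono fun x hx => hx.2.1), deriv_const]
  have h3 : HasDerivAt (fun x => (2 * Real.pi * (d.ρ₁ - x)) ^ 2) _ t :=
    (((hasDerivAt_id t).const_sub d.ρ₁).const_mul (2 * Real.pi)).pow 2
  have h4 : 0 < d.ρ₁ - t := by linarith [h.hρ₁, ht.2]
  unfold H1 bf
  rw [h1, h2, EventuallyEq.deriv_eq (key.mono fun x hx => hx.1), h3.deriv]
  have h5 : 0 ≤ Real.pi * Real.pi * (d.ρ₁ - t) * (a * a) :=
    mul_nonneg (by positivity) (mul_self_nonneg a)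
  simp only [id]
  norm_num
  nlinarith

/-- The turning types. -/
theorem Prof.turn_Neck3 (h : d.Prof) (hH : d.Ham t τ p₁ p₂ dt dτ dx dy q₁ q₂ s)
    (h0 : d.dH (t s) (τ s) (p₁ s) (p₂ s) (dt s) (dτ s) (q₁ s) (q₂ s) = 0)
    (hp : ∀ᶠ r in 𝓝 s, p₁ r = p₁ s ∧ p₂ r = p₂ s) {x : ℝ → ℝ} {e₁ e₂ : ℝ}
    (hx : HasDerivAt x (d.G0 (t s) (q₁ s) (q₂ s) e₁ e₂ + d.G1 (t s) (p₁ s) (p₂ s) e₁ e₂ * dt s) s)
    (hg : d.G0 (t s) (p₁ s) (p₂ s) e₁ e₂ ≠ 0) (hΦ : 0 ≤ d.Phi (t s) (p₁ s) (p₂ s) e₁ e₂) :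
    ∃ q, HasDerivAt (fun r => d.Qc (-x r / d.G0 (t r) (p₁ r) (p₂ r) e₁ e₂) (t r) (τ r) (p₁ r)
      (p₂ r) (dt r) (dτ r) (dx r) (dy r) (q₁ r) (q₂ r)) q s ∧ 0 ≤ q ∧
      (q = 0 → dt s = 0 → x s = 0 → dτ s = 0 ∧ q₁ s = 0 ∧ q₂ s = 0) := by
  have h1 : HasDerivAt (fun r => d.G0 (t r) (p₁ r) (p₂ r) e₁ e₂)
      (d.G1 (t s) (p₁ s) (p₂ s) e₁ e₂ * τ s) s := by
    refine ((h.hdG0_Neck3 hH.mem (p₁ s) (p₂ s) e₁ e₂).comp s hH.ht).congr_of_eventuallyEq ?_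
    filter_upwards [hp] with r hr
    rw [hr.1, hr.2]
    rfl
  have h2 : HasDerivAt (fun r => -x r / d.G0 (t r) (p₁ r) (p₂ r) e₁ e₂) _ s := hx.neg.div h1 hg
  refine ⟨_, h.hasDerivAt_Qc hH h0 h2, ?_, fun k1 k2 k3 => ?_⟩
  · obtain ⟨g, hg'⟩ : ∃ g, g = d.G0 (t s) (p₁ s) (p₂ s) e₁ e₂ := ⟨_, rfl⟩
    obtain ⟨w, hw⟩ : ∃ w, w = dt s + -x s / g * τ s := ⟨_, rfl⟩
    obtain ⟨V, hV⟩ : ∃ V, V = d.G1 (t s) (p₁ s) (p₂ s) (p₁ s) (p₂ s) := ⟨_, rfl⟩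
    have h3 := h.G0_nonneg_Neck3 hH.mem (q₁ s + V * w / (2 * g) * e₁) (q₂ s + V * w / (2 * g) * e₂)
    have h4 : d.G0 (t s) (q₁ s + V * w / (2 * g) * e₁) (q₂ s + V * w / (2 * g) * e₂)
        (q₁ s + V * w / (2 * g) * e₁) (q₂ s + V * w / (2 * g) * e₂) =
        d.G0 (t s) (q₁ s) (q₂ s) (q₁ s) (q₂ s) +
          2 * (V * w / (2 * g)) * d.G0 (t s) (q₁ s) (q₂ s) e₁ e₂ +
          (V * w / (2 * g)) ^ 2 * d.G0 (t s) e₁ e₂ e₁ e₂ := by
      unfold G0 bf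
      ring
    have h5 : 0 ≤ w ^ 2 * d.Phi (t s) (p₁ s) (p₂ s) e₁ e₂ / (2 * g ^ 2) := by positivity
    rw [h4] at h3
    unfold Phi at h5
    simp only [Pi.neg_apply]
    rw [← hg', ← hV] at h5 ⊢
    rw [← hg'] at hg
    rw [← hw]
    have h6 : dt s = w + x s / g * τ s := by rw [hw]; ring
    refine le_of_le_of_eq (add_nonneg (add_nonneg (sq_nonneg (dτ s - -x s / g * V / 2)) h3) h5) ?_
    rw [h6]
    field_simp
    ring
  · simp only [k2, k3, neg_zero, zero_div, zero_mul, add_zero, sub_zero, mul_zero, ne_eq,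
      OfNat.ofNat_ne_zero, not_false_eq_true, zero_pow] at k1
    exact h.G0_zero_Neck3 hH.mem k1

theorem Prof.still_Neck3 (h : d.Prof) (hH : ∀ᶠ r in 𝓝 s, d.Ham t τ p₁ p₂ dt dτ dx dy q₁ q₂ r)
    (hp : ∀ᶠ r in 𝓝 s, p₁ r = p₁ s ∧ p₂ r = p₂ s) (h0 : τ s = 0)
    (h1 : d.G1 (t s) (p₁ s) (p₂ s) (p₁ s) (p₂ s) = 0) : ∀ᶠ r in 𝓝 s, τ r = 0 := by
  have hs := hH.self_of_nhds
  have h2 : ContDiffAt ℝ 1 (fun z : ℝ × ℝ => (z.2, -d.G1 z.1 (p₁ s) (p₂ s) (p₁ s) (p₂ s) / 2))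
      (t s, 0) :=
    contDiffAt_snd.prodMk ((ContDiffAt.comp (f := Prod.fst) (t s, (0 : ℝ))
      (h.cdG1_Neck3 hs.mem _ _ _ _) contDiffAt_fst).neg.div_const 2)
  obtain ⟨K, U, hU, hK⟩ := h2.exists_lipschitzOnWith
  have h3 : ContinuousAt (fun r => (t r, τ r)) s := hs.ht.continuousAt.prodMk hs.hτ.continuousAt
  have h4 : ∀ᶠ r in 𝓝 s, (t r, τ r) ∈ U := h3.eventually (by simp only [h0]; exact hU)
  have h5 := ODE_solution_unique_of_eventually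
    (v := fun _ z => (z.2, -d.G1 z.1 (p₁ s) (p₂ s) (p₁ s) (p₂ s) / 2)) (s := fun _ => U)
    (f := fun r => (t r, τ r)) (g := fun _ => (t s, 0)) (t₀ := s)
    (Eventually.of_forall fun _ => hK) ?_ (Eventually.of_forall fun r => ⟨?_, mem_of_mem_nhds hU⟩)
    (by rw [h0])
  · exact h5.mono fun r hr => congrArg Prod.snd hr
  · filter_upwards [hH, hp, h4] with r k1 k2 k3
    refine ⟨k1.ht.prodMk ?_, k3⟩
    have k4 := k1.hτ
    rwa [k2.1, k2.2] at k4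
  · simp only [h1, neg_zero, zero_div]
    exact hasDerivAt_const r _

/-- The crossing type. -/
theorem Prof.cross_Neck3 (h : d.Prof) (hH : d.Ham t τ p₁ p₂ dt dτ dx dy q₁ q₂ s)
    (h0 : d.dH (t s) (τ s) (p₁ s) (p₂ s) (dt s) (dτ s) (q₁ s) (q₂ s) = 0) (hτ : τ s ≠ 0) :
    ∃ q, HasDerivAt (fun r => (1 - om (t r)) * d.Qc (-dt r / τ r) (t r) (τ r) (p₁ r)
      (p₂ r) (dt r) (dτ r) (dx r) (dy r) (q₁ r) (q₂ r) + om (t r) * d.Qg (t r) (τ r) (p₁ r)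
      (p₂ r) (dt r) (dτ r) (dx r) (dy r) (q₁ r) (q₂ r)) q s ∧ 0 ≤ q ∧
      (q = 0 → dt s = 0 → dx s = 0 → dy s = 0 → dτ s = 0 ∧ q₁ s = 0 ∧ q₂ s = 0) := by
  have h1 : HasDerivAt (fun r => -dt r / τ r) _ s := hH.hdt.neg.div hH.hτ hτ
  have h2 := h.hasDerivAt_Qc hH h0 h1
  have hw : dt s + -dt s / τ s * τ s = 0 := by field_simp; ring
  rw [hw] at h2
  obtain ⟨Q, h3, h4⟩ := h.hasDerivAt_Qg hH
  have h5 : HasDerivAt (fun r => om (t r)) _ s := (om_deriv_Neck3 (t s)).comp s hH.ht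
  obtain ⟨ω', hω'⟩ : ∃ ω', ω' = deriv Real.smoothTransition (2 * t s - 4) * 2 +
    deriv Real.smoothTransition (-2 * t s - 4) * (-2) := ⟨_, rfl⟩
  rw [← hω'] at h5
  obtain ⟨c, hc⟩ : ∃ c, c = -dt s / τ s := ⟨_, rfl⟩
  obtain ⟨η, hη⟩ : ∃ η, η = d.H1 (t s) (dx s + c * d.G0 (t s) (p₁ s) (p₂ s) 1 0)
    (dy s + c * d.G0 (t s) (p₁ s) (p₂ s) 0 1) (dx s + c * d.G0 (t s) (p₁ s) (p₂ s) 1 0)
    (dy s + c * d.G0 (t s) (p₁ s) (p₂ s) 0 1) := ⟨_, rfl⟩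
  have hdt : dt s = -c * τ s := by rw [hc]; field_simp
  have h6 : d.Qg (t s) (τ s) (p₁ s) (p₂ s) (dt s) (dτ s) (dx s) (dy s) (q₁ s) (q₂ s) -
      d.Qc c (t s) (τ s) (p₁ s) (p₂ s) (dt s) (dτ s) (dx s) (dy s) (q₁ s) (q₂ s) =
      τ s * η / 2 := by
    have k1 := h.H1_vel_Neck3 hH.mem (p₁ s) (p₂ s)
    have k2 : d.G0 (t s) (p₁ s) (p₂ s) (q₁ s) (q₂ s) =
        q₁ s * d.G0 (t s) (p₁ s) (p₂ s) 1 0 + q₂ s * d.G0 (t s) (p₁ s) (p₂ s) 0 1 := by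
      unfold G0 bf
      ring
    unfold dH at h0
    rw [k2, hdt] at h0
    unfold Qg Qc
    rw [hη, hdt]
    unfold H1 bf at k1 ⊢
    generalize d.G0 (t s) (p₁ s) (p₂ s) 1 0 = u₁ at *
    generalize d.G0 (t s) (p₁ s) (p₂ s) 0 1 = u₂ at *
    linear_combination (-c) * h0 - τ s * c ^ 2 / 2 * k1
  have hs : ∀ x, 0 ≤ deriv Real.smoothTransition x := fun x =>
    Real.smoothTransition.monotone.deriv_nonneg
  have h7 : 0 ≤ ω' * η ∧ (om (t s) = 0 ∨ 2 < |t s|) := by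
    by_cases k1 : 2 < t s
    · refine ⟨mul_nonneg ?_ (hη ▸ h.H1_right_Neck3 ⟨k1, hH.mem.2⟩ _ _),
        Or.inr (lt_abs.2 (Or.inl k1))⟩
      rw [hω', st_zero_Neck3 (x := -2 * t s - 4) (by linarith)]
      linarith [hs (2 * t s - 4)]
    · by_cases k2 : t s < -2
      · refine ⟨mul_nonneg_of_nonpos_of_nonpos ?_ (hη ▸ h.H1_left_Neck3 ⟨hH.mem.1, k2⟩ _ _),
          Or.inr (lt_abs.2 (Or.inr (by linarith)))⟩
        rw [hω', st_zero_Neck3 (x := 2 * t s - 4) (by linarith)]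
        linarith [hs (-2 * t s - 4)]
      · constructor
        · rw [hω', st_zero_Neck3 (x := 2 * t s - 4) (by linarith),
            st_zero_Neck3 (x := -2 * t s - 4) (by linarith)]
          simp
        · left
          unfold om
          rw [Real.smoothTransition.zero_of_nonpos (x := 2 * t s - 4) (by linarith),
            Real.smoothTransition.zero_of_nonpos (x := -2 * t s - 4) (by linarith), add_zero]
  obtain ⟨h8, h9⟩ := om_mem_Neck3 (t s)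
  obtain ⟨P, hP⟩ : ∃ P, P = (dτ s - c * d.G1 (t s) (p₁ s) (p₂ s) (p₁ s) (p₂ s) / 2) ^ 2 +
    d.G0 (t s) (q₁ s) (q₂ s) (q₁ s) (q₂ s) := ⟨_, rfl⟩
  have hP0 : 0 ≤ P := hP ▸ add_nonneg (sq_nonneg _) (h.G0_nonneg_Neck3 hH.mem _ _)
  have k1 : 0 ≤ (1 - om (t s)) * P := mul_nonneg (by linarith) hP0
  have k2 : 0 ≤ om (t s) * Q := by
    rcases h7.2 with k | k
    · rw [k, zero_mul]
    · exact mul_nonneg h8 (h4 k).1
  have k3 : 0 ≤ τ s ^ 2 * (ω' * η) / 2 := by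
    have := h7.1
    positivity
  refine ⟨(1 - om (t s)) * P + om (t s) * Q + τ s ^ 2 * (ω' * η) / 2,
    (((h5.const_sub 1).mul h2).add (h5.mul h3)).congr_deriv ?_, by linarith,
    fun e1 e2 e3 e4 => ?_⟩
  · rw [← hc, hP]
    linear_combination (ω' * τ s) * h6
  · by_cases k4 : om (t s) = 1
    · have k5 : 2 < |t s| := h7.2.resolve_left (by rw [k4]; norm_num)
      rw [k4] at e1 k2
      exact (h4 k5).2 (by linarith) e2 e3 e4
    · have k5 : (1 - om (t s)) * P = 0 := by linarith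
      have k6 : P = 0 := (mul_eq_zero.1 k5).resolve_left (sub_ne_zero.2 (Ne.symm k4))
      have k7 : c = 0 := by rw [hc, e2, neg_zero, zero_div]
      rw [hP, k7, zero_mul, zero_div, sub_zero] at k6
      exact h.G0_zero_Neck3 hH.mem k6

/-- The form `NQ` is monotone along Jacobi fields. -/
theorem Prof.NQ_mono (h : d.Prof)
    (hH : ∀ᶠ r in 𝓝 s, d.Ham t τ p₁ p₂ dt dτ dx dy q₁ q₂ r ∧
      d.dH (t r) (τ r) (p₁ r) (p₂ r) (dt r) (dτ r) (q₁ r) (q₂ r) = 0) :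
    ∃ q, HasDerivAt (fun r => d.NQ (t r) (τ r) (p₁ r) (p₂ r) (dt r) (dτ r) (dx r) (dy r)
      (q₁ r) (q₂ r)) q s ∧ 0 ≤ q ∧ (q = 0 → dt s = 0 → dx s = 0 → dy s = 0 →
        dτ s = 0 ∧ q₁ s = 0 ∧ q₂ s = 0) := by
  obtain ⟨hs, h0⟩ := hH.self_of_nhds
  have hp : ∀ᶠ r in 𝓝 s, p₁ r = p₁ s ∧ p₂ r = p₂ s :=
    (locconst_Neck3 (hH.mono fun r hr => hr.1.hp₁)).and
      (locconst_Neck3 (hH.mono fun r hr => hr.1.hp₂))
  have hE : ∀ᶠ r in 𝓝 s, τ r ^ 2 + d.G0 (t r) (p₁ s) (p₂ s) (p₁ s) (p₂ s) =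
      τ s ^ 2 + d.G0 (t s) (p₁ s) (p₂ s) (p₁ s) (p₂ s) := by
    refine locconst_Neck3 (f := fun r => τ r ^ 2 + d.G0 (t r) (p₁ s) (p₂ s) (p₁ s) (p₂ s)) ?_
    filter_upwards [hH, hp] with r k1 k2
    have k3 := k1.1.hτ
    rw [k2.1, k2.2] at k3
    refine ((k3.pow 2).add ((h.hdG0_Neck3 k1.1.mem _ _ _ _).comp r k1.1.ht)).congr_deriv ?_
    norm_num
    ring
  have hV : ContinuousAt (fun r => d.G1 (t r) (p₁ s) (p₂ s) (p₁ s) (p₂ s)) s :=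
    ContinuousAt.comp (f := t) (h.cdG1_Neck3 hs.mem _ _ _ _).continuousAt hs.ht.continuousAt
  by_cases hc : ∃ t' ∈ Ioo (-3 : ℝ) 3, τ s ^ 2 + d.G0 (t s) (p₁ s) (p₂ s) (p₁ s) (p₂ s) <
      d.G0 t' (p₁ s) (p₂ s) (p₁ s) (p₂ s)
  · have hc' : ∀ᶠ r in 𝓝 s, ∃ t' ∈ Ioo (-3 : ℝ) 3,
        τ r ^ 2 + d.G0 (t r) (p₁ r) (p₂ r) (p₁ r) (p₂ r) < d.G0 t' (p₁ r) (p₂ r) (p₁ r) (p₂ r) := by
      filter_upwards [hp, hE] with r k1 k2
      rw [k1.1, k1.2, k2]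
      exact hc
    rcases lt_trichotomy 0 (d.G1 (t s) (p₁ s) (p₂ s) (p₁ s) (p₂ s)) with k | k | k
    · obtain ⟨q, k1, k2, k3⟩ := h.turn_Neck3 hs h0 hp hs.hdx (h.phiL _ _ _ hs.mem k).1
        (h.phiL _ _ _ hs.mem k).2
      refine ⟨q, k1.congr_of_eventuallyEq ?_, k2, fun e1 e2 e3 _ => k3 e1 e2 e3⟩
      filter_upwards [hc', hp, hV.eventually (lt_mem_nhds k)] with r e1 e2 e3
      have e4 : 0 < d.G1 (t r) (p₁ r) (p₂ r) (p₁ r) (p₂ r) := by rw [e2.1, e2.2]; exact e3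
      rw [NQ, if_pos e1, if_pos e4]
    · obtain ⟨t', k1, k2⟩ := hc
      have k3 := h.max_Neck3 hs.mem k.symm k1
      nlinarith [sq_nonneg (τ s)]
    · obtain ⟨q, k1, k2, k3⟩ := h.turn_Neck3 hs h0 hp hs.hdy (h.phiR _ _ _ hs.mem k).1
        (h.phiR _ _ _ hs.mem k).2
      refine ⟨q, k1.congr_of_eventuallyEq ?_, k2, fun e1 e2 _ e4 => k3 e1 e2 e4⟩
      filter_upwards [hc', hp, hV.eventually (gt_mem_nhds k)] with r e1 e2 e3
      have e4 : ¬ 0 < d.G1 (t r) (p₁ r) (p₂ r) (p₁ r) (p₂ r) := by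
        rw [e2.1, e2.2]
        exact not_lt.2 e3.le
      rw [NQ, if_pos e1, if_neg e4]
  · have hc' : ∀ᶠ r in 𝓝 s, ¬ ∃ t' ∈ Ioo (-3 : ℝ) 3,
        τ r ^ 2 + d.G0 (t r) (p₁ r) (p₂ r) (p₁ r) (p₂ r) < d.G0 t' (p₁ r) (p₂ r) (p₁ r) (p₂ r) := by
      filter_upwards [hp, hE] with r k1 k2
      rw [k1.1, k1.2, k2]
      exact hc
    by_cases hτ : τ s = 0
    · have k : d.G1 (t s) (p₁ s) (p₂ s) (p₁ s) (p₂ s) = 0 := by
        refine IsLocalMax.hasDerivAt_eq_zero ?_ (h.hdG0_Neck3 hs.mem _ _ _ _)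
        filter_upwards [isOpen_Ioo.mem_nhds hs.mem] with x hx
        by_contra k1
        refine hc ⟨x, hx, ?_⟩
        rw [hτ]
        linarith [not_le.1 k1]
      have k1 := h.hasDerivAt_Qc hs h0 (hasDerivAt_const s (0 : ℝ))
      have k2 := h.crit _ _ _ hs.mem k
      have k3 := h.G0_nonneg_Neck3 hs.mem (q₁ s) (q₂ s)
      refine ⟨_, k1.congr_of_eventuallyEq ?_, ?_, fun e1 e2 _ _ => ?_⟩
      · filter_upwards [hc', h.still_Neck3 (hH.mono fun r hr => hr.1) hp hτ k] with r e1 e2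
        rw [NQ, if_neg e1, if_pos e2]
      · nlinarith [sq_nonneg (dτ s - 0 * d.G1 (t s) (p₁ s) (p₂ s) (p₁ s) (p₂ s) / 2),
          sq_nonneg (dt s + 0 * τ s)]
      · simp only [e2, zero_div, zero_mul, add_zero, sub_zero, mul_zero, ne_eq,
          OfNat.ofNat_ne_zero, not_false_eq_true, zero_pow] at e1
        exact h.G0_zero_Neck3 hs.mem e1
    · obtain ⟨q, k1, k2⟩ := h.cross_Neck3 hs h0 hτ
      refine ⟨q, k1.congr_of_eventuallyEq ?_, k2⟩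
      filter_upwards [hc', hs.hτ.continuousAt.eventually_ne hτ] with r e1 e2
      rw [NQ, if_neg e1, if_neg e2]

end ND

end Vale.Agent.P255
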