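import Vale.Agent.P255.Neck1
import Vale.Agent.P255.Neck3
import Vale.Agent.P255.Chart

open scoped Manifold ContDiff Topology
open Set Filter

set_option maxSynthPendingDepth 3
set_option linter.unusedSectionVars false

namespace Vale.Agent.P255

variable {M : Type} [TopologicalSpace M] [ChartedSpace E3 M] [IsManifold 𝓘(ℝ, E3) ∞ M]
  {g : M → E3 →L[ℝ] E3 →L[ℝ] ℝ}

section Aux

variable {a b : ℝ} {γ : ℝ → M} {J : (s : ℝ) → TangentSpace 𝓘(ℝ, E3) (γ s)}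
  {e : OpenPartialHomeomorph M E3} {s : ℝ}

/-- The field as a function into the model space. -/
def fNC (γ : ℝ → M) (J : (s : ℝ) → TangentSpace 𝓘(ℝ, E3) (γ s)) (s : ℝ) : E3 := J s

lemma contAt_NC (hγ : IsGeodesicOn g γ (Ioo a b)) (hs : s ∈ Ioo a b) : ContinuousAt γ s :=
  hγ.1.continuousAt (isOpen_Ioo.mem_nhds hs)

lemma ev_mem_NC (hγ : IsGeodesicOn g γ (Ioo a b)) (hs : s ∈ Ioo a b) (hm : γ s ∈ e.source) :
    ∀ᶠ r in 𝓝 s, r ∈ Ioo a b ∧ γ r ∈ e.source :=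
  (isOpen_Ioo.eventually_mem hs).and ((contAt_NC hγ hs).eventually (e.open_source.mem_nhds hm))

lemma gj_NC (hγ : IsGeodesicOn g γ (Ioo a b)) (hJ : IsJacobiOn g γ J (Ioo a b))
    (he : e ∈ atlas E3 M) (hs : s ∈ Ioo a b) (hm : γ s ∈ e.source) :
    GJ (gc g e) e.target (e ∘ γ) (fieldc e γ J) s :=
  ⟨e.map_source hm, (hγ.2 e he s hs hm).1, (hJ e he s hs hm).1, (hγ.2 e he s hs hm).2,
    (hJ e he s hs hm).2⟩

lemma ev_gj_NC (hγ : IsGeodesicOn g γ (Ioo a b)) (hJ : IsJacobiOn g γ J (Ioo a b))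
    (he : e ∈ atlas E3 M) (hs : s ∈ Ioo a b) (hm : γ s ∈ e.source) :
    ∀ᶠ r in 𝓝 s, GJ (gc g e) e.target (e ∘ γ) (fieldc e γ J) r :=
  (ev_mem_NC hγ hs hm).mono fun _ hr => gj_NC hγ hJ he hr.1 hr.2

lemma vel_NC (hγ : IsGeodesicOn g γ (Ioo a b)) (he : e ∈ atlas E3 M) (hs : s ∈ Ioo a b)
    (hm : γ s ∈ e.source) : dC e (γ s) (vel E3 γ s) = deriv (e ∘ γ) s :=
  dC_vel he hm (contAt_NC hγ hs) ((hγ.2 e he s hs hm).1.differentiableAt (by norm_num))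

lemma evN_NC (hγ : IsGeodesicOn g γ (Ioo a b)) (he : e ∈ atlas E3 M) (hs : s ∈ Ioo a b)
    (hm : γ s ∈ e.source) :
    (fun r => g (γ r) (fNC γ J r) (vel E3 γ r)) =ᶠ[𝓝 s]
      fun r => gc g e ((e ∘ γ) r) (fieldc e γ J r) (deriv (e ∘ γ) r) := by
  filter_upwards [ev_mem_NC hγ hs hm] with r hr
  rw [← vel_NC hγ he hr.1 hr.2, fieldc_eq]
  exact (gc_dC g he hr.2 _ _).symm

lemma evA_NC (hγ : IsGeodesicOn g γ (Ioo a b)) (he : e ∈ atlas E3 M) (hs : s ∈ Ioo a b)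
    (hm : γ s ∈ e.source) :
    (fun r => g (γ r) (fNC γ J r) (fNC γ J r)) =ᶠ[𝓝 s]
      fun r => gc g e ((e ∘ γ) r) (fieldc e γ J r) (fieldc e γ J r) := by
  filter_upwards [ev_mem_NC hγ hs hm] with r hr
  rw [fieldc_eq]
  exact (gc_dC g he hr.2 _ _).symm

lemma derivN_NC (h : IsRM g) (hγ : IsGeodesicOn g γ (Ioo a b))
    (hJ : IsJacobiOn g γ J (Ioo a b)) {s₀ s₁ : ℝ} (h0 : s₀ ∈ Ioo a b) (h1 : s₁ ∈ Ioo a b)
    (hlt : s₀ < s₁) (z0 : fNC γ J s₀ = 0) (z1 : fNC γ J s₁ = 0) (hs : s ∈ Ioo a b) :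
    deriv (fun r => g (γ r) (fNC γ J r) (vel E3 γ r)) s = 0 := by
  set N : ℝ → ℝ := fun r => g (γ r) (fNC γ J r) (vel E3 γ r) with hN
  have key : ∀ r ∈ Ioo a b, DifferentiableAt ℝ N r ∧ HasDerivAt (deriv N) 0 r := by
    intro r hr
    have he := chart_mem_atlas E3 (γ r)
    have hm := mem_chart_source E3 (γ r)
    obtain ⟨k1, k2⟩ := (h.cm he).affine (ev_gj_NC hγ hJ he hr hm)
    have hev := evN_NC (J := J) hγ he hr hm
    exact ⟨k1.congr_of_eventuallyEq hev, k2.congr_of_eventuallyEq hev.deriv⟩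
  have hsub : Icc s₀ s₁ ⊆ Ioo a b := fun x hx => ⟨h0.1.trans_le hx.1, hx.2.trans_lt h1.2⟩
  obtain ⟨x, hx, hx0⟩ := exists_deriv_eq_zero hlt
    (fun x hx => (key x (hsub hx)).1.continuousAt.continuousWithinAt)
    (show N s₀ = N s₁ by simp [hN, z0, z1])
  have hc := isOpen_Ioo.is_const_of_deriv_eq_zero isPreconnected_Ioo (f := deriv N)
    (fun r hr => (key r hr).2.differentiableAt.differentiableWithinAt)
    (fun r hr => (key r hr).2.deriv) hs (hsub (Ioo_subset_Icc_self hx))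
  rw [hc, hx0]

lemma ev_zero_NC (h : IsRM g) (hγ : IsGeodesicOn g γ (Ioo a b))
    (hJ : IsJacobiOn g γ J (Ioo a b)) (he : e ∈ atlas E3 M) (hs : s ∈ Ioo a b)
    (hm : γ s ∈ e.source) (h0 : fieldc e γ J s = 0) (h1 : deriv (fieldc e γ J) s = 0) :
    ∀ᶠ r in 𝓝 s, fNC γ J r = 0 := by
  filter_upwards [(h.cm he).jacobi_zero (ev_gj_NC hγ hJ he hs hm) h0 h1, ev_mem_NC hγ hs hm]
    with r hr hr'
  apply dC_injective he hr'.2
  rw [map_zero]
  exact hr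

lemma all_zero_NC (h : IsRM g) (hγ : IsGeodesicOn g γ (Ioo a b))
    (hJ : IsJacobiOn g γ J (Ioo a b)) {s₀ : ℝ} (h0 : s₀ ∈ Ioo a b)
    (hz : ∀ᶠ r in 𝓝 s₀, fNC γ J r = 0) (hs : s ∈ Ioo a b) : fNC γ J s = 0 := by
  have hsub : Ioo a b ⊆ {x | ∀ᶠ r in 𝓝 x, fNC γ J r = 0} := by
    refine isPreconnected_Ioo.subset_of_closure_inter_subset isOpen_setOfPred_eventually_nhds
      ⟨s₀, h0, hz⟩ ?_
    rintro x ⟨hx, hxI⟩
    have he := chart_mem_atlas E3 (γ x)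
    have hm := mem_chart_source E3 (γ x)
    have hj := (hJ _ he x hxI hm).1
    have hfr : ∃ᶠ r in 𝓝 x, fieldc (chartAt E3 (γ x)) γ J r = 0 ∧
        deriv (fieldc (chartAt E3 (γ x)) γ J) r = 0 := by
      refine (mem_closure_iff_frequently.1 hx).mono fun r hr => ?_
      have : fieldc (chartAt E3 (γ x)) γ J =ᶠ[𝓝 r] fun _ => 0 := by
        filter_upwards [hr] with y hy
        rw [fieldc_eq]
        change dC _ _ (fNC γ J y) = 0
        rw [hy, map_zero]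
      exact ⟨this.self_of_nhds, by rw [this.deriv_eq]; simp⟩
    have c0 : ContinuousAt (fieldc (chartAt E3 (γ x)) γ J) x := hj.continuousAt
    have c1 : ContinuousAt (deriv (fieldc (chartAt E3 (γ x)) γ J)) x :=
      (hj.derivWithin (m := 0) (by norm_num)).continuousAt
    refine ev_zero_NC h hγ hJ he hxI hm ?_ ?_
    · exact tendsto_nhds_unique_of_frequently_eq c0 tendsto_const_nhds (hfr.mono fun _ hr => hr.1)
    · exact tendsto_nhds_unique_of_frequently_eq c1 tendsto_const_nhds (hfr.mono fun _ hr => hr.2)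
  exact (hsub hs).self_of_nhds

open Classical in
/-- A chosen neck chart. -/
noncomputable def nkNC (N : Set (OpenPartialHomeomorph M E3)) (m : M) :
    OpenPartialHomeomorph M E3 :=
  if h : ∃ e ∈ N, m ∈ e.source then h.choose else chartAt E3 m

lemma nk_spec_NC {N : Set (OpenPartialHomeomorph M E3)} {m : M} (h : ∃ e ∈ N, m ∈ e.source) :
    nkNC N m ∈ N ∧ m ∈ (nkNC N m).source := by
  rw [nkNC, dif_pos h]; exact h.choose_spec

/-- The components of the field in the chosen neck chart. -/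
noncomputable def jnNC (N : Set (OpenPartialHomeomorph M E3)) (γ : ℝ → M)
    (J : (s : ℝ) → TangentSpace 𝓘(ℝ, E3) (γ s)) (s : ℝ) : E3 :=
  dC (nkNC N (γ s)) (γ s) (fNC γ J s)

open Classical in
/-- The monotone function. -/
noncomputable def qNC (d : ND) (g : M → E3 →L[ℝ] E3 →L[ℝ] ℝ)
    (N : Set (OpenPartialHomeomorph M E3)) (γ : ℝ → M)
    (J : (s : ℝ) → TangentSpace 𝓘(ℝ, E3) (γ s)) (s : ℝ) : ℝ :=
  if ∃ e ∈ N, γ s ∈ e.source then
    d.NQv (nkNC N (γ s) (γ s) 0) (dC (nkNC N (γ s)) (γ s) (vel E3 γ s)) (jnNC N γ J s)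
      (deriv (jnNC N γ J) s)
  else deriv (fun r => g (γ r) (fNC γ J r) (fNC γ J r)) s / 2

variable {d : ND} {N : Set (OpenPartialHomeomorph M E3)}

lemma q_eq_NC (hN : N ⊆ atlas E3 M)
    (h4 : ∀ e ∈ N, ∀ e' ∈ N, ∀ m ∈ e.source, m ∈ e'.source →
      ∃ k : E3, k 0 = 0 ∧ ∀ᶠ m' in 𝓝 m, e' m' = e m' + k)
    (hγ : IsGeodesicOn g γ (Ioo a b)) (he : e ∈ N) (hs : s ∈ Ioo a b) (hm : γ s ∈ e.source) :
    qNC d g N γ J s = d.NQv ((e ∘ γ) s 0) (deriv (e ∘ γ) s) (fieldc e γ J s)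
      (deriv (fieldc e γ J) s) := by
  have key : ∀ m ∈ e.source, nkNC N m m 0 = e m 0 ∧ dC (nkNC N m) m = dC e m := by
    intro m hm
    obtain ⟨k1, k2⟩ := nk_spec_NC (N := N) ⟨e, he, hm⟩
    obtain ⟨k, hk, hev⟩ := h4 e he _ k1 m hm k2
    exact ⟨by rw [hev.self_of_nhds]; simp [hk], dC_congr (hN he) hm hev⟩
  have hj : jnNC N γ J =ᶠ[𝓝 s] fieldc e γ J := by
    filter_upwards [ev_mem_NC hγ hs hm] with r hr
    rw [jnNC, (key _ hr.2).2, fieldc_eq]; rfl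
  rw [qNC, if_pos ⟨e, he, hm⟩, (key _ hm).1, (key _ hm).2, vel_NC hγ (hN he) hs hm, hj.deriv_eq,
    hj.self_of_nhds]
  rfl

lemma gjN_NC (hN : N ⊆ atlas E3 M)
    (h2 : ∀ e ∈ N, ∀ y ∈ e.target, y ∈ UN ∧ gc g e y = d.GN y)
    (hγ : IsGeodesicOn g γ (Ioo a b)) (hJ : IsJacobiOn g γ J (Ioo a b)) (he : e ∈ N)
    (hs : s ∈ Ioo a b) (hm : γ s ∈ e.source) : GJ d.GN UN (e ∘ γ) (fieldc e γ J) s :=
  GJ.congr e.open_target (fun y hy => (h2 e he y hy).1) (fun y hy => (h2 e he y hy).2)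
    (gj_NC hγ hJ (hN he) hs hm)

lemma dH_NC (hd : d.Prof) (hN : N ⊆ atlas E3 M)
    (h2 : ∀ e ∈ N, ∀ y ∈ e.target, y ∈ UN ∧ gc g e y = d.GN y)
    (hγ : IsGeodesicOn g γ (Ioo a b)) (hJ : IsJacobiOn g γ J (Ioo a b)) (he : e ∈ N)
    (hs : s ∈ Ioo a b) (hm : γ s ∈ e.source)
    (h0 : deriv (fun r => g (γ r) (fNC γ J r) (vel E3 γ r)) s = 0) :
    d.dH ((e ∘ γ) s 0) (deriv (e ∘ γ) s 0) (d.P1 ((e ∘ γ) s 0) (deriv (e ∘ γ) s))
      (d.P2 ((e ∘ γ) s 0) (deriv (e ∘ γ) s)) (fieldc e γ J s 0) (deriv (fieldc e γ J) s 0)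
      (d.R1 ((e ∘ γ) s 0) (deriv (e ∘ γ) s) (fieldc e γ J s) (deriv (fieldc e γ J) s))
      (d.R2 ((e ∘ γ) s 0) (deriv (e ∘ γ) s) (fieldc e γ J s) (deriv (fieldc e γ J) s)) = 0 := by
  rw [← hd.deriv_N (gjN_NC hN h2 hγ hJ he hs hm), ← h0]
  refine EventuallyEq.deriv_eq ?_
  filter_upwards [evN_NC (J := J) hγ (hN he) hs hm, ev_mem_NC hγ hs hm] with r hr hr'
  rw [hr, (h2 e he ((e ∘ γ) r) (e.map_source hr'.2)).2]

lemma q_outer_NC (hd : d.Prof) (hN : N ⊆ atlas E3 M)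
    (h2 : ∀ e ∈ N, ∀ y ∈ e.target, y ∈ UN ∧ gc g e y = d.GN y)
    (h4 : ∀ e ∈ N, ∀ e' ∈ N, ∀ m ∈ e.source, m ∈ e'.source →
      ∃ k : E3, k 0 = 0 ∧ ∀ᶠ m' in 𝓝 m, e' m' = e m' + k)
    (hγ : IsGeodesicOn g γ (Ioo a b)) (hJ : IsJacobiOn g γ J (Ioo a b)) (hs : s ∈ Ioo a b)
    (ho : ∀ e ∈ N, γ s ∈ e.source → 5 / 2 < |e (γ s) 0|)
    (h0 : deriv (fun r => g (γ r) (fNC γ J r) (vel E3 γ r)) s = 0) :
    qNC d g N γ J s = deriv (fun r => g (γ r) (fNC γ J r) (fNC γ J r)) s / 2 := by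
  by_cases hc : ∃ e ∈ N, γ s ∈ e.source
  · obtain ⟨e, he, hm⟩ := hc
    have hgj := gjN_NC hN h2 hγ hJ he hs hm
    rw [q_eq_NC hN h4 hγ he hs hm, ND.NQv,
      hd.NQ_eq hgj.1 (ho e he hm) (dH_NC hd hN h2 hγ hJ he hs hm h0), ← hd.deriv_Q hgj]
    congr 1
    refine EventuallyEq.deriv_eq ?_
    filter_upwards [evA_NC (J := J) hγ (hN he) hs hm, ev_mem_NC hγ hs hm] with r hr hr'
    rw [hr, (h2 e he ((e ∘ γ) r) (e.map_source hr'.2)).2]
  · rw [qNC, if_neg hc]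

lemma q_zero_NC (h : IsRM g) (h0 : fNC γ J s = 0) : qNC d g N γ J s = 0 := by
  rw [qNC]
  split_ifs with hc
  · have : jnNC N γ J s = 0 := by rw [jnNC, h0, map_zero]
    rw [this, ND.NQv]
    exact d.NQ_zero _ _ _ _ _ _ _
  · have : IsLocalMin (fun r => g (γ r) (fNC γ J r) (fNC γ J r)) s := by
      refine Eventually.of_forall fun r => ?_
      simp only [h0, map_zero]
      by_cases hr : fNC γ J r = 0
      · simp [hr]
      · exact (h.pos _ _ hr).le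
    rw [this.deriv_eq_zero, zero_div]

end Aux

/-- A manifold covered by neck charts `N` and flat charts `F` has no conjugate points. -/
theorem noConj_of_charts {d : ND} (hd : d.Prof) (h : IsRM g)
    (N F : Set (OpenPartialHomeomorph M E3)) (hN : N ⊆ atlas E3 M) (hF : F ⊆ atlas E3 M)
    (h1 : ∀ m : M, (∃ e ∈ N, m ∈ e.source) ∨ ((∃ e ∈ F, m ∈ e.source) ∧
      ∀ᶠ m' in 𝓝 m, ∀ e ∈ N, m' ∈ e.source → 5 / 2 < |e m' 0|))
    (h2 : ∀ e ∈ N, ∀ y ∈ e.target, y ∈ UN ∧ gc g e y = d.GN y)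
    (h3 : ∀ e ∈ F, ∃ G₀, ∀ y ∈ e.target, gc g e y = G₀)
    (h4 : ∀ e ∈ N, ∀ e' ∈ N, ∀ m ∈ e.source, m ∈ e'.source →
      ∃ k : E3, k 0 = 0 ∧ ∀ᶠ m' in 𝓝 m, e' m' = e m' + k) :
    NoConjugatePoints g := by
  intro a b γ J hγ hJ
  have main : ∀ s₀ ∈ Ioo a b, ∀ s₁ ∈ Ioo a b, s₀ < s₁ → fNC γ J s₀ = 0 → fNC γ J s₁ = 0 →
      ∀ s ∈ Ioo a b, fNC γ J s = 0 := by
    intro s₀ h0 s₁ h1' hlt z0 z1
    have hN0 : ∀ s ∈ Ioo a b, deriv (fun r => g (γ r) (fNC γ J r) (vel E3 γ r)) s = 0 :=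
      fun s hs => derivN_NC h hγ hJ h0 h1' hlt z0 z1 hs
    have loc : ∀ s ∈ Ioo a b, ∃ q, HasDerivAt (qNC d g N γ J) q s ∧ 0 ≤ q ∧
        (q = 0 → fNC γ J s = 0 → ∀ᶠ r in 𝓝 s, fNC γ J r = 0) := by
      intro s hs
      rcases h1 (γ s) with ⟨e, he, hm⟩ | ⟨⟨e, he, hm⟩, ho⟩
      · obtain ⟨q, hq, hq0, hq1⟩ := hd.NQ_mono (s := s) ((ev_mem_NC hγ hs hm).mono fun r hr =>
          ⟨hd.ham (gjN_NC hN h2 hγ hJ he hr.1 hr.2),
            dH_NC hd hN h2 hγ hJ he hr.1 hr.2 (hN0 r hr.1)⟩)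
        refine ⟨q, hq.congr_of_eventuallyEq ?_, hq0, fun hq' hz => ?_⟩
        · filter_upwards [ev_mem_NC hγ hs hm] with r hr
          exact q_eq_NC hN h4 hγ he hr.1 hr.2
        · have hj : fieldc e γ J s = 0 := by
            rw [fieldc_eq]
            change dC _ _ (fNC γ J s) = 0
            rw [hz, map_zero]
          obtain ⟨k0, k1, k2⟩ := hq1 hq' (by simp [hj]) (by simp [hj]) (by simp [hj])
          rw [hj] at k1 k2
          exact ev_zero_NC h hγ hJ (hN he) hs hm hj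
            (hd.eq_zero_of_R (h2 e he _ (e.map_source hm)).1 k0 k1 k2)
      · obtain ⟨G₀, hG⟩ := h3 e he
        have hcm := h.cm (hF he)
        have hq := hcm.flat hG (ev_gj_NC hγ hJ (hF he) hs hm)
        have hpos : ∀ v, v ≠ 0 → 0 < G₀ v v := fun v hv => by
          rw [← hG _ (e.map_source hm)]; exact hcm.pos _ (e.map_source hm) v hv
        refine ⟨_, hq.congr_of_eventuallyEq ?_, ?_, fun hq' hz => ?_⟩
        · filter_upwards [ev_mem_NC hγ hs hm, (contAt_NC hγ hs).eventually ho] with r hr hr'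
          rw [q_outer_NC hd hN h2 h4 hγ hJ hr.1 hr' (hN0 r hr.1),
            (evA_NC (J := J) hγ (hF he) hr.1 hr.2).deriv_eq]
        · by_cases hv : deriv (fieldc e γ J) s = 0
          · simp [hv]
          · exact (hpos _ hv).le
        · have hj : fieldc e γ J s = 0 := by
            rw [fieldc_eq]
            change dC _ _ (fNC γ J s) = 0
            rw [hz, map_zero]
          refine ev_zero_NC h hγ hJ (hF he) hs hm hj ?_
          by_contra hv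
          exact (hpos _ hv).ne' hq'
    have hmono : MonotoneOn (qNC d g N γ J) (Ioo a b) := by
      refine monotoneOn_of_deriv_nonneg (convex_Ioo a b) (fun s hs => ?_) (fun s hs => ?_)
        (fun s hs => ?_)
      · obtain ⟨q, hq, -⟩ := loc s hs
        exact hq.continuousAt.continuousWithinAt
      · obtain ⟨q, hq, -⟩ := loc s (interior_subset hs)
        exact hq.differentiableAt.differentiableWithinAt
      · obtain ⟨q, hq, hq0, -⟩ := loc s (interior_subset hs)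
        rwa [hq.deriv]
    have hsub : Icc s₀ s₁ ⊆ Ioo a b := fun x hx => ⟨h0.1.trans_le hx.1, hx.2.trans_lt h1'.2⟩
    have hz : ∀ x ∈ Icc s₀ s₁, qNC d g N γ J x = 0 := fun x hx =>
      le_antisymm ((hmono (hsub hx) h1' hx.2).trans_eq (q_zero_NC h z1))
        ((q_zero_NC h z0).symm.trans_le (hmono h0 (hsub hx) hx.1))
    obtain ⟨q, hq, -, hq1⟩ := loc s₀ h0
    have hq0 : q = 0 :=
      (uniqueDiffOn_Icc hlt s₀ (left_mem_Icc.2 hlt.le)).eq_deriv _ hq.hasDerivWithinAt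
        ((hasDerivWithinAt_const s₀ (Icc s₀ s₁) (0 : ℝ)).congr hz (hz _ (left_mem_Icc.2 hlt.le)))
    exact fun s hs => all_zero_NC h hγ hJ h0 (hq1 hq0 z0) hs
  intro s₀ h0 s₁ h1' hne z0 z1
  rcases lt_or_gt_of_ne hne with hlt | hlt
  · exact main s₀ h0 s₁ h1' hlt z0 z1
  · exact main s₁ h1' s₀ h0 hlt z1 z0

end Vale.Agent.P255
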