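import Mathlib

open scoped ContDiff Topology Real
open Set Filter

namespace Vale.Agent.P255

lemma logistic_PA (x : ℝ) :
    8 * Real.smoothTransition x * (1 - Real.smoothTransition x) ≤ deriv Real.smoothTransition x := by
  have hm : 0 ≤ deriv Real.smoothTransition x := Real.smoothTransition.monotone.deriv_nonneg
  rcases le_or_gt x 0 with h0 | h0
  · rw [Real.smoothTransition.zero_of_nonpos h0]; simpa using hm
  rcases le_or_gt 1 x with h1 | h1
  · rw [Real.smoothTransition.one_of_one_le h1]; simpa using hm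
  have hf : ∀ y : ℝ, HasDerivAt expNegInvGlue (y⁻¹ ^ 2 * expNegInvGlue y) y := fun y => by
    simpa using expNegInvGlue.hasDerivAt_polynomial_eval_inv_mul 1 y
  have hg : HasDerivAt (fun y => expNegInvGlue (1 - y))
      ((1 - x)⁻¹ ^ 2 * expNegInvGlue (1 - x) * (-1)) x :=
    (hf (1 - x)).comp x (by simpa using (hasDerivAt_id x).const_sub 1)
  have hD := Real.smoothTransition.pos_denom x
  have hd : HasDerivAt Real.smoothTransition _ x := (hf x).div ((hf x).add hg) hD.ne'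
  rw [hd.deriv, Real.smoothTransition]
  set P := expNegInvGlue x
  set Q := expNegInvGlue (1 - x)
  have hP : 0 ≤ P := expNegInvGlue.nonneg _
  have hQ : 0 ≤ Q := expNegInvGlue.nonneg _
  have h1' : 0 < 1 - x := by linarith
  have key : 8 ≤ x⁻¹ ^ 2 + (1 - x)⁻¹ ^ 2 := by
    have e : x⁻¹ ^ 2 + (1 - x)⁻¹ ^ 2 = (x ^ 2 + (1 - x) ^ 2) / (x * (1 - x)) ^ 2 := by
      field_simp; ring
    rw [e, le_div_iff₀ (by positivity)]
    have : x * (1 - x) ≤ 1 / 4 := by nlinarith [sq_nonneg (x - 1 / 2)]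
    have h2 : 0 < x * (1 - x) := by positivity
    nlinarith [sq_nonneg (x - 1 / 2)]
  have e1 : 8 * (P / (P + Q)) * (1 - P / (P + Q)) = 8 * (P * Q) / (P + Q) ^ 2 := by
    field_simp; ring
  have e2 : (x⁻¹ ^ 2 * P * (P + Q) - P * (x⁻¹ ^ 2 * P + (1 - x)⁻¹ ^ 2 * Q * (-1))) / (P + Q) ^ 2 =
      (x⁻¹ ^ 2 + (1 - x)⁻¹ ^ 2) * (P * Q) / (P + Q) ^ 2 := by ring
  rw [e1, e2]
  gcongr

lemma st_symm_PA (x : ℝ) : Real.smoothTransition (1 - x) = 1 - Real.smoothTransition x := by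
  have hD := Real.smoothTransition.pos_denom x
  simp only [Real.smoothTransition, sub_sub_cancel]
  rw [add_comm (expNegInvGlue (1 - x))]
  field_simp; ring

/-- The transition function on `[-1,1]`. -/
noncomputable def phPA (t : ℝ) : ℝ := Real.smoothTransition ((t + 1) / 2)

lemma ph_smooth : ContDiff ℝ ∞ phPA :=
  Real.smoothTransition.contDiff.comp (by fun_prop)

lemma ph_cont : Continuous phPA := ph_smooth.continuous
lemma ph_nonneg (t : ℝ) : 0 ≤ phPA t := Real.smoothTransition.nonneg _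
lemma ph_le_one (t : ℝ) : phPA t ≤ 1 := Real.smoothTransition.le_one _
lemma ph_zero {t : ℝ} (h : t ≤ -1) : phPA t = 0 :=
  Real.smoothTransition.zero_of_nonpos (by linarith)
lemma ph_one {t : ℝ} (h : 1 ≤ t) : phPA t = 1 :=
  Real.smoothTransition.one_of_one_le (by linarith)
lemma ph_mono : Monotone phPA := fun a b h =>
  Real.smoothTransition.monotone (by linarith)
lemma ph_neg (t : ℝ) : phPA (-t) = 1 - phPA t := by
  rw [phPA, phPA, ← st_symm_PA]; congr 1; ring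
lemma ph_hasDerivAt (t : ℝ) : HasDerivAt phPA (deriv phPA t) t :=
  (ph_smooth.differentiable (by simp) t).hasDerivAt
lemma ph_logistic (t : ℝ) : 4 * phPA t * (1 - phPA t) ≤ deriv phPA t := by
  have h1 : HasDerivAt Real.smoothTransition (deriv Real.smoothTransition ((t + 1) / 2))
      ((t + 1) / 2) :=
    ((Real.smoothTransition.contDiff (n := 1)).differentiable (by simp) _).hasDerivAt
  have h2 : HasDerivAt phPA (deriv Real.smoothTransition ((t + 1) / 2) * (1 / 2)) t :=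
    h1.comp t (by simpa using ((hasDerivAt_id t).add_const 1).div_const 2)
  rw [h2.deriv]
  have := logistic_PA ((t + 1) / 2)
  unfold phPA
  linarith
lemma ph_deriv_neg (t : ℝ) : deriv phPA (-t) = deriv phPA t := by
  have h1 : HasDerivAt (fun x => phPA (-x)) (deriv phPA (-t) * (-1)) t :=
    (ph_hasDerivAt (-t)).comp t (hasDerivAt_neg t)
  have h2 : HasDerivAt (fun x => phPA (-x)) (-deriv phPA t) t := by
    simp only [ph_neg]; exact (ph_hasDerivAt t).const_sub 1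
  have := h1.unique h2
  linarith

lemma hasDerivAt_int_PA {f : ℝ → ℝ} (hf : Continuous f) (a t : ℝ) :
    HasDerivAt (fun t => ∫ x in a..t, f x) (f t) t :=
  (hf.integral_hasStrictDerivAt a t).hasDerivAt

lemma contDiff_int_PA {f : ℝ → ℝ} (hf : ContDiff ℝ ∞ f) (a : ℝ) :
    ContDiff ℝ ∞ (fun t => ∫ x in a..t, f x) := by
  rw [contDiff_infty_iff_deriv]
  refine ⟨fun t => (hasDerivAt_int_PA hf.continuous a t).differentiableAt, ?_⟩
  have : deriv (fun t => ∫ x in a..t, f x) = f :=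
    funext fun t => (hasDerivAt_int_PA hf.continuous a t).deriv
  rwa [this]

lemma algA_PA (x φ r : ℝ) (hxφ : x + φ = 1) (hx : 0 ≤ x) (hφ : 0 ≤ φ)
    (hW : 0 < x - φ * r ^ 2 - φ * x * r / 5) : |φ * r| ≤ 0.56 := by
  have hφx : φ * x ≤ 1 / 4 := by nlinarith [sq_nonneg (φ - x)]
  have h1 : φ * r ^ 2 ≤ 1.23 * x := by
    have h0 : 0 ≤ φ * (r + x) ^ 2 := by positivity
    have h2 : φ * x * x ≤ x := by nlinarith
    nlinarith
  have h2 : (φ * r) ^ 2 ≤ 0.56 ^ 2 := by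
    have e : (φ * r) ^ 2 = φ * (φ * r ^ 2) := by ring
    have := mul_le_mul_of_nonneg_left h1 hφ
    nlinarith
  exact abs_le.2 (abs_le_of_sq_le_sq' h2 (by norm_num))

lemma algB_PA (x φ ε r g W Ge : ℝ) (hx : 0 ≤ x) (hφ : 0 ≤ φ) (hε : 0 ≤ ε) (g1 : 0.97 ≤ g)
    (hy : φ * r ≤ 0.56) (hW : 0 < W) (hW2 : W ≤ 1.12 * x) (hG : Ge ≤ 1.21) :
    -(ε * φ * (1 + r ^ 2) * g) ≤ 2 * (x + ε * φ * r - φ * x * (r - ε) / 10) * g - W * Ge / 2 := by
  have e : 2 * (x + ε * φ * r - φ * x * (r - ε) / 10) * g =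
      2 * (x * (1 - φ * r / 10)) * g + 2 * (ε * (φ * x) / 10) * g + ε * φ * (2 * r) * g := by
    ring
  have k1 : x * 0.9 ≤ x * (1 - φ * r / 10) := mul_le_mul_of_nonneg_left (by linarith) hx
  have k2 : x * 0.9 * 0.97 ≤ (x * (1 - φ * r / 10)) * g :=
    mul_le_mul k1 g1 (by norm_num) (by linarith)
  have g0 : 0 ≤ g := by linarith
  have k3 : 0 ≤ 2 * (ε * (φ * x) / 10) * g := by positivity
  have k4 : 0 ≤ ε * φ * g * (1 + r) ^ 2 := by positivity
  have k5 : W * Ge ≤ W * 1.21 := mul_le_mul_of_nonneg_left hG hW.le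
  rw [e]
  linarith

/-- The algebraic inequality of the middle region, for `u = 1`. -/
lemma alg1_PA (x φ φ' a δ Ge ε r : ℝ) (hxφ : x + φ = 1) (hx : 0 ≤ x) (hφ : 0 ≤ φ)
    (hφ' : 4 * φ * x ≤ φ') (ha : 0.99 ≤ a) (hδ : |δ| ≤ φ / 50) (hG : Ge ≤ 1.21)
    (hε : 0 ≤ ε) (hε' : ε ≤ 1 / 200) (hW : 0 < x - φ * r ^ 2 - φ * x * r / 5) :
    0 < a + δ * r ∧ 0 ≤ φ' / 10 * (1 + r ^ 2 + (1 - 2 * φ) * r / 5) * (a + δ * r) ^ 2 +
      (x - φ * r ^ 2 - φ * x * r / 5) / 100 *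
        (2 * (x + ε * φ * r - φ * x * (r - ε) / 10) * (a + δ * r) -
          (x - φ * r ^ 2 - φ * x * r / 5) * Ge / 2) := by
  have h3 := algA_PA x φ r hxφ hx hφ hW
  have h4 : |δ * r| ≤ 0.012 := by
    rw [abs_mul]
    rw [abs_mul, abs_of_nonneg hφ] at h3
    have := mul_le_mul_of_nonneg_right hδ (abs_nonneg r)
    linarith
  obtain ⟨h3a, h3b⟩ := abs_le.1 h3
  obtain ⟨h4a, h4b⟩ := abs_le.1 h4
  have g1 : 0.97 ≤ a + δ * r := by linarith
  refine ⟨by linarith, ?_⟩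
  have hW2 : x - φ * r ^ 2 - φ * x * r / 5 ≤ 1.12 * x := by
    have h0 : 0 ≤ φ * r ^ 2 := by positivity
    have := mul_le_mul_of_nonneg_left h3a hx
    linarith
  have hH := algB_PA x φ ε r _ _ Ge hx hφ hε g1 h3b hW hW2 hG
  generalize a + δ * r = g at *
  generalize x - φ * r ^ 2 - φ * x * r / 5 = W at *
  have g0 : 0 ≤ g := by linarith
  have hV : 0.9 * (1 + r ^ 2) ≤ 1 + r ^ 2 + (1 - 2 * φ) * r / 5 := by
    have k1 := mul_nonneg hφ (sq_nonneg (1 - r))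
    have k2 := mul_nonneg hx (sq_nonneg (1 + r))
    have e : x = 1 - φ := by linarith
    rw [e] at k2
    linarith
  have t1 : 4 * φ * x / 10 * (0.9 * (1 + r ^ 2)) * g ^ 2 ≤
      φ' / 10 * (1 + r ^ 2 + (1 - 2 * φ) * r / 5) * g ^ 2 := by
    have h0 : 0 ≤ 4 * φ * x := by positivity
    exact mul_le_mul_of_nonneg_right (mul_le_mul (by linarith) hV (by positivity) (by linarith))
      (sq_nonneg g)
  have t2 := mul_le_mul_of_nonneg_left hH (show 0 ≤ W / 100 by positivity)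
  have k : W / 100 * ε ≤ 0.36 * x * g := by
    have k1 := mul_le_mul_of_nonneg_left hε' hW.le
    have k2 := mul_le_mul_of_nonneg_left g1 hx
    linarith
  have t3 := mul_le_mul_of_nonneg_right k (show 0 ≤ φ * (1 + r ^ 2) * g by positivity)
  linarith

lemma alg_PA (x φ φ' a δ Ge ε u z : ℝ) (hxφ : x + φ = 1) (hx : 0 ≤ x) (hφ : 0 ≤ φ)
    (hφ' : 4 * φ * x ≤ φ') (ha : 0.99 ≤ a) (hδ : |δ| ≤ φ / 50) (hG : Ge ≤ 1.21)
    (hε : 0 ≤ ε) (hε' : ε ≤ 1 / 200) (hW : 0 < x * u ^ 2 - φ * z ^ 2 - φ * x * u * z / 5) :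
    a * u + δ * z ≠ 0 ∧
      0 ≤ φ' / 10 * (u ^ 2 + z ^ 2 + (1 - 2 * φ) * u * z / 5) * (a * u + δ * z) ^ 2 +
      (x * u ^ 2 - φ * z ^ 2 - φ * x * u * z / 5) / 100 *
        (2 * (x * u + ε * φ * z - φ * x * (z - ε * u) / 10) * (a * u + δ * z) -
          (x * u ^ 2 - φ * z ^ 2 - φ * x * u * z / 5) * Ge / 2) := by
  have hu : u ≠ 0 := by
    rintro rfl
    nlinarith [mul_nonneg hφ (sq_nonneg z)]
  obtain ⟨r, rfl⟩ : ∃ r, z = r * u := ⟨z / u, by field_simp⟩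
  have hu2 : 0 < u ^ 2 := by positivity
  have hW' : 0 < x - φ * r ^ 2 - φ * x * r / 5 := by
    have : x * u ^ 2 - φ * (r * u) ^ 2 - φ * x * u * (r * u) / 5 =
      (x - φ * r ^ 2 - φ * x * r / 5) * u ^ 2 := by ring
    rw [this] at hW
    exact (mul_pos_iff_of_pos_right hu2).1 hW
  obtain ⟨k1, k2⟩ := alg1_PA x φ φ' a δ Ge ε r hxφ hx hφ hφ' ha hδ hG hε hε' hW'
  refine ⟨?_, ?_⟩
  · have : a * u + δ * (r * u) = (a + δ * r) * u := by ring
    rw [this]; exact mul_ne_zero k1.ne' hu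
  · have := mul_nonneg k2 (sq_nonneg (u ^ 2))
    refine this.trans_eq ?_
    ring

end Vale.Agent.P255
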