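import Vale.Agent.P255.ModelA

open scoped Manifold ContDiff Topology
open Set Filter

set_option maxSynthPendingDepth 3

namespace Vale.Agent.P255

theorem int_theta {a a' : ℝ} (h : (a : UnitAddCircle) = a') : ∃ k : ℤ, a = a' + k := by
  rw [← sub_eq_zero, ← AddCircle.coe_sub, AddCircle.coe_eq_zero_iff] at h
  obtain ⟨k, hk⟩ := h
  exact ⟨k, by simp only [zsmul_eq_mul, mul_one] at hk; linarith⟩

theorem ec_add_theta (x y : ℝ) : ec (x + y) = ec x * ec y := by
  rw [ec, ec, ec, ← Complex.exp_add]; congr 1; push_cast; ring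

theorem ec_int_theta (x : ℝ) (k : ℤ) : ec (x + k) = ec x :=
  Complex.exp_eq_exp_iff_exists_int.2 ⟨k, by push_cast; ring⟩

theorem ec_ne_theta (x : ℝ) : ec x ≠ 0 := Complex.exp_ne_zero _

theorem ec_eq_theta (x : ℝ) :
    ec x = (Real.cos (2 * Real.pi * x) : ℝ) + (Real.sin (2 * Real.pi * x) : ℝ) * Complex.I := by
  rw [ec, Complex.ofReal_cos, Complex.ofReal_sin, ← Complex.exp_mul_I]; push_cast; rfl

theorem neck_theta {m m' l c σ : ℝ} (hm : 0 ≤ m) (hm' : 0 ≤ m') (hl : 0 ≤ l) (hl1 : l ≤ 1 / 4)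
    (h0 : m' = 0 → 0 < m ∧ 0 < l) (hc : c ^ 2 + σ ^ 2 = 1) :
    (m : ℂ) * ((l * c + 1 / 2 : ℝ) * ec (l * σ) - 1 + (l * c + 1 / 2 : ℝ)) +
      m' * (c + σ * Complex.I) * ((l * c + 1 / 2 : ℝ) * (1 - (l * c + 1 / 2 : ℝ))) ≠ 0 := by
  have c1 : |c| ≤ 1 := abs_le_one_iff_mul_self_le_one.2 (by nlinarith)
  have c2 : |σ| ≤ 1 := abs_le_one_iff_mul_self_le_one.2 (by nlinarith)
  have s0 : 0 < l * c + 1 / 2 := by nlinarith [abs_le.1 c1]
  have s1 : 0 < 1 - (l * c + 1 / 2) := by nlinarith [abs_le.1 c1]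
  set s := l * c + 1 / 2 with hs
  intro h
  rw [ec_eq_theta] at h
  have hre := congrArg Complex.re h
  have him := congrArg Complex.im h
  simp only [Complex.add_re, Complex.mul_re, Complex.ofReal_re, Complex.sub_re, Complex.I_re,
    Complex.ofReal_im, Complex.I_im, Complex.add_im, Complex.mul_im, Complex.sub_im, Complex.one_re,
    Complex.one_im, Complex.zero_re, Complex.zero_im, mul_zero, zero_mul, add_zero, sub_zero,
    zero_add, mul_one, sub_self] at hre him
  have hp := mul_pos s0 s1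
  have key (τ : ℝ) (h1 : 0 < τ) (h2 : τ ≤ 1)
      (e : m * (s * Real.sin (2 * Real.pi * (l * τ))) + m' * τ * (s * (1 - s)) = 0) : False := by
    have h3 : l * τ ≤ 1 / 4 := by nlinarith
    have h4 : 2 * Real.pi * (l * τ) < Real.pi := by nlinarith [Real.pi_pos]
    have h5 := Real.sin_nonneg_of_nonneg_of_le_pi (x := 2 * Real.pi * (l * τ)) (by positivity) h4.le
    rcases hm'.eq_or_lt with h6 | h6
    · obtain ⟨h7, h8⟩ := h0 h6.symm
      have := Real.sin_pos_of_pos_of_lt_pi (x := 2 * Real.pi * (l * τ)) (by positivity) h4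
      rw [← h6] at e
      have : 0 < m * (s * Real.sin (2 * Real.pi * (l * τ))) := by positivity
      linarith
    · have : 0 ≤ m * (s * Real.sin (2 * Real.pi * (l * τ))) := by positivity
      have : 0 < m' * τ * (s * (1 - s)) := by positivity
      linarith
  rcases lt_trichotomy σ 0 with h1 | rfl | h1
  · refine key (-σ) (by linarith) (by linarith [(abs_le.1 c2).1]) ?_
    rw [mul_neg, mul_neg, Real.sin_neg]
    linarith
  · simp only [mul_zero, Real.cos_zero, mul_one] at hre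
    have h2 : 2 * l * m + m' * (s * (1 - s)) = 0 := by
      have : c * c = 1 := by linarith
      linear_combination c * hre - (2 * l * m + m' * (s * (1 - s))) * this - 2 * m * c * hs
    rcases hm'.eq_or_lt with h6 | h6
    · obtain ⟨h7, h8⟩ := h0 h6.symm
      rw [← h6] at h2
      nlinarith [mul_pos h8 h7]
    · nlinarith [mul_pos h6 hp, mul_nonneg hl hm]
  · exact key σ h1 (abs_le.1 c2).2 him

theorem mu_nonneg_theta (t : ℝ) : 0 ≤ mu t := le_max_left _ _

theorem mu_le_theta (t : ℝ) : mu t ≤ 1 := max_le zero_le_one (min_le_left _ _)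

theorem ne_theta {d : ND} (h : d.Prof) (z : d.MM) {a b : ℝ} (ha : (a : UnitAddCircle) = z.1.1.1)
    (hb : (b : UnitAddCircle) = z.1.1.2.1) :
    z.1.1.2.2 * ((Int.fract (a + 1 / 2) : ℝ) * ec b - 1 + (Int.fract (a + 1 / 2) : ℝ)) +
      z.1.2.2.2 * ((Int.fract (a + 1 / 2) : ℝ) * (1 - (Int.fract (a + 1 / 2) : ℝ))) ≠ 0 := by
  obtain ⟨_, _ | _ | _, x, hx, rfl⟩ := z
  · obtain ⟨k, rfl⟩ := int_theta ha
    obtain ⟨k', rfl⟩ := int_theta hb
    have h1 := h.hρ₁
    have h2 : 0 < d.ρ₁ - min (x 0) (-2) := by linarith [min_le_right (x 0) (-2)]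
    have h3 : 0 < (d.ρ₁ - min (x 0) (-2)) / (4 * (d.ρ₁ + 3)) := div_pos h2 (by linarith)
    have h4 : lam d.ρ₁ (x 0) ≤ 1 / 4 := by
      refine (mul_le_of_le_one_left h3.le (mu_le_theta _)).trans ?_
      rw [div_le_iff₀ (by linarith)]
      linarith [lt_min hx.1 (show (-3 : ℝ) < -2 by norm_num)]
    have h5 : 0 ≤ lam d.ρ₁ (x 0) := mul_nonneg (mu_nonneg_theta _) h3.le
    have c1 := Real.neg_one_le_cos (2 * Real.pi * x 1)
    have c2 := Real.cos_le_one (2 * Real.pi * x 1)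
    have h6 := neck_theta (mu_nonneg_theta (x 0)) (mu_nonneg_theta (-x 0)) h5 h4 (fun e => by
      have e1 : (2 - -x 0) / 4 ≤ 0 := by
        by_contra hn
        exact (lt_max_of_lt_right (lt_min one_pos (not_le.1 hn))).ne' e
      have e2 : 0 < mu (x 0) := lt_max_of_lt_right (lt_min one_pos (by linarith))
      exact ⟨e2, mul_pos e2 h3⟩) (Real.cos_sq_add_sin_sq (2 * Real.pi * x 1))
    rw [add_right_comm, Int.fract_add_intCast, Int.fract_eq_self.2 ⟨by nlinarith, by nlinarith⟩,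
      ec_int_theta]
    rw [← ec_eq_theta] at h6
    convert mul_ne_zero (ec_ne_theta (x 2)) h6 using 1
    simp only [ND.Ψ, pol, ec_add_theta]
    ring
  · simp only [ND.Ψ, fl, Prod.snd_zero, zero_mul, add_zero] at ha hb ⊢
    refine mul_ne_zero (ec_ne_theta _) fun e => ?_
    have h1 := Int.fract_nonneg (a + 1 / 2)
    have h2 := Int.fract_lt_one (a + 1 / 2)
    have h3 : (Int.fract (a + 1 / 2) : ℝ) * ec b = (1 - Int.fract (a + 1 / 2) : ℝ) := by
      push_cast; linear_combination e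
    have h4 := congrArg norm h3
    have h5 : ‖ec b‖ = 1 := by
      simpa [ec] using Complex.norm_exp_ofReal_mul_I (2 * Real.pi * b)
    rw [norm_mul, h5, Complex.norm_real, Complex.norm_real, Real.norm_of_nonneg h1,
      Real.norm_of_nonneg (by linarith)] at h4
    have h6 : Int.fract (a + 1 / 2) = 1 / 2 := by linarith
    rw [h6] at h3
    obtain ⟨n, hn⟩ := Complex.exp_eq_one_iff.1
      (show ec b = 1 by push_cast at h3; linear_combination 2 * h3)
    have h7 : (b : ℂ) = n := mul_left_cancel₀ Complex.two_pi_I_ne_zero (by linear_combination hn)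
    have h8 : (b : UnitAddCircle) = 0 :=
      (AddCircle.coe_eq_zero_iff _).2 ⟨n, by rw [zsmul_eq_mul, mul_one]; exact_mod_cast h7.symm⟩
    have h9 : (a : UnitAddCircle) = 0 := (AddCircle.coe_eq_zero_iff _).2
      ⟨⌊a + 1 / 2⌋, by rw [zsmul_eq_mul, mul_one]; rw [Int.fract] at h6; linarith⟩
    have hx' : ((d.ρ₁ + 2) / (4 * (d.ρ₁ + 3))) ^ 2 <
      ‖(x 0 : UnitAddCircle)‖ ^ 2 + ‖(x 1 : UnitAddCircle)‖ ^ 2 := hx
    rw [← ha, ← hb, h8, h9, norm_zero] at hx'
    nlinarith [sq_nonneg ((d.ρ₁ + 2) / (4 * (d.ρ₁ + 3)))]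
  · obtain ⟨k, rfl⟩ := int_theta (a' := 0) ha
    rw [add_right_comm, Int.fract_add_intCast, Int.fract_eq_self.2 ⟨by norm_num, by norm_num⟩]
    simp only [ND.Ψ, fl, Prod.snd_zero, zero_mul, zero_add]
    exact mul_ne_zero (ec_ne_theta _) (by norm_num)

theorem lift_theta (f : E3 → UnitAddCircle) (hf : Continuous f) :
    ∃ a : E3 → ℝ, Continuous a ∧ ∀ w, (a w : UnitAddCircle) = f w := by
  obtain ⟨a0, h0⟩ := QuotientAddGroup.mk_surjective (f 0)
  obtain ⟨a, ⟨-, h⟩, -⟩ :=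
    (AddCircle.isCoveringMap_coe (1 : ℝ)).existsUnique_continuousMap_lifts ⟨f, hf⟩ 0 a0 h0
  exact ⟨a, a.continuous, congrFun h⟩

/-- The loop `x ↦ (5/2, x, 0)` of the neck is not null-homotopic. -/
theorem ND.Prof.theta {d : ND} (h : d.Prof) (p : E3 → d.MM) (hp : Continuous p) (L : ℝ → E3)
    (hL : Continuous L) (hl : ∀ x, (p (L x)).1 = d.Ψ none ![5 / 2, x, 0]) : L 1 ≠ L 0 := by
  obtain ⟨a, ha, ha'⟩ := lift_theta (fun w => (p w).1.1.1) (by fun_prop)
  obtain ⟨b, hb, hb'⟩ := lift_theta (fun w => (p w).1.1.2.1) (by fun_prop)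
  let f : E3 → ℝ → ℂ := fun w s => Complex.exp (-s * (Real.pi * Complex.I * (1 + 2 * b w))) *
    ((p w).1.1.2.2 * (s * ec (b w) - 1 + s) + (p w).1.2.2.2 * (s * (1 - s)))
  have hf : Continuous fun w => f w (Int.fract (a w + 1 / 2)) := by
    refine ContinuousOn.comp_fract (Continuous.continuousOn ?_) (by fun_prop) fun w => ?_
    · simp only [f, ec, Function.uncurry_def]
      fun_prop
    · have e : Complex.exp (-(Real.pi * Complex.I * (1 + 2 * b w))) * ec (b w) = -1 := by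
        rw [ec, ← Complex.exp_add, ← Complex.exp_neg_pi_mul_I]
        congr 1; ring
      simp only [f, Complex.ofReal_zero, Complex.ofReal_one, neg_zero, zero_mul, Complex.exp_zero,
        neg_mul, one_mul]
      linear_combination -(p w).1.1.2.2 * e
  have hne (w) : f w (Int.fract (a w + 1 / 2)) ≠ 0 :=
    mul_ne_zero (Complex.exp_ne_zero _) (ne_theta h (p w) (ha' w) (hb' w))
  obtain ⟨Λ, ⟨-, hΛ⟩, -⟩ := Complex.isCoveringMap_exp.existsUnique_continuousMap_lifts
    ⟨fun w => ⟨_, hne w⟩, hf.subtype_mk hne⟩ 0 (Complex.log _) (Subtype.ext (Complex.exp_log (hne 0)))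
  have hΛ' (w) : Complex.exp (Λ w) = f w (Int.fract (a w + 1 / 2)) :=
    congrArg Subtype.val (congrFun hΛ w)
  have m0 : mu (5 / 2) = 0 := by norm_num [mu]
  have m1 : mu (-(5 / 2)) = 1 := by norm_num [mu]
  have e1 (x) : (p (L x)).1.1 = 0 := by simp [hl, ND.Ψ, pol, lam, m0]
  have e2 (x) : (p (L x)).1.2.2.2 = ec x := by simp [hl, ND.Ψ, pol, m1]
  have e3 (x) : b (L x) = b (L 0) := (AddCircle.isCoveringMap_coe (1 : ℝ)).const_of_comp
    (g := fun x => b (L x)) (by fun_prop) (fun x y => by rw [hb', hb', e1, e1]) x 0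
  have e4 (x) : Int.fract (a (L x) + 1 / 2) = 1 / 2 := by
    obtain ⟨k, hk⟩ := int_theta (a' := 0) ((ha' (L x)).trans (by rw [e1]; rfl))
    rw [hk, add_right_comm, Int.fract_add_intCast, Int.fract_eq_self.2 ⟨by norm_num, by norm_num⟩,
      zero_add]
  have e5 (x : ℝ) : Complex.exp (Λ (L x) - 2 * Real.pi * x * Complex.I) =
      Complex.exp (-(1 / 2 : ℝ) * (Real.pi * Complex.I * (1 + 2 * b (L 0)))) *
        ((1 / 2 : ℝ) * (1 - (1 / 2 : ℝ))) := by
    rw [Complex.exp_sub, hΛ', e4, div_eq_iff (Complex.exp_ne_zero _)]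
    simp only [f, e1, e2, e3 x, ec, Prod.snd_zero]
    ring
  have e6 := Complex.isCoveringMap_exp.const_of_comp
    (g := fun x : ℝ => Λ (L x) - 2 * Real.pi * x * Complex.I) (by fun_prop)
    (fun x y => Subtype.ext ((e5 x).trans (e5 y).symm)) 1 0
  intro e
  rw [e] at e6
  exact Complex.two_pi_I_ne_zero (by push_cast at e6; linear_combination -e6)

end Vale.Agent.P255
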